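import Vale.Agent.P229.Sys

namespace Vale.Agent.P229

open Set Filter MeasureTheory Topology

noncomputable section

/-! JOB Base: transport of bounds between the two planes. -/

theorem base_trans {ε : ℝ} (hε : ε ≤ 1) (P V X Y : Rg)
    (h1 : ∀ i p, P.1 i (X.1 i p, Y.1 i p) = p.1 ∧ V.1 i (X.1 i p, Y.1 i p) = p.2)
    (h2 : ∀ i p, X.1 i (P.1 i p, V.1 i p) = p.1 ∧ Y.1 i (P.1 i p, V.1 i p) = p.2)
    (hc : ∀ i p, |d1 (X.1 i) p - 1| ≤ ε ∧ |d2 (X.1 i) p| ≤ ε ∧
      |d1 (Y.1 i) p| ≤ ε ∧ |d2 (Y.1 i) p - 1| ≤ ε)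
    {s : ℕ} {G O : ℕ → Set Pl} (hmap : ∀ i, ∀ p ∈ O i, (X.1 i p, Y.1 i p) ∈ G i)
    (hP : S (s + 1) G P) (hV : S (s + 1) G V) {f : Rg} (hf : S (s + 1) G f) :
    S (s + 1) O (cmp X Y f) := by
  have e1 : cmp X Y P = cX := Rg.ext' fun i p => (h1 i p).1
  have e2 : cmp X Y V = cY := Rg.ext' fun i p => (h1 i p).2
  have e3 : ∀ g, cmp X Y (cmp P V g) = g := fun g => Rg.ext' fun i p => by
    simp only [cmp_ap, (h1 i p).1, (h1 i p).2]
  have e4 : ∀ g, cmp P V (cmp X Y g) = g := fun g => Rg.ext' fun i p => by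
    simp only [cmp_ap, (h2 i p).1, (h2 i p).2]
  have r1 := D_cmp false X Y P
  have r2 := D_cmp true X Y P
  have r3 := D_cmp false X Y V
  have r4 := D_cmp true X Y V
  rw [e1, D1_cX] at r1
  rw [e1, D2_cX] at r2
  rw [e2, D1_cY] at r3
  rw [e2, D2_cY] at r4
  set Thi := cmp P V (D1 X * D2 Y - D2 X * D1 Y) with hThi
  have cT : cmp X Y Thi = D1 X * D2 Y - D2 X * D1 Y := e3 _
  have hinv : Thi * (D1 P * D2 V - D2 P * D1 V) = 1 := by
    rw [← e4 (D1 P * D2 V - D2 P * D1 V), hThi, ← map_mul, ← map_one (cmp P V)]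
    congr 1
    simp only [map_sub, map_mul]
    linear_combination (-(cmp X Y (D1 V) * D2 X + cmp X Y (D2 V) * D2 Y)) * r1 - r4
      + (cmp X Y (D1 V) * D1 X + cmp X Y (D2 V) * D1 Y) * r2
  have hb : Bd G Thi := by
    refine ⟨8, fun i p _ => ?_⟩
    obtain ⟨a1, a2, a3, a4⟩ := hc i (P.1 i p, V.1 i p)
    change |d1 (X.1 i) (P.1 i p, V.1 i p) * d2 (Y.1 i) (P.1 i p, V.1 i p)
      - d2 (X.1 i) (P.1 i p, V.1 i p) * d1 (Y.1 i) (P.1 i p, V.1 i p)| ≤ 8
    rw [abs_le] at a1 a2 a3 a4 ⊢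
    constructor <;> nlinarith
  have hT : S s G Thi :=
    S_inv' (((hP.der false).mul (hV.der true)).sub ((hP.der true).mul (hV.der false))) hb hinv
  refine S_cmp X Y (fun b => cond b (-D2 P * Thi) (D2 V * Thi))
    (fun b => cond b (D1 P * Thi) (-D1 V * Thi)) hmap (fun b => ?_) (fun b => ?_) (fun b => ?_)
    (fun b => ?_) hf
  · cases b <;> simp only [cond_true, cond_false, map_mul, map_neg, cT]
    · linear_combination (D1 X) * r4 - (D2 X) * r3
    · linear_combination (D2 X) * r1 - (D1 X) * r2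
  · cases b <;> simp only [cond_true, cond_false, map_mul, map_neg, cT]
    · linear_combination (D1 Y) * r4 - (D2 Y) * r3
    · linear_combination (D2 Y) * r1 - (D1 Y) * r2
  · cases b
    · exact (hV.der true).mul hT
    · exact (hP.der true).neg.mul hT
  · cases b
    · exact (hV.der false).neg.mul hT
    · exact (hP.der false).mul hT

namespace Dat

variable {N : ℕ} {ε κ lmin : ℝ} (d : Dat N ε κ lmin)

theorem base_sub {f : Rg} (h : S 8 (fun _ => disc 9) f) : S 8 (fun _ => disc 4) f :=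
  h.mono_set fun _ p hp => lt_trans (show rr p < 4 from hp) (by norm_num)

theorem base_io : S 7 (fun _ => disc 4) d.io := by
  have hu := base_sub d.bu
  have hv := base_sub d.bv
  refine S_inv (fun _ => isOpen_disc 4)
    (((hu.der false).mul (hv.der true)).sub ((hu.der true).mul (hv.der false)))
    ⟨2, d.io_le⟩ fun i p hp => ?_
  exact sub_eq_zero.2 (d.io_mul i p hp)

theorem base_P : S 7 (fun _ => disc 4) d.P := by
  have hv := base_sub d.bv
  have hz := base_sub d.bz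
  refine S.congr (fun _ => isOpen_disc 4)
    (((((hv.der false).mul (hz.der true)).sub ((hz.der false).mul (hv.der true))).neg.mul
      d.base_io).sub (S_cst d.p0_le)) fun i p hp => ?_
  exact sub_eq_zero.2 (eq_sub_of_add_eq (d.P_eq i p hp))

theorem base_V : S 8 (fun _ => disc 4) d.V :=
  S.congr (fun _ => isOpen_disc 4) (base_sub d.bv) fun i p hp => sub_eq_zero.2 (d.V_eq i p hp)

theorem base_c {f : Rg} (hf : S 7 (fun _ => disc 4) f) : S 5 d.G0 (d.c f) :=
  base_trans (d.eps_le.trans (by norm_num)) d.P d.V d.X d.Y d.PV_XY d.XY_PV d.XY_close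
    (fun _ _ hp => (d.map_mem hp).1) (d.base_P.mono (by norm_num)) (d.base_V.mono (by norm_num))
    (hf.mono (by norm_num))

theorem base : ∀ γ ∈ d.Gam, S 5 d.G0 γ := by
  have hu := base_sub d.bu
  have hv := base_sub d.bv
  have hz := base_sub d.bz
  have h4 : ∀ _ : ℕ, disc 4 ⊆ Metric.closedBall 0 3 := fun _ => disc_subset (by norm_num)
  have hl : ∀ i, 0 < d.lam i := fun i => d.lmin_pos.trans_le (d.lam_ge i)
  rintro γ (rfl | rfl | rfl | rfl | rfl | rfl | rfl | rfl | rfl | rfl | rfl | rfl | rfl | rfl)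
  · exact d.base_c (f := cX) (S_fix h4 _ _)
  · exact d.base_c (f := cY) (S_fix h4 _ _)
  · exact d.base_c (hu.mono (by norm_num))
  · exact d.base_c (hz.mono (by norm_num))
  · exact d.base_c ((((hz.der false).mul (hu.der true)).sub
      ((hu.der false).mul (hz.der true))).neg.mul d.base_io)
  · exact d.base_c (hu.der false)
  · exact d.base_c (hu.der true)
  · exact d.base_c (hv.der false)
  · exact d.base_c (hv.der true)
  · exact d.base_c (S_fix h4 _ _)
  · exact S_fix (reg_Gf _ (by norm_num)).2 _ _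
  · exact S_cst (C := ε) fun i => by rw [abs_of_pos (hl i)]; exact d.lam_le i
  · refine S_cst (C := ε) fun i => ?_
    have h1 := hl i
    have h2 := d.kap_pos
    rw [abs_of_pos (by positivity), div_le_iff₀ (by positivity)]
    exact d.kap_le.trans (mul_le_mul_of_nonneg_left
      (pow_le_pow_left₀ d.lmin_pos.le (d.lam_ge i) 2) d.eps_pos.le)
  · exact S_cst d.p0_le

theorem back {J : ℕ} {η H : ℕ → ℝ} (hη : ∀ i, 2 * d.h i ≤ η i) (hH : ∀ i, 2 * η i ≤ H i)
    (hH' : ∀ i, H i ≤ 1 / 2) (hS : ∀ γ ∈ d.Gam, S (J + 1) (Gf η 2) γ) :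
    S J (fun i => Metric.sphere 0 (H i)) d.u ∧ S J (fun i => Metric.sphere 0 (H i)) d.v ∧
      S J (fun i => Metric.sphere 0 (H i)) d.z := by
  have hmap : ∀ i, ∀ p ∈ Metric.sphere (0 : Pl) (H i), (d.P.1 i p, d.V.1 i p) ∈ Gf η 2 i := by
    intro i p hp
    rw [mem_sphere_zero_iff_norm] at hp
    obtain ⟨h3, h4⟩ := d.PV_norm i p
    have h5 := d.h_pos i
    have h6 : ε * ‖p‖ ≤ 1 / 100 * ‖p‖ := mul_le_mul_of_nonneg_right d.eps_le (norm_nonneg p)
    have h7 : ‖(d.P.1 i p, d.V.1 i p) - p‖ ≤ 1 / 100 * ‖p‖ :=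
      max_le (h3.trans h6) (h4.trans h6)
    have a1 := norm_sub_norm_le p (d.P.1 i p, d.V.1 i p)
    rw [norm_sub_rev] at a1
    have a2 := norm_sub_norm_le (d.P.1 i p, d.V.1 i p) p
    have a3 := rr_le_norm_sq (d.P.1 i p, d.V.1 i p)
    have a4 := norm_nonneg (d.P.1 i p, d.V.1 i p)
    have a5 := hη i
    have a6 := hH i
    have a7 := hH' i
    exact ⟨by linarith, by nlinarith⟩
  have key : ∀ f : Rg, S (J + 1) (Gf η 2) (d.c f) → S J (fun i => Metric.sphere 0 (H i)) f := by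
    intro f hf
    have h1 := base_trans (d.eps_le.trans (by norm_num)) d.X d.Y d.P d.V d.XY_PV d.PV_XY d.PV_close
      hmap (hS _ (by simp [Gam])) (hS _ (by simp [Gam])) hf
    have e : cmp d.P d.V (d.c f) = f := Rg.ext' fun i p => by
      simp only [c, cmp_ap, (d.XY_PV i p).1, (d.XY_PV i p).2]
    rw [e] at h1
    exact h1.mono (Nat.le_succ J)
  refine ⟨key _ (hS d.U (by simp [Gam])), key _ ?_, key _ (hS d.Zt (by simp [Gam]))⟩
  refine S.congr (f := cY) (reg_Gf η (σ := 2) (by norm_num)).1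
    (S_fix (reg_Gf η (σ := 2) (by norm_num)).2 _ _) fun i p hp => ?_
  have hp0 : p ∈ d.G0 i := ⟨(hη i).trans_lt hp.1, lt_trans hp.2 (by norm_num)⟩
  refine sub_eq_zero.2 ?_
  rw [cY_ap, ← (d.PV_XY i p).2, d.V_eq i _ (d.map_mem hp0).1]
  rfl

end Dat

end

end Vale.Agent.P229
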