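import Vale.Agent.P229.Defs2

namespace Vale.Agent.P229

open Set Filter MeasureTheory Topology

noncomputable section

/-! JOB Sob: Sobolev embedding on rectangles pointing away from the axes. -/

theorem sob_1d {g g' : ℝ → ℝ} (hg : ∀ x, HasDerivAt g (g' x) x) (hg' : Continuous g') {a l x0 : ℝ}
    (hl : 0 < l) (hx : x0 ∈ Icc a (a + l)) :
    g x0 ^ 2 ≤ (1 / l + 1) * ∫ x in Ioc a (a + l), (g x ^ 2 + g' x ^ 2) := by
  have hc : Continuous g := continuous_iff_continuousAt.2 fun x => (hg x).continuousAt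
  have hF : Continuous fun x => g x ^ 2 + g' x ^ 2 := by fun_prop
  rw [← intervalIntegral.integral_of_le (by linarith)]
  have hsub : ∀ x y, a ≤ x → x ≤ y → y ≤ a + l →
      |g y ^ 2 - g x ^ 2| ≤ ∫ x in a..(a + l), (g x ^ 2 + g' x ^ 2) := by
    intro x y h1 h2 h3
    have e := intervalIntegral.integral_eq_sub_of_hasDerivAt (a := x) (b := y)
      (f := fun x => g x ^ 2) (f' := fun x => 2 * g x * g' x)
      (fun t _ => by simpa using (hg t).fun_pow 2) (Continuous.intervalIntegrable (by fun_prop) _ _)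
    rw [← e]
    refine (intervalIntegral.abs_integral_le_integral_abs h2).trans (le_trans
      (intervalIntegral.integral_mono_on h2 (Continuous.intervalIntegrable (by fun_prop) _ _)
        (hF.intervalIntegrable _ _) fun t _ => abs_le.2 ⟨?_, ?_⟩)
      (intervalIntegral.integral_mono_interval h1 h2 h3
        (Eventually.of_forall fun t => by positivity) (hF.intervalIntegrable _ _)))
    · nlinarith [sq_nonneg (g t + g' t)]
    · nlinarith [sq_nonneg (g t - g' t)]
  have h1 : ∫ _ in a..(a + l), (g x0 ^ 2 - ∫ x in a..(a + l), (g x ^ 2 + g' x ^ 2)) ≤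
      ∫ x in a..(a + l), (g x ^ 2 + g' x ^ 2) := by
    refine intervalIntegral.integral_mono_on (by linarith) intervalIntegrable_const
      (hF.intervalIntegrable _ _) fun t ht => ?_
    have := sq_nonneg (g' t)
    rcases le_total t x0 with h | h
    · linarith [(abs_le.1 (hsub t x0 ht.1 h hx.2)).2]
    · linarith [(abs_le.1 (hsub x0 t hx.1 h ht.2)).1]
  rw [intervalIntegral.integral_const, smul_eq_mul, add_sub_cancel_left] at h1
  refine le_of_mul_le_mul_left ?_ hl
  rw [← mul_assoc, mul_add, mul_one_div_cancel hl.ne']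
  linarith

theorem sob_der1 {f : Pl → ℝ} (hf : Sm f) (x y : ℝ) :
    HasDerivAt (fun x => f (x, y)) (d1 f (x, y)) x :=
  (hf.diff (x, y)).hasFDerivAt.comp_hasDerivAt x ((hasDerivAt_id x).prodMk (hasDerivAt_const x y))

theorem sob_der2 {f : Pl → ℝ} (hf : Sm f) (x y : ℝ) :
    HasDerivAt (fun y => f (x, y)) (d2 f (x, y)) y :=
  (hf.diff (x, y)).hasFDerivAt.comp_hasDerivAt y ((hasDerivAt_const y x).prodMk (hasDerivAt_id y))

theorem sob_2d {f : Pl → ℝ} (hf : Sm f) {a b l : ℝ} (hl : 0 < l) {p : Pl}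
    (h1 : p.1 ∈ Icc a (a + l)) (h2 : p.2 ∈ Icc b (b + l)) :
    f p ^ 2 ≤ (1 / l + 1) ^ 2 * ∫ q in Ioc a (a + l) ×ˢ Ioc b (b + l),
      (f q ^ 2 + d2 f q ^ 2 + (d1 f q ^ 2 + d2 (d1 f) q ^ 2)) := by
  have c0 := hf.continuous
  have c1 := (hf.dd false).continuous
  have c2 := (hf.dd true).continuous
  have c3 := ((hf.dd false).dd true).continuous
  have hI : IntegrableOn (fun q => f q ^ 2 + d2 f q ^ 2 + (d1 f q ^ 2 + d2 (d1 f) q ^ 2))
      (Ioc a (a + l) ×ˢ Ioc b (b + l)) (volume.prod volume) :=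
    (ContinuousOn.integrableOn_compact (isCompact_Icc.prod isCompact_Icc)
      (Continuous.continuousOn (by fun_prop))).mono_set
      (prod_mono Ioc_subset_Icc_self Ioc_subset_Icc_self)
  rw [Measure.volume_eq_prod, setIntegral_prod _ hI]
  have hI2 := Integrable.integral_prod_left (by rwa [IntegrableOn, ← Measure.prod_restrict] at hI)
  refine (sob_1d (fun x => sob_der1 hf x p.2) (by fun_prop) hl h1).trans ?_
  rw [sq (1 / l + 1), mul_assoc, ← integral_const_mul (1 / l + 1)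
    (μ := volume.restrict (Ioc a (a + l))) fun x => ∫ y in Ioc b (b + l), _]
  refine mul_le_mul_of_nonneg_left (integral_mono
    (Continuous.integrableOn_Ioc (by fun_prop)) (hI2.const_mul _) fun x => ?_) (by positivity)
  have e1 := sob_1d (fun y => sob_der2 hf x y) (by fun_prop) hl h2
  have e2 := sob_1d (fun y => sob_der2 (hf.dd false) x y) (by fun_prop) hl h2
  simp only
  rw [integral_add (Continuous.integrableOn_Ioc (by fun_prop))
    (Continuous.integrableOn_Ioc (by fun_prop))]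
  linarith

theorem sob_side (x : ℝ) {l : ℝ} (hl : 0 < l) : ∃ a, x ∈ Icc a (a + l) ∧
    ∀ y ∈ Ioc a (a + l), |x| ≤ |y| ∧ |y| ≤ |x| + l := by
  rcases le_total 0 x with h | h
  · refine ⟨x, ⟨le_rfl, by linarith⟩, fun y hy => ?_⟩
    rw [abs_of_nonneg h, abs_of_nonneg (by linarith [hy.1])]
    exact ⟨hy.1.le, hy.2⟩
  · refine ⟨x - l, ⟨by linarith, by linarith⟩, fun y hy => ?_⟩
    rw [abs_of_nonpos h, abs_of_nonpos (by linarith [hy.2])]
    constructor <;> linarith [hy.1, hy.2]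

theorem sobolev (η : ℕ → ℝ) {σ σ' : ℝ} (h0 : 0 ≤ σ') (h : σ' < σ) (hσ : σ ≤ 3) {f : Rg}
    (hf : Nn 2 (Gf η σ) f) : Bd (Gf η σ') f := by
  have _ := h0
  obtain ⟨C0, b0⟩ := hf [] (by simp)
  obtain ⟨C1, b1⟩ := hf [true] (by simp)
  obtain ⟨C2, b2⟩ := hf [false] (by simp)
  obtain ⟨C3, b3⟩ := hf [false, true] (by simp)
  simp only [W_cons, W_nil, D_ap] at b0 b1 b2 b3
  obtain ⟨l, hl⟩ : ∃ l, l = (σ - σ') / 20 := ⟨_, rfl⟩
  have hl0 : 0 < l := by linarith
  refine ⟨(1 / l + 1) ^ 2 * (C0 + C1 + (C2 + C3)) + 1, fun i p hp => ?_⟩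
  obtain ⟨a, ha, ha'⟩ := sob_side p.1 hl0
  obtain ⟨b, hb, hb'⟩ := sob_side p.2 hl0
  have hsub : Ioc a (a + l) ×ˢ Ioc b (b + l) ⊆ Gf η σ i := by
    rintro q ⟨q1, q2⟩
    obtain ⟨a1, a2⟩ := ha' _ q1
    obtain ⟨a3, a4⟩ := hb' _ q2
    refine ⟨hp.1.trans_le (max_le_max a1 a3), ?_⟩
    have e := hp.2
    simp only [rr] at e ⊢
    rw [← sq_abs p.1, ← sq_abs p.2] at e
    rw [← sq_abs q.1, ← sq_abs q.2]
    have n1 := abs_nonneg p.1
    have n2 := abs_nonneg p.2
    have p1 : |p.1| ≤ 2 := by nlinarith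
    have p2 : |p.2| ≤ 2 := by nlinarith
    have s1 := pow_le_pow_left₀ (abs_nonneg _) a2 2
    have s2 := pow_le_pow_left₀ (abs_nonneg _) a4 2
    nlinarith
  have hi : ∀ {φ : Pl → ℝ}, Sm φ → Integrable (fun q => φ q ^ 2) (volume.restrict (Gf η σ i)) :=
    fun hφ => ((hφ.continuous.pow 2).continuousOn.integrableOn_compact
      (isCompact_closedBall 0 3)).mono_set ((reg_Gf η (by linarith)).2 i)
  have s0 := f.sm i
  have i0 := hi s0
  have i1 := hi (s0.dd true)
  have i2 := hi (s0.dd false)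
  have i3 := hi ((s0.dd false).dd true)
  have k1 := sob_2d s0 hl0 ha hb
  have k2 := setIntegral_mono_set (f := fun q => f.1 i q ^ 2 + d2 (f.1 i) q ^ 2 +
    (d1 (f.1 i) q ^ 2 + d2 (d1 (f.1 i)) q ^ 2))
    (show Integrable _ (volume.restrict (Gf η σ i)) from (i0.fun_add i1).fun_add (i2.fun_add i3))
    (Eventually.of_forall fun q => by positivity) hsub.eventuallyLE
  rw [integral_add (i0.fun_add i1) (i2.fun_add i3), integral_add i0 i1, integral_add i2 i3] at k2
  have k3 := mul_le_mul_of_nonneg_left (k2.trans (add_le_add (add_le_add (b0 i) (b1 i))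
    (add_le_add (b2 i) (b3 i)))) (sq_nonneg (1 / l + 1))
  rw [← sq_abs] at k1
  nlinarith [sq_nonneg (|f.1 i p| - 1)]

theorem sobolev_S (η : ℕ → ℝ) {σ σ' : ℝ} (h0 : 0 ≤ σ') (h : σ' < σ) (hσ : σ ≤ 3) {f : Rg}
    {s : ℕ} (hf : Nn (s + 2) (Gf η σ) f) : S s (Gf η σ') f := by
  intro l hl
  refine sobolev η h0 h hσ fun l' hl' => ?_
  rw [← W_append]
  exact hf _ (by rw [List.length_append]; omega)

end

end Vale.Agent.P229
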