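import Vale.Agent.P229.Energy
import Vale.Agent.P229.Sob

namespace Vale.Agent.P229

open Set Filter MeasureTheory Topology

noncomputable section

/-! JOB Boot: the bootstrap to arbitrary order for an abstract closed system. -/

theorem boot_P (n : ℕ) (f : Rg) :
    W (List.replicate (n + 1) false) f = D1 (W (List.replicate n false) f) := by
  rw [clsA_P, W_D]

/-- all derivatives of the top order from the two tangential ones -/
theorem boot_words {G : ℕ → Set Pl} (hG : Reg G) {s : ℕ} (hs : 3 ≤ s) {u a : Rg}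
    (hu : A (s + 2) G u) (ha : A (s + 2) G a) (he : Z G (D2 (D2 u) + D1 (a * D1 u)))
    (h1 : L2 G (D1 (W (List.replicate (s + 2) false) u)))
    (h2 : L2 G (D2 (W (List.replicate (s + 2) false) u))) : Nn (s + 3) G u := by
  have key : ∀ c n, n + c = s + 3 →
      L2 G (W (List.replicate n false ++ List.replicate c true) u) := by
    intro c
    induction c using Nat.strong_induction_on with
    | _ c ih =>
      intro n hn
      rcases c with _ | _ | c
      · obtain rfl : n = s + 2 + 1 := by omega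
        rwa [List.replicate_zero, List.append_nil, boot_P]
      · obtain rfl : n = s + 2 := by omega
        rwa [W_append]
      · have e : W (List.replicate n false ++ List.replicate (c + 1 + 1) true) u =
            W (List.replicate n false ++ List.replicate c true) (D2 (D2 u)) := by
          rw [W_append, W_append, W_D (List.replicate n false), W_D (List.replicate n false)]
          rfl
        have i := ih c (by omega) (n + 2) (by omega)
        rw [e]
        change L2 G (W (List.replicate n false ++ List.replicate c true) (D1 (D1 u))) at i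
        have hl : (List.replicate n false ++ List.replicate c true).length = s + 1 := by
          simp only [List.length_append, List.length_replicate]
          omega
        generalize List.replicate n false ++ List.replicate c true = l at *
        have c1 := comm_est hG ha ((hu.der false).der false) l (by omega) (by omega) (by omega)
        have c2 := L2.bd_mul hG (ha.bd (by omega)) i
        have c3 := (A.mul hG (by omega) (hu.der false) (ha.der false)).1 l hl.le
        refine ((c1.add hG c2).add hG c3).neg.congr hG ?_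
        convert he.word hG.1 l using 1
        rw [D_mul, map_add, map_add]
        ring
  intro l hl
  rcases hl.lt_or_eq with hl | hl
  · exact hu.1 l (by omega)
  · have hp : l.Perm (List.replicate (l.count false) false ++ List.replicate (l.count true) true) :=
      (List.perm_replicate_append_replicate (by simp)).2 ⟨rfl, rfl, fun b _ => by cases b <;> simp⟩
    rw [W_perm hp]
    exact key _ _ (by simp [hl])

/-- the linear equation for the tangential derivative -/
theorem boot_eq {G : ℕ → Set Pl} (hG : Reg G) {s : ℕ} (hs : 4 ≤ s) {u a g f2 f0 : Rg}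
    (hu : A (s + 1) G u) (ha : A (s + 1) G a) (hg : A (s + 1) G g) (hf2 : A (s + 1) G f2)
    (hf0 : A (s + 1) G f0) (he : Z G (D2 (D2 u) + D1 (a * D1 u)))
    (he2 : Z G (D1 a - (g * D1 u + f2 * D2 u + f0))) :
    ∃ f, L2 G f ∧ Z G (D2 (D2 (W (List.replicate (s + 1) false) u)) +
      a * D1 (D1 (W (List.replicate (s + 1) false) u)) +
      ((((s + 1 : ℕ) : Rg) + 1) * D1 a + D1 u * g) * D1 (W (List.replicate (s + 1) false) u) +
      f2 * D1 u * D2 (W (List.replicate (s + 1) false) u) - f) := by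
  have r1 := leib3 hG (by omega) ha hu
  have r2 := comm_est hG hg (hu.der false) (List.replicate (s + 1) false) (by simp) (by simp)
    (by simp; omega)
  have r3 := comm_est hG hf2 (hu.der true) (List.replicate (s + 1) false) (by simp) (by simp)
    (by simp; omega)
  have r4 := hf0.1 (List.replicate (s + 1) false) (by simp)
  refine ⟨_, ((L2.bd_mul hG ((hu.der false).bd (by omega)) ((r2.add hG r3).add hG r4)).add hG
    r1).neg, ?_⟩
  convert (he.word hG.1 (List.replicate (s + 1) false)).sub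
    ((he2.word hG.1 (List.replicate (s + 1) false)).mul_left (D1 u)) using 1
  simp only [boot_P (s + 1 + 1), boot_P (s + 1), map_add, map_sub, W_D]
  ring

theorem boot_sub {η η' : ℕ → ℝ} {σ σ' : ℝ} (h1 : ∀ i, η i ≤ η' i) (h2 : σ' ≤ σ) (i : ℕ) :
    Gf η' σ' i ⊆ Gf η σ i := fun _ hp => ⟨(h1 i).trans_lt hp.1, hp.2.trans_le h2⟩

theorem bootstrap (J : ℕ) : ∃ ε > 0, ∀ μ0 > 0, ∃ η0 > 0,
    ∀ (η μ : ℕ → ℝ) (Γ : Set Rg) (u a g f2 f0 : Rg),
      (∀ i, 0 < η i ∧ η i ≤ η0) → (∀ i, μ0 ≤ μ i ∧ μ i ≤ ε) → u ∈ Γ →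
      (∀ γ ∈ Γ, S 5 (Gf η 3) γ) →
      (∀ T : Subalgebra ℝ Rg, (∀ γ ∈ Γ, γ ∈ T) → a ∈ T ∧ g ∈ T ∧ f2 ∈ T ∧ f0 ∈ T) →
      (∀ T : Subalgebra ℝ Rg, (∀ φ, Z (Gf η 3) φ → φ ∈ T) → (∀ γ ∈ Γ, γ ∈ T) →
        D1 u ∈ T → D2 u ∈ T → ∀ γ ∈ Γ, ∀ b, D b γ ∈ T) →
      Z (Gf η 3) (D2 (D2 u) + D1 (a * D1 u)) →
      Z (Gf η 3) (D1 a - (g * D1 u + f2 * D2 u + f0)) →
      (∀ i, ∀ p ∈ Gs (η i) 3, |a.1 i p - μ i * (rr p - 1)| ≤ μ i * ε ∧
        |(D1 a).1 i p - 2 * μ i * p.1| ≤ μ i * ε ∧ |(D2 a).1 i p - 2 * μ i * p.2| ≤ μ i * ε ∧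
        |(f2 * D2 u + f0).1 i p| ≤ μ i * ε ∧ |(f2 * D1 u).1 i p| ≤ μ i * ε) →
      ∀ γ ∈ Γ, S J (Gf (fun i => 2 ^ (J + 2) * η i) 2) γ := by
  have hM : (7 : ℝ) ≤ J + 9 := by linarith [Nat.cast_nonneg (α := ℝ) J]
  obtain ⟨εE, hεE, hE⟩ := energy (J + 9) hM
  refine ⟨εE / (J + 10), by positivity, fun μ0 hμ0 => ?_⟩
  obtain ⟨η0, hη0, hE⟩ := hE μ0 hμ0
  refine ⟨η0 / 2 ^ (J + 2), by positivity, ?_⟩
  intro η μ Γ u a g f2 f0 hη hμ hu h5 hT hcl he he2 hco
  obtain ⟨ε, hε⟩ : ∃ ε, ε = εE / (J + 10) := ⟨_, rfl⟩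
  rw [← hε] at hμ hco
  have hε0 : 0 < ε := by rw [hε]; positivity
  have hε1 : (J + 10) * ε = εE := by rw [hε]; field_simp
  have hJ : (0 : ℝ) ≤ J * ε := by positivity
  have step : ∀ (s : ℕ) (η' : ℕ → ℝ) (σ σ2 : ℝ), 3 ≤ s → s ≤ J + 5 → (∀ i, η i ≤ η' i ∧ η' i ≤ η0) →
      2 ≤ σ2 → σ2 < σ → σ ≤ 3 → (∀ γ ∈ Γ, A (s + 2) (Gf η' σ) γ) →
      ∀ γ ∈ Γ, A (s + 3) (Gf (fun i => 2 * η' i) σ2) γ := by
    intro s η' σ σ2 hs hsJ hη' h1 h2 h3 hA
    have hG := reg_Gf η' (show σ ≤ 9 by linarith)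
    have hG1 := reg_Gf (fun i => 2 * η' i) (show (σ + σ2) / 2 ≤ 9 by linarith)
    have hG2 := reg_Gf (fun i => 2 * η' i) (show σ2 ≤ 9 by linarith)
    have hpos : ∀ i, 0 < η' i := fun i => (hη i).1.trans_le (hη' i).1
    have s0 := boot_sub (fun i => (hη' i).1) h3
    have s1 : ∀ i, Gf (fun i => 2 * η' i) ((σ + σ2) / 2) i ⊆ Gf η' σ i :=
      boot_sub (fun i => by linarith [hpos i]) (by linarith)
    have s2 : ∀ i, Gf (fun i => 2 * η' i) σ2 i ⊆ Gf (fun i => 2 * η' i) ((σ + σ2) / 2) i :=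
      boot_sub (fun i => le_rfl) (by linarith)
    obtain ⟨ha, hg, hf2, hf0⟩ := hT (ASub (s + 2) _ hG (by omega)) hA
    obtain ⟨f, hf, hZ⟩ := boot_eq hG (by omega) (hA u hu) ha hg hf2 hf0 (he.mono s0) (he2.mono s0)
    obtain ⟨e1, e2⟩ := hE ((σ + σ2) / 2) σ (by linarith) (by linarith) h3 η' μ (s + 4) _ _ _ _ _
      (fun i => ⟨hpos i, (hη' i).2⟩) hZ (fun i p hp => by
        obtain ⟨c1, c2, c3, c4, c5⟩ := hco i p (s0 i hp)
        have hμ1 : 0 < μ i := hμ0.trans_le (hμ i).1
        have hle : μ i * ε ≤ μ i * εE := by gcongr; linarith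
        have hs' : (3 : ℝ) ≤ s := by exact_mod_cast hs
        have hs'' : (s : ℝ) ≤ J + 5 := by exact_mod_cast hsJ
        refine ⟨(hμ i).1, by linarith [(hμ i).2], by linarith, by linarith, c1.trans hle,
          c2.trans hle, c3.trans hle, ?_, c5.trans hle⟩
        have z := he2 i p (s0 i hp)
        simp only [Rg.add_ap, Rg.sub_ap, Rg.mul_ap, Rg.natCast_ap, Rg.one_ap] at z c4 ⊢
        have e : ((((s + 1 + 1 : ℕ) : ℝ) + 1) * (D1 a).1 i p + (D1 u).1 i p * g.1 i p) -
            2 * (s + 4) * μ i * p.1 = (s + 4) * ((D1 a).1 i p - 2 * μ i * p.1) -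
              (f2.1 i p * (D2 u).1 i p + f0.1 i p) := by
          push_cast
          linarith
        rw [e]
        refine (abs_sub _ _).trans ?_
        rw [abs_mul, abs_of_pos (show (0 : ℝ) < s + 4 by positivity), ← hε1]
        have : (s + 4) * |(D1 a).1 i p - 2 * μ i * p.1| ≤ (J + 9) * (μ i * ε) :=
          mul_le_mul (by linarith) c2 (abs_nonneg _) (by linarith)
        linarith) ((hA u hu).1 _ (by simp)) hf
    have hN := boot_words hG1 hs ((hA u hu).mono_set hG hG1 s1) (A.mono_set hG hG1 ha s1)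
      ((he.mono s0).mono s1) e1 e2
    have hu' : A (s + 2 + 1) (Gf (fun i => 2 * η' i) σ2) u := ⟨hN.mono_set hG1 hG2 s2, fun t ht =>
      sobolev_S _ (by linarith) (show σ2 < (σ + σ2) / 2 by linarith) (by linarith) (hN.mono ht)⟩
    have hA' : ∀ γ ∈ Γ, A (s + 2) (Gf (fun i => 2 * η' i) σ2) γ := fun γ hγ =>
      (hA γ hγ).mono_set hG hG2 fun i => (s2 i).trans (s1 i)
    exact fun γ hγ => A_succ hG2 ((hA' γ hγ).bd (by omega)) (hcl (ASub (s + 2) _ hG2 (by omega))
      (fun φ hφ => (hφ.mono fun i => ((s2 i).trans (s1 i)).trans (s0 i)).toA hG2) hA'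
      (hu'.der false) (hu'.der true) γ hγ)
  have main : ∀ k ≤ J + 2, ∀ γ ∈ Γ,
      A (k + 3 + 2) (Gf (fun i => 2 ^ k * η i) (2 + 1 / (k + 1))) γ := by
    intro k hk
    induction k with
    | zero =>
      intro γ hγ
      have := (h5 γ hγ).toA (reg_Gf η (by norm_num))
      convert this using 2
      · simp
      · norm_num
    | succ k ih =>
      have hk0 : (0 : ℝ) ≤ k := Nat.cast_nonneg k
      have := step (k + 3) (fun i => 2 ^ k * η i) (2 + 1 / (k + 1)) (2 + 1 / ((k + 1 : ℕ) + 1))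
        (by omega) (by omega) (fun i => ⟨le_mul_of_one_le_left (hη i).1.le
          (one_le_pow₀ one_le_two), by
            have h1 := (hη i).2
            rw [le_div_iff₀' (by positivity)] at h1
            refine le_trans ?_ h1
            have := (hη i).1
            gcongr
            · norm_num
            · omega⟩)
        (le_add_of_nonneg_right (by positivity)) (by push_cast; gcongr; linarith)
        (by
          have : (1 : ℝ) / (k + 1) ≤ 1 := by rw [div_le_one (by positivity)]; linarith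
          linarith) (ih (by omega))
      simpa only [pow_succ', mul_assoc] using this
  exact fun γ hγ => ((main (J + 2) le_rfl γ hγ).2 J (by omega)).mono_set
    (boot_sub (fun _ => le_rfl) (le_add_of_nonneg_right (by positivity)))

end

end Vale.Agent.P229
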