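import Vale.Agent.P229.Defs2

namespace Vale.Agent.P229

open Set Filter MeasureTheory Topology

noncomputable section

/-! JOB Chart: the globalised hodograph chart. -/

theorem chart_mul {a b A B : ℝ} (ha : |a| ≤ A) (hb : |b| ≤ B) : |a * b| ≤ A * B := by
  rw [abs_mul]; exact mul_le_mul ha hb (abs_nonneg _) ((abs_nonneg _).trans ha)

theorem chart_Dl {ε ux uy vx vy : ℝ} (hε : ε ≤ 1 / 100) (h1 : |ux - 1| ≤ ε) (h2 : |uy| ≤ ε)
    (h3 : |vx| ≤ ε) (h4 : |vy - 1| ≤ ε) : |ux * vy - uy * vx - 1| ≤ 3 * ε := by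
  have h0 : 0 ≤ ε := (abs_nonneg _).trans h2
  have a1 := abs_le.1 (chart_mul h1 h4)
  have a2 := abs_le.1 (chart_mul h2 h3)
  have a3 : ε * ε ≤ 1 / 100 * ε := mul_le_mul_of_nonneg_right hε h0
  rw [abs_le] at h1 h4 ⊢
  constructor <;> nlinarith

theorem chart_div {Δ T B ε : ℝ} (hε : ε ≤ 1 / 100) (h1 : |Δ - 1| ≤ 3 * ε) (h2 : |Δ * T| ≤ B) :
    |T| ≤ 100 / 97 * B := by
  have h3 : 97 / 100 ≤ |Δ| := le_trans (by linarith [(abs_le.1 h1).1]) (le_abs_self Δ)
  rw [abs_mul] at h2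
  nlinarith [abs_nonneg T]

theorem chart_ph {ε Δ vx vy zx zy ph : ℝ} (hε : ε ≤ 1 / 100) (h1 : |Δ - 1| ≤ 3 * ε)
    (h3 : |vx| ≤ ε) (h4 : |vy - 1| ≤ ε) (h5 : |zx| ≤ 100) (h6 : |zy| ≤ 100)
    (h : Δ * ph = -(vx * zy - zx * vy)) : |ph| ≤ 200 := by
  have a1 := abs_le.1 (chart_mul h3 h6)
  have a2 := abs_le.1 (chart_mul h5 h4)
  have a3 := abs_le.1 h5
  have h7 : |Δ * ph| ≤ 102 := by
    rw [h, abs_le]; constructor <;> nlinarith
  linarith [chart_div hε h1 h7]

theorem chart_alg {ε ux uy vx vy zx zy ph T ux' uy' vx' vy' zx' zy' e : ℝ} (hε : ε ≤ 1 / 100)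
    (h1 : |ux - 1| ≤ ε) (h2 : |uy| ≤ ε) (h3 : |vx| ≤ ε) (h4 : |vy - 1| ≤ ε)
    (h5 : |zx| ≤ 100) (h6 : |zy| ≤ 100) (g1 : |ux'| ≤ ε) (g2 : |uy'| ≤ ε) (g3 : |vx'| ≤ ε)
    (g4 : |vy'| ≤ ε) (g5 : |zx' - e| ≤ ε) (g6 : |zy'| ≤ ε) (he : |e| ≤ 1) (hph : |ph| ≤ 200)
    (h : ph * (ux * vy' + vy * ux' - (uy * vx' + vx * uy')) + (ux * vy - uy * vx) * T
      = -(vx * zy' + zy * vx' - (zx * vy' + vy * zx'))) : |T - e| ≤ 1000 * ε := by
  have h0 : 0 ≤ ε := (abs_nonneg _).trans h2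
  have a0 : ε * ε ≤ 1 / 100 * ε := mul_le_mul_of_nonneg_right hε h0
  have hD := chart_Dl hε h1 h2 h3 h4
  have b1 : |ux * vy' + vy * ux' - (uy * vx' + vx * uy')| ≤ 3 * ε := by
    have a1 := abs_le.1 (chart_mul h1 g4)
    have a2 := abs_le.1 (chart_mul h4 g1)
    have a3 := abs_le.1 (chart_mul h2 g3)
    have a4 := abs_le.1 (chart_mul h3 g2)
    rw [abs_le] at g1 g4 ⊢
    constructor <;> nlinarith
  have b2 : |-(vx * zy' + zy * vx' - (zx * vy' + vy * zx')) - e| ≤ 204 * ε := by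
    have a1 := abs_le.1 (chart_mul h3 g6)
    have a2 := abs_le.1 (chart_mul h6 g3)
    have a3 := abs_le.1 (chart_mul h5 g4)
    have a4 := abs_le.1 (chart_mul h4 g5)
    have a5 := abs_le.1 (chart_mul h4 he)
    rw [abs_le] at g5 ⊢
    constructor <;> nlinarith
  have b3 := abs_le.1 (chart_mul hph b1)
  have b4 := abs_le.1 (chart_mul hD he)
  have b5 : |(ux * vy - uy * vx) * (T - e)| ≤ 807 * ε := by
    rw [abs_le] at b2 ⊢
    constructor <;> nlinarith
  linarith [chart_div hε hD b5]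

/-- The cutoff. -/
def chart_chi (p : Pl) : ℝ := Real.smoothTransition ((8 - rr p) / 4)

theorem chart_sm : Sm chart_chi := by unfold Sm chart_chi rr; fun_prop

theorem chart_one {p : Pl} (hp : p ∈ disc 4) : chart_chi p = 1 :=
  Real.smoothTransition.one_of_one_le (by have : rr p < 4 := hp; linarith)

theorem chart_zero {p : Pl} (hp : 8 < rr p) : ∀ᶠ q in 𝓝 p, chart_chi q = 0 :=
  eventually_of_mem ((isOpen_lt continuous_const sm_rr.continuous).mem_nhds hp) fun q hq =>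
    Real.smoothTransition.zero_of_nonpos (by have : 8 < rr q := hq; linarith)

theorem chart_K : ∃ K : ℝ, 0 ≤ K ∧ ∀ b, ∀ p ∈ disc 9, |dd b chart_chi p| ≤ K := by
  obtain ⟨K1, h1⟩ := (isCompact_closedBall (0 : Pl) 3).exists_bound_of_continuousOn
    (chart_sm.dd false).continuous.continuousOn
  obtain ⟨K2, h2⟩ := (isCompact_closedBall (0 : Pl) 3).exists_bound_of_continuousOn
    (chart_sm.dd true).continuous.continuousOn
  refine ⟨max 0 (max K1 K2), le_max_left _ _, fun b p hp => le_max_of_le_right ?_⟩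
  cases b
  · exact le_max_of_le_left (h1 p (disc_subset le_rfl hp))
  · exact le_max_of_le_right (h2 p (disc_subset le_rfl hp))

theorem chart_mv {g : Pl → ℝ} {δ : ℝ} (hg : ∀ p ∈ disc 9, DifferentiableAt ℝ g p) (h0 : g 0 = 0)
    (hd : ∀ b, ∀ p ∈ disc 9, |dd b g p| ≤ δ) {p : Pl} (hp : p ∈ disc 9) : |g p| ≤ 6 * δ := by
  have hδ : 0 ≤ δ := (abs_nonneg _).trans (hd false p hp)
  have hs : segment ℝ 0 p ⊆ disc 9 := by
    rintro _ ⟨a, t, ha, ht, hat, rfl⟩
    have h1 : rr p < 9 := hp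
    have h2 : 0 ≤ rr p := by unfold rr; positivity
    have h3 : rr (a • (0 : Pl) + t • p) = t ^ 2 * rr p := by simp [rr]; ring
    have h4 : t ^ 2 ≤ 1 := by nlinarith
    change rr _ < 9
    rw [h3]; nlinarith
  have h1 := (convex_segment (0 : Pl) p).norm_image_sub_le_of_norm_fderiv_le (𝕜 := ℝ) (C := 2 * δ)
    (fun q hq => hg q (hs hq)) (fun q hq => ContinuousLinearMap.opNorm_le_bound _ (by positivity)
      fun w => by
        rw [fderiv_apply_eq, Real.norm_eq_abs]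
        have a1 := chart_mul (norm_fst_le w : |w.1| ≤ ‖w‖) (hd false q (hs hq))
        have a2 := chart_mul (norm_snd_le w : |w.2| ≤ ‖w‖) (hd true q (hs hq))
        linarith [abs_add_le (w.1 * d1 g q) (w.2 * d2 g q)])
    (left_mem_segment ℝ 0 p) (right_mem_segment ℝ 0 p)
  rw [h0, sub_zero, sub_zero, Real.norm_eq_abs] at h1
  have h2 : ‖p‖ ≤ 3 := mem_closedBall_zero_iff.1 (disc_subset le_rfl hp)
  nlinarith

theorem chart_cut {g : Pl → ℝ} {δ K : ℝ} (hK0 : 0 ≤ K) (hδ : 0 ≤ δ)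
    (hK : ∀ b, ∀ p ∈ disc 9, |dd b chart_chi p| ≤ K)
    (hg : ∀ p ∈ disc 9, DifferentiableAt ℝ g p) (h0 : g 0 = 0)
    (hd : ∀ b, ∀ p ∈ disc 9, |dd b g p| ≤ δ) (b : Bool) (p : Pl) :
    |dd b (fun q => chart_chi q * g q) p| ≤ δ * (1 + 6 * K) := by
  by_cases hp : p ∈ disc 9
  · rw [dd_mul b (chart_sm.diff p) (hg p hp)]
    have h1 : |chart_chi p| ≤ 1 := by
      rw [chart_chi, abs_of_nonneg (Real.smoothTransition.nonneg _)]
      exact Real.smoothTransition.le_one _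
    have a1 := chart_mul h1 (hd b p hp)
    have a2 := chart_mul (chart_mv hg h0 hd hp) (hK b p hp)
    linarith [abs_add_le (chart_chi p * dd b g p) (g p * dd b chart_chi p)]
  · have h1 : 8 < rr p := by
      have : 9 ≤ rr p := not_lt.1 hp
      linarith
    have h2 : (fun q => chart_chi q * g q) =ᶠ[𝓝 p] fun _ => 0 :=
      (chart_zero h1).mono fun q hq => by simp [hq]
    rw [dd_congr b h2, dd_const, abs_zero]
    positivity

theorem chart {ε1 : ℝ} (h : 0 < ε1) : ∃ ε > 0, ∀ u v z : Pl → ℝ, Sm u → Sm v → Sm z →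
    Close ε u v z → ∃ (io P V : Pl → ℝ) (p0 : ℝ), Sm io ∧ Sm P ∧ Sm V ∧ |p0| ≤ 1000 ∧
      P 0 = 0 ∧ V 0 = 0 ∧
      (∀ p ∈ disc 4, io p * Dl u v p = 1 ∧ |io p| ≤ 2 ∧ P p + p0 = -n1 v z p * io p ∧
        V p = v p) ∧
      ∀ p, |d1 P p - 1| ≤ ε1 ∧ |d2 P p| ≤ ε1 ∧ |d1 V p| ≤ ε1 ∧ |d2 V p - 1| ≤ ε1 := by
  obtain ⟨K, hK0, hK⟩ := chart_K
  refine ⟨min (1 / 100) (ε1 / (1000 * (1 + 6 * K))), by positivity, fun u v z hu hv hz hc => ?_⟩
  set ε := min (1 / 100) (ε1 / (1000 * (1 + 6 * K))) with hεdef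
  have hε : ε ≤ 1 / 100 := min_le_left _ _
  have hε0 : 0 < ε := by positivity
  have hε1 : 1000 * ε * (1 + 6 * K) ≤ ε1 := by
    have h1 : ε ≤ ε1 / (1000 * (1 + 6 * K)) := min_le_right _ _
    rw [le_div_iff₀ (by positivity)] at h1
    linarith
  clear_value ε
  have sD : Sm (Dl u v) := ((hu.dd false).mul (hv.dd true)).sub ((hu.dd true).mul (hv.dd false))
  have sn : Sm (n1 v z) := ((hv.dd false).mul (hz.dd true)).sub ((hz.dd false).mul (hv.dd true))
  have hD : ∀ p ∈ disc 9, |Dl u v p - 1| ≤ 3 * ε := fun p hp =>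
    chart_Dl hε (hc.ux p hp) (hc.uy p hp) (hc.vx p hp) (hc.vy p hp)
  have hD0 : ∀ p ∈ disc 9, Dl u v p ≠ 0 := fun p hp => by
    have := (abs_le.1 (hD p hp)).1
    exact ne_of_gt (by linarith)
  have h49 : disc 4 ⊆ disc 9 := fun p hp => lt_trans (show rr p < 4 from hp) (by norm_num)
  have h04 : (0 : Pl) ∈ disc 4 := by simp [disc, rr]
  have sio : Sm fun p => chart_chi p / Dl u v p := by
    refine contDiff_iff_contDiffAt.2 fun p => ?_
    by_cases hp : p ∈ disc 9
    · exact chart_sm.contDiffAt.div sD.contDiffAt (hD0 p hp)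
    · have h1 : 8 < rr p := by
        have : 9 ≤ rr p := not_lt.1 hp
        linarith
      exact (contDiffAt_const (c := (0 : ℝ))).congr_of_eventuallyEq
        ((chart_zero h1).mono fun q hq => by simp [hq])
  set ph : Pl → ℝ := fun p => -n1 v z p / Dl u v p with hph
  have ph1 : ∀ p ∈ disc 9, Dl u v p * ph p = -n1 v z p := fun p hp => mul_div_cancel₀ _ (hD0 p hp)
  have ph2 : ∀ p ∈ disc 9, |ph p| ≤ 200 := fun p hp =>
    chart_ph hε (hD p hp) (hc.vx p hp) (hc.vy p hp) (hc.z1 false p hp) (hc.z1 true p hp) (ph1 p hp)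
  have ph3 : ∀ p ∈ disc 9, DifferentiableAt ℝ ph p := fun p hp =>
    (sn.neg.contDiffAt.div sD.contDiffAt (hD0 p hp)).differentiableAt (by simp)
  have ph4 : ∀ b, ∀ p ∈ disc 9, |dd b ph p - cond b 0 1| ≤ 1000 * ε := by
    intro b p hp
    have e1 := dd_congr_on (isOpen_disc 9) (f := fun q => ph q * Dl u v q)
      (g := fun q => -1 * n1 v z q) (fun q hq => by rw [mul_comm, ph1 q hq]; ring) b p hp
    have e2 : dd b (Dl u v) p = d1 u p * dd b (d2 v) p + d2 v p * dd b (d1 u) p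
        - (d2 u p * dd b (d1 v) p + d1 v p * dd b (d2 u) p) := by
      unfold Dl
      rw [dd_sub b (((hu.dd _).mul (hv.dd _)).differentiable (by simp) p)
        (((hu.dd _).mul (hv.dd _)).differentiable (by simp) p),
        dd_mul b ((hu.dd _).diff p) ((hv.dd _).diff p), dd_mul b ((hu.dd _).diff p) ((hv.dd _).diff p)]
    have e3 : dd b (n1 v z) p = d1 v p * dd b (d2 z) p + d2 z p * dd b (d1 v) p
        - (d1 z p * dd b (d2 v) p + d2 v p * dd b (d1 z) p) := by
      unfold n1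
      rw [dd_sub b (((hv.dd _).mul (hz.dd _)).differentiable (by simp) p)
        (((hz.dd _).mul (hv.dd _)).differentiable (by simp) p),
        dd_mul b ((hv.dd _).diff p) ((hz.dd _).diff p), dd_mul b ((hz.dd _).diff p) ((hv.dd _).diff p)]
    rw [dd_mul b (ph3 p hp) (sD.diff p), dd_const_mul b _ (sn.diff p), e2, e3, neg_one_mul] at e1
    refine chart_alg hε (hc.ux p hp) (hc.uy p hp) (hc.vx p hp) (hc.vy p hp) (hc.z1 false p hp)
      (hc.z1 true p hp) (hc.u2 b false p hp) (hc.u2 b true p hp) (hc.v2 b false p hp)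
      (hc.v2 b true p hp) ?_ ?_ (by cases b <;> simp) (ph2 p hp) e1
    · cases b
      · exact hc.zxx p hp
      · simpa using hc.zxy p hp
    · cases b
      · rw [d2, dd_comm hz]; exact hc.zxy p hp
      · exact hc.zyy p hp
  have cP := chart_cut (g := fun q => ph q - ph 0 - q.1) (δ := 1000 * ε) hK0 (by positivity) hK
    (fun p hp => ((ph3 p hp).sub_const _).sub differentiableAt_fst) (by simp) fun b p hp => by
      rw [dd_sub b ((ph3 p hp).sub_const _) differentiableAt_fst,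
        dd_sub b (ph3 p hp) (differentiableAt_const _), dd_const, dd_fst, sub_zero]
      exact ph4 b p hp
  have cV := chart_cut (g := fun q => v q - q.2) (δ := 1000 * ε) hK0 (by positivity) hK
    (fun p _ => (hv.diff p).sub differentiableAt_snd) (by simp [hc.v0]) fun b p hp => by
      rw [dd_sub b (hv.diff p) differentiableAt_snd, dd_snd]
      have h1 : |dd b v p - cond b 1 0| ≤ ε := by
        cases b
        · simpa using hc.vx p hp
        · exact hc.vy p hp
      linarith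
  have sP : Sm fun q => chart_chi q * (ph q - ph 0 - q.1) := by
    have e : (fun q => chart_chi q * (ph q - ph 0 - q.1))
        = fun q => -n1 v z q * (chart_chi q / Dl u v q) - chart_chi q * (ph 0 + q.1) := by
      funext q
      simp only [hph]; ring
    rw [e]
    exact (sn.neg.mul sio).sub (chart_sm.mul (contDiff_const.add contDiff_fst))
  have sV : Sm fun q => chart_chi q * (v q - q.2) := chart_sm.mul (hv.sub contDiff_snd)
  refine ⟨fun p => chart_chi p / Dl u v p, fun q => q.1 + chart_chi q * (ph q - ph 0 - q.1),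
    fun q => q.2 + chart_chi q * (v q - q.2), ph 0, sio, contDiff_fst.add sP, contDiff_snd.add sV,
    (ph2 0 (h49 h04)).trans (by norm_num), by simp, by simp [hc.v0], fun p hp => ?_, fun p => ?_⟩
  · have h1 : Dl u v p * (chart_chi p / Dl u v p) = 1 := by
      rw [mul_div_cancel₀ _ (hD0 p (h49 hp)), chart_one hp]
    refine ⟨by rw [mul_comm, h1], ?_, ?_, ?_⟩
    · have h2 := chart_div (B := 1) hε (hD p (h49 hp)) (by rw [h1, abs_one])
      linarith
    · simp only [hph, chart_one hp]; ring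
    · simp only [chart_one hp]; ring
  · simp only [d1, d2]
    rw [dd_add _ differentiableAt_fst (sP.diff p), dd_add _ differentiableAt_fst (sP.diff p),
      dd_add _ differentiableAt_snd (sV.diff p), dd_add _ differentiableAt_snd (sV.diff p),
      dd_fst, dd_fst, dd_snd, dd_snd]
    simp only [cond_true, cond_false, add_sub_cancel_left, zero_add]
    exact ⟨(cP false p).trans hε1, (cP true p).trans hε1, (cV false p).trans hε1,
      (cV true p).trans hε1⟩

end

end Vale.Agent.P229
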