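import Vale.Agent.P229.ClsS

namespace Vale.Agent.P229

open Set Filter MeasureTheory Topology

noncomputable section

/-! JOB ClsA: algebra of the classes `L2`, `Nn`, `A`. See notes/P229.md. -/

variable {G G' : ℕ → Set Pl} {f g : Rg} {s t : ℕ}

theorem Reg.integrableOn (hG : Reg G) {φ : Pl → ℝ} (hφ : Continuous φ) (i : ℕ) :
    IntegrableOn φ (G i) := by
  exact (hφ.continuousOn.integrableOn_compact (isCompact_closedBall 0 3)).mono_set (hG.2 i)

theorem Reg.int_sq (hG : Reg G) (f : Rg) (i : ℕ) : Integrable (fun p => f.1 i p ^ 2)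
    (volume.restrict (G i)) := hG.integrableOn ((f.sm i).continuous.pow 2) i

theorem L2.mono (hG : Reg G) (hG' : Reg G') (h : L2 G f) (hs : ∀ i, G' i ⊆ G i) : L2 G' f := by
  have _ := hG'
  obtain ⟨C, hC⟩ := h
  exact ⟨C, fun i => (setIntegral_mono_set (hG.integrableOn ((f.sm i).continuous.pow 2) i)
    (Eventually.of_forall fun _ => sq_nonneg _) (hs i).eventuallyLE).trans (hC i)⟩

theorem L2.add (hG : Reg G) (hf : L2 G f) (hg : L2 G g) : L2 G (f + g) := by
  obtain ⟨C, hC⟩ := hf
  obtain ⟨C', hC'⟩ := hg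
  refine ⟨2 * C + 2 * C', fun i => ?_⟩
  have i1 := hG.int_sq f i
  have i2 := hG.int_sq g i
  calc ∫ p in G i, (f + g).1 i p ^ 2 ≤ ∫ p in G i, (2 * f.1 i p ^ 2 + 2 * g.1 i p ^ 2) :=
        integral_mono (hG.int_sq (f + g) i)
          ((i1.const_mul 2).add (i2.const_mul 2)) fun p => by
            simp only [Rg.add_ap]
            nlinarith [sq_nonneg (f.1 i p - g.1 i p)]
    _ = 2 * (∫ p in G i, f.1 i p ^ 2) + 2 * ∫ p in G i, g.1 i p ^ 2 := by
        rw [integral_add (i1.const_mul 2) (i2.const_mul 2), integral_const_mul, integral_const_mul]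
    _ ≤ _ := by linarith [hC i, hC' i]

theorem L2.neg (hf : L2 G f) : L2 G (-f) := by
  obtain ⟨C, hC⟩ := hf
  exact ⟨C, fun i => by simpa using hC i⟩

theorem L2.sub (hG : Reg G) (hf : L2 G f) (hg : L2 G g) : L2 G (f - g) := by
  rw [sub_eq_add_neg]
  exact hf.add hG hg.neg

theorem L2.bd_mul (hG : Reg G) (hf : Bd G f) (hg : L2 G g) : L2 G (f * g) := by
  obtain ⟨B, hB⟩ := hf
  obtain ⟨C, hC⟩ := hg
  refine ⟨B ^ 2 * C, fun i => ?_⟩
  have i2 := hG.int_sq g i
  calc ∫ p in G i, (f * g).1 i p ^ 2 ≤ ∫ p in G i, B ^ 2 * g.1 i p ^ 2 :=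
        setIntegral_mono_on (hG.int_sq (f * g) i) (show Integrable _ _ from i2.const_mul _)
          (hG.1 i).measurableSet fun p hp => by
            rw [Rg.mul_ap, mul_pow]
            exact mul_le_mul_of_nonneg_right (sq_le_sq' (abs_le.1 (hB i p hp)).1
              (abs_le.1 (hB i p hp)).2) (sq_nonneg _)
    _ = B ^ 2 * ∫ p in G i, g.1 i p ^ 2 := integral_const_mul _ _
    _ ≤ _ := mul_le_mul_of_nonneg_left (hC i) (sq_nonneg _)

theorem Bd.l2 (hG : Reg G) (hf : Bd G f) : L2 G f := by
  have h1 : L2 G 1 := ⟨∫ _ in Metric.closedBall (0 : Pl) 3, (1 : ℝ) ^ 2, fun i =>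
    setIntegral_mono_set (f := fun _ => (1 : ℝ) ^ 2)
      (continuous_const.continuousOn.integrableOn_compact (isCompact_closedBall 0 3))
      (Eventually.of_forall fun _ => sq_nonneg _) (hG.2 i).eventuallyLE⟩
  simpa using L2.bd_mul hG hf h1

theorem L2.congr (hG : Reg G) (hf : L2 G f) (h : Z G (g - f)) : L2 G g := by
  obtain ⟨C, hC⟩ := hf
  refine ⟨C, fun i => le_trans (le_of_eq ?_) (hC i)⟩
  refine setIntegral_congr_fun (hG.1 i).measurableSet fun p hp => ?_
  have := h i p hp
  rw [Rg.sub_ap, sub_eq_zero] at this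
  simp only [this]

theorem Nn.mono (h : Nn t G f) (hst : s ≤ t) : Nn s G f := by
  exact fun l hl => h l (hl.trans hst)

theorem Nn.mono_set (hG : Reg G) (hG' : Reg G') (h : Nn s G f) (hs : ∀ i, G' i ⊆ G i) :
    Nn s G' f := by
  exact fun l hl => (h l hl).mono hG hG' hs

theorem A.mono (h : A t G f) (hst : s ≤ t) : A s G f := by
  exact ⟨h.1.mono hst, fun r hr => h.2 r (hr.trans hst)⟩

theorem A.mono_set (hG : Reg G) (hG' : Reg G') (h : A s G f) (hs : ∀ i, G' i ⊆ G i) :
    A s G' f := by
  exact ⟨h.1.mono_set hG hG' hs, fun r hr => (h.2 r hr).mono_set hs⟩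

theorem A.der (h : A (s + 1) G f) (b : Bool) : A s G (D b f) := by
  exact ⟨fun l hl => h.1 (b :: l) (by simpa using hl),
    fun r hr => (h.2 (r + 1) (by omega)).der b⟩

theorem A.bd (h : A s G f) (hs : 2 ≤ s) : Bd G f := by
  exact (h.2 0 hs).bd

theorem A_succ (hG : Reg G) (hb : Bd G f) (h : ∀ b, A s G (D b f)) : A (s + 1) G f := by
  refine ⟨fun l hl => ?_, fun r hr => ?_⟩
  · cases l with
    | nil => exact hb.l2 hG
    | cons b l => exact (h b).1 l (by simpa using hl)
  · cases r with
    | zero => exact S_zero hb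
    | succ r => exact S_succ hb fun b => (h b).2 r (by omega)

theorem S.toA (hG : Reg G) (h : S s G f) : A s G f := by
  exact ⟨fun l hl => (h l hl).l2 hG, fun r hr => h.mono (by omega)⟩

theorem Z.toA (hG : Reg G) (h : Z G f) : A s G f := by
  exact (h.toS hG.1).toA hG

theorem A.add (hG : Reg G) (hf : A s G f) (hg : A s G g) : A s G (f + g) := by
  refine ⟨fun l hl => ?_, fun r hr => (hf.2 r hr).add (hg.2 r hr)⟩
  rw [map_add]
  exact (hf.1 l hl).add hG (hg.1 l hl)

/-- Moser type product estimate. -/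
theorem prodN (hG : Reg G) {n : ℕ} (hf : A s G f) (hg : A t G g) (h1 : n ≤ s) (h2 : n ≤ t)
    (h3 : n + 3 ≤ s + t) : Nn n G (f * g) := by
  have base : ∀ {s t : ℕ} {f g : Rg}, A s G f → A t G g → 3 ≤ s + t → L2 G (f * g) := by
    intro s t f g hf hg h
    by_cases hs : 2 ≤ s
    · exact L2.bd_mul hG (hf.bd hs) (hg.1 [] (Nat.zero_le _))
    · rw [mul_comm]
      exact L2.bd_mul hG (hg.bd (by omega)) (hf.1 [] (Nat.zero_le _))
  induction n generalizing s t f g with
  | zero =>
    intro l hl
    obtain rfl : l = [] := by simpa using hl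
    exact base hf hg (by omega)
  | succ n ih =>
    intro l hl
    cases l with
    | nil => exact base hf hg (by omega)
    | cons b l =>
      obtain ⟨s, rfl⟩ : ∃ s', s = s' + 1 := ⟨s - 1, by omega⟩
      obtain ⟨t, rfl⟩ : ∃ t', t = t' + 1 := ⟨t - 1, by omega⟩
      have hl : l.length ≤ n := by simpa using hl
      rw [W_cons, D_mul, map_add]
      exact (ih hf (hg.der b) (by omega) (by omega) (by omega) l hl).add hG
        (ih hg (hf.der b) (by omega) (by omega) (by omega) l hl)

theorem A.mul (hG : Reg G) (hs : 3 ≤ s) (hf : A s G f) (hg : A s G g) : A s G (f * g) := by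
  exact ⟨prodN hG hf hg le_rfl le_rfl (by omega), fun r hr => (hf.2 r hr).mul (hg.2 r hr)⟩

/-- `A s G` is a subalgebra for `3 ≤ s`. -/
def ASub (s : ℕ) (G : ℕ → Set Pl) (hG : Reg G) (hs : 3 ≤ s) : Subalgebra ℝ Rg where
  carrier := {f | A s G f}
  mul_mem' := A.mul hG hs
  add_mem' := A.add hG
  algebraMap_mem' c := (S_algebraMap c).toA hG

theorem mem_ASub {hG : Reg G} {hs : 3 ≤ s} : f ∈ ASub s G hG hs ↔ A s G f := Iff.rfl

/-- Commutator estimate. -/
theorem comm_est (hG : Reg G) (hf : A s G f) (hg : A t G g) (l : List Bool)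
    (h1 : l.length ≤ s) (h2 : l.length ≤ t + 1) (h3 : l.length + 3 ≤ s + t) :
    L2 G (W l (f * g) - f * W l g) := by
  have z : L2 G 0 := ⟨0, fun i => by simp⟩
  induction l generalizing g t with
  | nil => simpa using z
  | cons b l ih =>
    simp only [List.length_cons] at h1 h2 h3
    obtain ⟨s, rfl⟩ : ∃ s', s = s' + 1 := ⟨s - 1, by omega⟩
    have e : W (b :: l) (f * g) - f * W (b :: l) g =
        (W l (f * D b g) - f * W l (D b g)) + W l (g * D b f) := by
      rw [W_cons, W_cons, D_mul, map_add]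
      ring
    rw [e]
    refine L2.add hG ?_ (prodN hG hg (hf.der b) (by omega) (by omega) (by omega) l le_rfl)
    cases t with
    | zero =>
      obtain rfl : l = [] := List.length_eq_zero_iff.1 (by omega)
      simpa using z
    | succ t => exact ih (hg.der b) (by omega) (by omega) (by omega)

theorem clsA_P (n : ℕ) (f : Rg) :
    W (List.replicate (n + 1) false) f = W (List.replicate n false) (D1 f) := rfl

theorem clsA_R (hG : Reg G) (hf : A s G (D1 f)) (n : ℕ) (hg : A t G g) (h1 : n ≤ s)
    (h2 : n ≤ t + 1) (h3 : n + 3 ≤ s + t) :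
    L2 G (W (List.replicate (n + 1) false) (f * g) - f * W (List.replicate (n + 1) false) g -
      ((n : Rg) + 1) * (D1 f * W (List.replicate n false) g)) := by
  have z : ∀ g : Rg, L2 G (W (List.replicate (0 + 1) false) (f * g) -
      f * W (List.replicate (0 + 1) false) g -
      (((0 : ℕ) : Rg) + 1) * (D1 f * W (List.replicate 0 false) g)) := fun g => ⟨0, fun i => by
    simp [mul_comm]⟩
  induction n generalizing g t with
  | zero => exact z g
  | succ n ih =>
    have e : W (List.replicate (n + 1 + 1) false) (f * g) -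
        f * W (List.replicate (n + 1 + 1) false) g -
        (((n + 1 : ℕ) : Rg) + 1) * (D1 f * W (List.replicate (n + 1) false) g) =
        (W (List.replicate (n + 1) false) (f * D1 g) - f * W (List.replicate (n + 1) false) (D1 g) -
          ((n : Rg) + 1) * (D1 f * W (List.replicate n false) (D1 g))) +
        (W (List.replicate (n + 1) false) (D1 f * g) -
          D1 f * W (List.replicate (n + 1) false) g) := by
      rw [clsA_P (n + 1) (f * g), D_mul, map_add, clsA_P (n + 1) g, clsA_P n g, mul_comm g]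
      push_cast
      ring
    rw [e]
    refine L2.add hG ?_ (comm_est hG hf hg _ (by simpa) (by simp; omega) (by simpa))
    cases t with
    | zero =>
      obtain rfl : n = 0 := by omega
      exact z _
    | succ t => exact ih (hg.der false) (by omega) (by omega) (by omega)

/-- Three extreme terms of the Leibniz formula. -/
theorem leib3 (hG : Reg G) (hs : 5 ≤ s) {a u : Rg} (ha : A s G a) (hu : A s G u) :
    L2 G (W (List.replicate (s + 1) false) (a * D1 u) -
      a * W (List.replicate (s + 2) false) u -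
      ((s : Rg) + 1) * (D1 a * W (List.replicate (s + 1) false) u) -
      D1 u * W (List.replicate (s + 1) false) a) := by
  obtain ⟨n, rfl⟩ : ∃ n, s = n + 2 := ⟨s - 2, by omega⟩
  have e : W (List.replicate (n + 2 + 1) false) (a * D1 u) -
      a * W (List.replicate (n + 2 + 2) false) u -
      (((n + 2 : ℕ) : Rg) + 1) * (D1 a * W (List.replicate (n + 2 + 1) false) u) -
      D1 u * W (List.replicate (n + 2 + 1) false) a =
      (W (List.replicate (n + 1 + 1) false) (a * D1 (D1 u)) -
        a * W (List.replicate (n + 1 + 1) false) (D1 (D1 u)) -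
        (((n + 1 : ℕ) : Rg) + 1) * (D1 a * W (List.replicate (n + 1) false) (D1 (D1 u)))) +
      ((W (List.replicate (n + 1) false) (D1 a * D1 (D1 u)) -
        D1 a * W (List.replicate (n + 1) false) (D1 (D1 u))) +
      (W (List.replicate (n + 1) false) (D1 u * D1 (D1 a)) -
        D1 u * W (List.replicate (n + 1) false) (D1 (D1 a)))) := by
    rw [clsA_P (n + 2) (a * D1 u), D_mul, map_add, clsA_P (n + 1) (D1 u * D1 a), D_mul, map_add,
      clsA_P (n + 3) u, clsA_P (n + 2) (D1 u), clsA_P (n + 2) u, clsA_P (n + 1) (D1 u),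
      clsA_P (n + 2) a, clsA_P (n + 1) (D1 a)]
    push_cast
    ring
  rw [e]
  have a1 := ha.der false
  have u1 := hu.der false
  exact (clsA_R hG a1 (n + 1) (u1.der false) (by omega) (by omega) (by omega)).add hG
    ((comm_est hG a1 (u1.der false) _ (by simp) (by simp) (by simp; omega)).add hG
      (comm_est hG u1 (a1.der false) _ (by simp) (by simp) (by simp; omega)))

end

end Vale.Agent.P229
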