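import Vale.Agent.P229.Defs2

namespace Vale.Agent.P229

open Set Filter MeasureTheory Topology

noncomputable section

/-! JOB ClsS: algebra of the classes `Bd`, `Z`, `S`. See notes/P229.md. -/

variable {G G' O : ℕ → Set Pl} {f g : Rg} {s t : ℕ}

theorem Bd.mono (h : Bd G f) (hG : ∀ i, G' i ⊆ G i) : Bd G' f := by
  obtain ⟨C, hC⟩ := h
  exact ⟨C, fun i p hp => hC i p (hG i hp)⟩

theorem Bd.add (hf : Bd G f) (hg : Bd G g) : Bd G (f + g) := by
  obtain ⟨C, hC⟩ := hf
  obtain ⟨C', hC'⟩ := hg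
  exact ⟨C + C', fun i p hp => (abs_add_le _ _).trans (add_le_add (hC i p hp) (hC' i p hp))⟩

theorem Bd.neg (hf : Bd G f) : Bd G (-f) := by
  obtain ⟨C, hC⟩ := hf
  exact ⟨C, fun i p hp => by rw [Rg.neg_ap, abs_neg]; exact hC i p hp⟩

theorem Bd.mul (hf : Bd G f) (hg : Bd G g) : Bd G (f * g) := by
  obtain ⟨C, hC⟩ := hf
  obtain ⟨C', hC'⟩ := hg
  refine ⟨C * C', fun i p hp => ?_⟩
  rw [Rg.mul_ap, abs_mul]
  exact mul_le_mul (hC i p hp) (hC' i p hp) (abs_nonneg _) ((abs_nonneg _).trans (hC i p hp))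

/-- A nonnegative bound can be chosen. -/
theorem Bd.pos (hf : Bd G f) : ∃ C, 0 < C ∧ ∀ i, ∀ p ∈ G i, |f.1 i p| ≤ C := by
  obtain ⟨C, hC⟩ := hf
  exact ⟨max C 1, lt_max_of_lt_right one_pos, fun i p hp => (hC i p hp).trans (le_max_left _ _)⟩

theorem Z.mono (h : Z G f) (hG : ∀ i, G' i ⊆ G i) : Z G' f :=
  fun i p hp => h i p (hG i hp)

theorem Z.add (hf : Z G f) (hg : Z G g) : Z G (f + g) :=
  fun i p hp => by rw [Rg.add_ap, hf i p hp, hg i p hp, add_zero]

theorem Z.neg (hf : Z G f) : Z G (-f) :=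
  fun i p hp => by rw [Rg.neg_ap, hf i p hp, neg_zero]

theorem Z.sub (hf : Z G f) (hg : Z G g) : Z G (f - g) :=
  fun i p hp => by rw [Rg.sub_ap, hf i p hp, hg i p hp, sub_zero]

theorem Z.mul_left (hf : Z G f) (g : Rg) : Z G (g * f) :=
  fun i p hp => by rw [Rg.mul_ap, hf i p hp, mul_zero]

theorem Z.mul_right (hf : Z G f) (g : Rg) : Z G (f * g) :=
  fun i p hp => by rw [Rg.mul_ap, hf i p hp, zero_mul]

theorem Z.der (hG : ∀ i, IsOpen (G i)) (h : Z G f) (b : Bool) : Z G (D b f) := by
  intro i p hp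
  rw [D_ap, dd_congr_on (hG i) (g := fun _ => 0) (h i) b p hp, dd_const]

theorem Z.word (hG : ∀ i, IsOpen (G i)) (h : Z G f) (l : List Bool) : Z G (W l f) := by
  induction l generalizing f with
  | nil => exact h
  | cons b l ih => exact ih (h.der hG b)

theorem S.bd (h : S s G f) : Bd G f := h [] (Nat.zero_le _)

theorem S.mono (h : S t G f) (hst : s ≤ t) : S s G f :=
  fun l hl => h l (hl.trans hst)

theorem S.mono_set (h : S s G f) (hG : ∀ i, G' i ⊆ G i) : S s G' f :=
  fun l hl => (h l hl).mono hG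

theorem S.der (h : S (s + 1) G f) (b : Bool) : S s G (D b f) :=
  fun l hl => h (b :: l) (by simpa using hl)

theorem S.word (h : S s G f) (l : List Bool) (hl : l.length + t ≤ s) : S t G (W l f) := by
  intro l' hl'
  rw [← W_append]
  exact h _ (by rw [List.length_append]; omega)

theorem S_zero (h : Bd G f) : S 0 G f := by
  intro l hl
  rw [List.length_eq_zero_iff.1 (Nat.le_zero.1 hl)]
  exact h

theorem S_succ (hb : Bd G f) (h : ∀ b, S s G (D b f)) : S (s + 1) G f := by
  intro l hl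
  cases l with
  | nil => exact hb
  | cons b l => exact h b l (by simpa using hl)

theorem S.add (hf : S s G f) (hg : S s G g) : S s G (f + g) := by
  intro l hl
  rw [map_add]
  exact (hf l hl).add (hg l hl)

theorem S.neg (hf : S s G f) : S s G (-f) := by
  intro l hl
  rw [map_neg]
  exact (hf l hl).neg

theorem S.sub (hf : S s G f) (hg : S s G g) : S s G (f - g) := by
  rw [sub_eq_add_neg]
  exact hf.add hg.neg

theorem S.mul (hf : S s G f) (hg : S s G g) : S s G (f * g) := by
  induction s generalizing f g with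
  | zero => exact S_zero (hf.bd.mul hg.bd)
  | succ s ih =>
    refine S_succ (hf.bd.mul hg.bd) fun b => ?_
    rw [D_mul]
    exact (ih (hf.mono (Nat.le_succ _)) (hg.der b)).add (ih (hg.mono (Nat.le_succ _)) (hf.der b))

theorem clsS_zero : S s G 0 := by
  intro l _
  rw [map_zero]
  exact ⟨0, fun i p _ => by simp⟩

theorem S_cst {c : ℕ → ℝ} {C : ℝ} (hc : ∀ i, |c i| ≤ C) : S s G (cst c) := by
  cases s with
  | zero => exact S_zero ⟨C, fun i p _ => hc i⟩
  | succ s =>
    refine S_succ ⟨C, fun i p _ => hc i⟩ fun b => ?_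
    rw [D_cst]
    exact clsS_zero

theorem S_algebraMap (c : ℝ) : S s G (algebraMap ℝ Rg c) :=
  S_cst (c := fun _ => c) (C := |c|) fun _ => le_rfl

/-- `S s G` is a subalgebra. -/
def SSub (s : ℕ) (G : ℕ → Set Pl) : Subalgebra ℝ Rg where
  carrier := {f | S s G f}
  mul_mem' := S.mul
  add_mem' := S.add
  algebraMap_mem' := S_algebraMap

theorem mem_SSub : f ∈ SSub s G ↔ S s G f := Iff.rfl

/-- One constant bounds all the words. -/
theorem S.unif (h : S s G f) : ∃ C, 0 < C ∧ ∀ i, WB s C (G i) (f.1 i) := by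
  induction s generalizing f with
  | zero =>
    obtain ⟨C, hC, h0⟩ := h.bd.pos
    refine ⟨C, hC, fun i l hl p hp => ?_⟩
    rw [List.length_eq_zero_iff.1 (Nat.le_zero.1 hl)]
    exact h0 i p hp
  | succ s ih =>
    obtain ⟨C, hC, h0⟩ := h.bd.pos
    obtain ⟨C1, -, h1⟩ := ih (h.der false)
    obtain ⟨C2, -, h2⟩ := ih (h.der true)
    refine ⟨max C (max C1 C2), lt_max_of_lt_left hC, fun i l hl p hp => ?_⟩
    cases l with
    | nil => exact (h0 i p hp).trans (le_max_left _ _)
    | cons b l =>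
      have hl' : l.length ≤ s := by simpa using hl
      cases b with
      | false => exact (h1 i l hl' p hp).trans ((le_max_left _ _).trans (le_max_right _ _))
      | true => exact (h2 i l hl' p hp).trans ((le_max_right _ _).trans (le_max_right _ _))

theorem S_of_WB {C : ℝ} (h : ∀ i, WB s C (G i) (f.1 i)) : S s G f :=
  fun l hl => ⟨C, fun i p hp => by rw [W_ap]; exact h i l hl p hp⟩

theorem Z.toS (hG : ∀ i, IsOpen (G i)) (h : Z G f) : S s G f :=
  fun l _ => ⟨0, fun i p hp => by rw [h.word hG l i p hp, abs_zero]⟩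

theorem S.congr (hG : ∀ i, IsOpen (G i)) (hf : S s G f) (h : Z G (g - f)) : S s G g := by
  have := hf.add (h.toS hG)
  rwa [add_sub_cancel] at this

/-- A fixed smooth function on uniformly bounded sets. -/
theorem S_fix {R : ℝ} (hG : ∀ i, G i ⊆ Metric.closedBall 0 R) (φ : Pl → ℝ) (hφ : Sm φ) :
    S s G (fix φ hφ) := by
  intro l _
  obtain ⟨C, hC⟩ := (isCompact_closedBall (0 : Pl) R).exists_bound_of_continuousOn
    (hφ.wd l).continuous.continuousOn
  exact ⟨C, fun i p hp => by rw [W_ap]; exact hC p (hG i hp)⟩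

/-- Inverse on open sets. -/
theorem S_inv (hG : ∀ i, IsOpen (G i)) (hf : S s G f) (hg : Bd G g) (h : Z G (g * f - 1)) :
    S s G g := by
  induction s with
  | zero => exact S_zero hg
  | succ s ih =>
    have hg' := ih (hf.mono (Nat.le_succ _))
    refine S_succ hg fun b => ?_
    have h1 := (h.der hG b).mul_left g
    have h2 := (h.mul_right (D b g)).neg
    refine ((hg'.mul (hg'.mul (hf.der b))).neg).congr hG ?_
    have e : D b g - -(g * (g * D b f)) = g * D b (g * f - 1) + -((g * f - 1) * D b g) := by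
      rw [map_sub, Derivation.map_one_eq_zero, D_mul]; ring
    rw [e]
    exact h1.add h2

/-- Global inverse, arbitrary sets. -/
theorem S_inv' (hf : S s G f) (hg : Bd G g) (h : g * f = 1) : S s G g := by
  induction s with
  | zero => exact S_zero hg
  | succ s ih =>
    have hg' := ih (hf.mono (Nat.le_succ _))
    refine S_succ hg fun b => ?_
    have h1 : D b (g * f) = 0 := by rw [h, Derivation.map_one_eq_zero]
    rw [D_mul] at h1
    have e : D b g = -(g * (g * D b f)) := by
      linear_combination g * h1 - D b g * h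
    rw [e]
    exact (hg'.mul (hg'.mul (hf.der b))).neg

/-- Composition with a map whose Jacobian is itself a pull back. -/
theorem S_cmp (X Y : Rg) (cx cy : Bool → Rg)
    (hmap : ∀ i, ∀ p ∈ O i, (X.1 i p, Y.1 i p) ∈ G i)
    (hX : ∀ b, D b X = cmp X Y (cx b)) (hY : ∀ b, D b Y = cmp X Y (cy b))
    (hcx : ∀ b, S s G (cx b)) (hcy : ∀ b, S s G (cy b)) (hf : S (s + 1) G f) :
    S (s + 1) O (cmp X Y f) := by
  have hb : ∀ {f : Rg}, Bd G f → Bd O (cmp X Y f) := fun ⟨C, hC⟩ =>
    ⟨C, fun i p hp => hC i _ (hmap i p hp)⟩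
  have key : ∀ t ≤ s + 1, ∀ f : Rg, S t G f → S t O (cmp X Y f) := by
    intro t
    induction t with
    | zero => exact fun _ f hf => S_zero (hb hf.bd)
    | succ t ih =>
      intro ht f hf
      refine S_succ (hb hf.bd) fun b => ?_
      rw [D_cmp, hX, hY, ← map_mul, ← map_mul, ← map_add]
      exact ih (by omega) _ (((hf.der false).mul ((hcx b).mono (by omega))).add
        ((hf.der true).mul ((hcy b).mono (by omega))))
  exact key _ le_rfl f hf

end

end Vale.Agent.P229
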