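import Mathlib

/-! P229: basic definitions. See notes/P229.md. -/

namespace Vale.Agent.P229

open Set Filter MeasureTheory Topology

noncomputable section

/-- The plane, with the sup norm. -/
abbrev Pl := ℝ × ℝ

/-- Smooth real function on the plane. -/
abbrev Sm (f : Pl → ℝ) : Prop := ContDiff ℝ (⊤ : ℕ∞) f

/-- Coordinate vectors. -/
def ev (b : Bool) : Pl := cond b (0, 1) (1, 0)

/-- Coordinate derivative. -/
def dd (b : Bool) (f : Pl → ℝ) : Pl → ℝ := fun p => fderiv ℝ f p (ev b)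

abbrev d1 (f : Pl → ℝ) : Pl → ℝ := dd false f
abbrev d2 (f : Pl → ℝ) : Pl → ℝ := dd true f

/-- Iterated coordinate derivative along a word; the head letter is applied first. -/
def wd : List Bool → (Pl → ℝ) → (Pl → ℝ)
  | [], f => f
  | b :: l, f => wd l (dd b f)

/-- All derivatives of order at most `k` are bounded by `C` on `O`. -/
def WB (k : ℕ) (C : ℝ) (O : Set Pl) (f : Pl → ℝ) : Prop :=
  ∀ l : List Bool, l.length ≤ k → ∀ p ∈ O, |wd l f p| ≤ C

/-- Squared Euclidean radius. -/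
def rr (p : Pl) : ℝ := p.1 ^ 2 + p.2 ^ 2

/-- Open Euclidean disc of squared radius `σ`. -/
def disc (σ : ℝ) : Set Pl := {p | rr p < σ}

/-- The map `(u, v, lam * z)` is an isometric immersion of `exp (2 ψ) δ` on `O`. -/
def Iso (lam : ℝ) (u v z ψ : Pl → ℝ) (O : Set Pl) : Prop :=
  ∀ p ∈ O,
    d1 u p ^ 2 + d1 v p ^ 2 + lam ^ 2 * d1 z p ^ 2 = Real.exp (2 * ψ p) ∧
    d1 u p * d2 u p + d1 v p * d2 v p + lam ^ 2 * (d1 z p * d2 z p) = 0 ∧
    d2 u p ^ 2 + d2 v p ^ 2 + lam ^ 2 * d2 z p ^ 2 = Real.exp (2 * ψ p)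

/-- Bump profile: `1` for `t ≤ 1/4`, `0` for `1 ≤ t`. -/
def beta0 (t : ℝ) : ℝ := Real.smoothTransition ((4 - 4 * t) / 3)

/-- Unperturbed conformal factor; its Laplacian is `κ (1 - rr p)`. -/
def psi0 (κ : ℝ) (p : Pl) : ℝ := κ * (rr p / 4 - rr p ^ 2 / 16)

/-- Perturbed conformal factor. -/
def psi (N : ℕ) (κ h : ℝ) (p : Pl) : ℝ := psi0 κ p + h ^ N * beta0 (rr p / h ^ 2)

/-- Normalisation of an immersion on the disc of radius three. -/
structure Close (ε : ℝ) (u v z : Pl → ℝ) : Prop where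
  v0 : v 0 = 0
  ux : ∀ p ∈ disc 9, |d1 u p - 1| ≤ ε
  uy : ∀ p ∈ disc 9, |d2 u p| ≤ ε
  vx : ∀ p ∈ disc 9, |d1 v p| ≤ ε
  vy : ∀ p ∈ disc 9, |d2 v p - 1| ≤ ε
  u2 : ∀ b b', ∀ p ∈ disc 9, |dd b (dd b' u) p| ≤ ε
  v2 : ∀ b b', ∀ p ∈ disc 9, |dd b (dd b' v) p| ≤ ε
  zxx : ∀ p ∈ disc 9, |d1 (d1 z) p - 1| ≤ ε
  zxy : ∀ p ∈ disc 9, |d2 (d1 z) p| ≤ ε
  zyy : ∀ p ∈ disc 9, |d2 (d2 z) p| ≤ ε
  z1 : ∀ b, ∀ p ∈ disc 9, |dd b z p| ≤ 100

/-- The punctured regions on which the a priori estimates live. -/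
def Gs (η σ : ℝ) : Set Pl := {p | η < ‖p‖ ∧ rr p < σ}

/-- Families of punctured regions. -/
def Gf (η : ℕ → ℝ) (σ : ℝ) : ℕ → Set Pl := fun i => Gs (η i) σ

/-! ### Plain calculus -/

theorem Sm.dd {f : Pl → ℝ} (hf : Sm f) (b : Bool) : Sm (dd b f) := by
  unfold P229.dd
  have h1 : ContDiff ℝ (⊤ : ℕ∞) (fderiv ℝ f) := hf.fderiv_right (m := (⊤ : ℕ∞)) (by simp)
  exact h1.clm_apply contDiff_const

theorem Sm.wd {f : Pl → ℝ} (hf : Sm f) (l : List Bool) : Sm (wd l f) := by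
  induction l generalizing f with
  | nil => exact hf
  | cons b l ih => exact ih (hf.dd b)

theorem Sm.diff {f : Pl → ℝ} (hf : Sm f) (p : Pl) : DifferentiableAt ℝ f p :=
  (hf.differentiable (by simp)) p

theorem sm_rr : Sm rr := by unfold Sm rr; fun_prop

theorem sm_psi0 (κ : ℝ) : Sm (psi0 κ) := by unfold Sm psi0 rr; fun_prop

theorem sm_psi (N : ℕ) (κ h : ℝ) : Sm (psi N κ h) := by
  unfold Sm psi psi0 beta0 rr
  fun_prop

theorem dd_add {f g : Pl → ℝ} {p : Pl} (b : Bool) (hf : DifferentiableAt ℝ f p)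
    (hg : DifferentiableAt ℝ g p) : dd b (fun q => f q + g q) p = dd b f p + dd b g p := by
  unfold dd; rw [fderiv_fun_add hf hg]; rfl

theorem dd_sub {f g : Pl → ℝ} {p : Pl} (b : Bool) (hf : DifferentiableAt ℝ f p)
    (hg : DifferentiableAt ℝ g p) : dd b (fun q => f q - g q) p = dd b f p - dd b g p := by
  unfold dd; rw [fderiv_fun_sub hf hg]; rfl

theorem dd_mul {f g : Pl → ℝ} {p : Pl} (b : Bool) (hf : DifferentiableAt ℝ f p)
    (hg : DifferentiableAt ℝ g p) :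
    dd b (fun q => f q * g q) p = f p * dd b g p + g p * dd b f p := by
  unfold dd; rw [fderiv_fun_mul hf hg]; simp

theorem dd_const (b : Bool) (c : ℝ) (p : Pl) : dd b (fun _ => c) p = 0 := by
  unfold dd; simp

theorem dd_const_mul {f : Pl → ℝ} {p : Pl} (b : Bool) (c : ℝ) (hf : DifferentiableAt ℝ f p) :
    dd b (fun q => c * f q) p = c * dd b f p := by
  rw [dd_mul b (differentiableAt_const c) hf, dd_const]; ring

theorem dd_fst (b : Bool) (p : Pl) : dd b (fun q => q.1) p = cond b 0 1 := by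
  unfold dd; rw [fderiv_fst]; cases b <;> simp [ev]

theorem dd_snd (b : Bool) (p : Pl) : dd b (fun q => q.2) p = cond b 1 0 := by
  unfold dd; rw [fderiv_snd]; cases b <;> simp [ev]

theorem dd_congr {f g : Pl → ℝ} {p : Pl} (b : Bool) (h : f =ᶠ[𝓝 p] g) : dd b f p = dd b g p := by
  unfold dd; rw [h.fderiv_eq]

theorem dd_congr_on {f g : Pl → ℝ} {O : Set Pl} (hO : IsOpen O) (h : ∀ p ∈ O, f p = g p)
    (b : Bool) : ∀ p ∈ O, dd b f p = dd b g p := fun _ hp =>
  dd_congr b (Filter.eventually_of_mem (hO.mem_nhds hp) h)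

/-- A linear functional on the plane in coordinates. -/
theorem fderiv_apply_eq (f : Pl → ℝ) (p w : Pl) :
    fderiv ℝ f p w = w.1 * d1 f p + w.2 * d2 f p := by
  have : w = w.1 • ev false + w.2 • ev true := by
    ext <;> simp [ev]
  conv_lhs => rw [this]
  simp only [map_add, map_smul, smul_eq_mul]
  rfl

/-- Chain rule for a scalar function of one variable. -/
theorem dd_comp1 {φ : ℝ → ℝ} {φ' : ℝ} {f : Pl → ℝ} {p : Pl} (b : Bool)
    (hφ : HasDerivAt φ φ' (f p)) (hf : DifferentiableAt ℝ f p) :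
    dd b (fun q => φ (f q)) p = φ' * dd b f p := by
  unfold dd
  have := (hφ.comp_hasFDerivAt p hf.hasFDerivAt).fderiv
  have e : (fun q => φ (f q)) = φ ∘ f := rfl
  rw [e, this]; simp

/-- Chain rule in the plane. -/
theorem dd_comp2 {f X Y : Pl → ℝ} {p : Pl} (b : Bool) (hf : DifferentiableAt ℝ f (X p, Y p))
    (hX : DifferentiableAt ℝ X p) (hY : DifferentiableAt ℝ Y p) :
    dd b (fun q => f (X q, Y q)) p =
      d1 f (X p, Y p) * dd b X p + d2 f (X p, Y p) * dd b Y p := by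
  have h := (hf.hasFDerivAt.comp p (hX.hasFDerivAt.prodMk hY.hasFDerivAt)).fderiv
  have e : (fun q => f (X q, Y q)) = f ∘ (fun q => (X q, Y q)) := rfl
  unfold dd
  rw [e, h]
  simp only [ContinuousLinearMap.comp_apply, ContinuousLinearMap.prod_apply]
  rw [fderiv_apply_eq]
  simp only [dd]; ring

theorem dd_comm {f : Pl → ℝ} (hf : Sm f) (b b' : Bool) : dd b (dd b' f) = dd b' (dd b f) := by
  funext p
  have h1 : ContDiff ℝ (⊤ : ℕ∞) (fderiv ℝ f) := hf.fderiv_right (m := (⊤ : ℕ∞)) (by simp)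
  have hd : DifferentiableAt ℝ (fderiv ℝ f) p := (h1.differentiable (by simp)) p
  have hs : IsSymmSndFDerivAt ℝ f p := hf.contDiffAt.isSymmSndFDerivAt (by
    simp only [minSmoothness_of_isRCLikeNormedField]
    exact WithTop.coe_le_coe.2 (le_top : (2 : ℕ∞) ≤ ⊤))
  have key : ∀ c c' : Bool, dd c (dd c' f) p = fderiv ℝ (fderiv ℝ f) p (ev c) (ev c') := by
    intro c c'
    unfold dd
    rw [fderiv_clm_apply hd (differentiableAt_const _)]
    simp
  rw [key, key, hs.eq]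

theorem isOpen_disc (σ : ℝ) : IsOpen (disc σ) :=
  isOpen_lt sm_rr.continuous continuous_const

theorem isOpen_Gs (η σ : ℝ) : IsOpen (Gs η σ) :=
  (isOpen_lt continuous_const continuous_norm).inter (isOpen_disc σ)

theorem norm_sq_le_rr (p : Pl) : ‖p‖ ^ 2 ≤ rr p := by
  rw [Prod.norm_def, Real.norm_eq_abs, Real.norm_eq_abs, rr]
  rcases max_cases |p.1| |p.2| with h | h <;> rw [h.1, sq_abs] <;> nlinarith [sq_nonneg p.1, sq_nonneg p.2]

theorem rr_le_norm_sq (p : Pl) : rr p ≤ 2 * ‖p‖ ^ 2 := by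
  have h1 : |p.1| ≤ ‖p‖ := norm_fst_le p
  have h2 : |p.2| ≤ ‖p‖ := norm_snd_le p
  have h3 := pow_le_pow_left₀ (abs_nonneg _) h1 2
  have h4 := pow_le_pow_left₀ (abs_nonneg _) h2 2
  rw [sq_abs] at h3 h4
  unfold rr; linarith

/-! ### The ring of smooth families -/

/-- Families of smooth functions on the plane. -/
def smAlg : Subalgebra ℝ (ℕ → Pl → ℝ) where
  carrier := {f | ∀ i, Sm (f i)}
  mul_mem' := fun ha hb i => (ha i).mul (hb i)
  add_mem' := fun ha hb i => (ha i).add (hb i)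
  algebraMap_mem' := fun _ _ => contDiff_const

/-- The ring of smooth families. -/
abbrev Rg : Type := smAlg

theorem Rg.sm (f : Rg) (i : ℕ) : Sm (f.1 i) := f.2 i

theorem Rg.ext' {f g : Rg} (h : ∀ i p, f.1 i p = g.1 i p) : f = g :=
  Subtype.ext (funext fun i => funext (h i))

@[simp] theorem Rg.add_ap (f g : Rg) (i p) : (f + g).1 i p = f.1 i p + g.1 i p := rfl
@[simp] theorem Rg.sub_ap (f g : Rg) (i p) : (f - g).1 i p = f.1 i p - g.1 i p := rfl
@[simp] theorem Rg.neg_ap (f : Rg) (i p) : (-f).1 i p = -f.1 i p := rfl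
@[simp] theorem Rg.mul_ap (f g : Rg) (i p) : (f * g).1 i p = f.1 i p * g.1 i p := rfl
@[simp] theorem Rg.smul_ap (c : ℝ) (f : Rg) (i p) : (c • f).1 i p = c * f.1 i p := rfl
@[simp] theorem Rg.zero_ap (i p) : (0 : Rg).1 i p = 0 := rfl
@[simp] theorem Rg.one_ap (i p) : (1 : Rg).1 i p = 1 := rfl
@[simp] theorem Rg.pow_ap (f : Rg) (n : ℕ) (i p) : (f ^ n).1 i p = f.1 i p ^ n := rfl
@[simp] theorem Rg.natCast_ap (n : ℕ) (i p) : (n : Rg).1 i p = n := rfl
@[simp] theorem Rg.ofNat_ap (n : ℕ) [n.AtLeastTwo] (i p) :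
    (ofNat(n) : Rg).1 i p = ofNat(n) := rfl
@[simp] theorem Rg.algebraMap_ap (c : ℝ) (i p) : (algebraMap ℝ Rg c).1 i p = c := rfl

/-- The coordinate derivations. -/
def D (b : Bool) : Derivation ℝ Rg Rg where
  toFun f := ⟨fun i => dd b (f.1 i), fun i => (f.sm i).dd b⟩
  map_add' f g := Rg.ext' fun i p => dd_add b ((f.sm i).diff p) ((g.sm i).diff p)
  map_smul' c f := Rg.ext' fun i p => dd_const_mul b c ((f.sm i).diff p)
  map_one_eq_zero' := Rg.ext' fun _ p => dd_const b 1 p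
  leibniz' f g := Rg.ext' fun i p => dd_mul b ((f.sm i).diff p) ((g.sm i).diff p)

abbrev D1 : Derivation ℝ Rg Rg := D false
abbrev D2 : Derivation ℝ Rg Rg := D true

@[simp] theorem D_ap (b : Bool) (f : Rg) (i : ℕ) : (D b f).1 i = dd b (f.1 i) := rfl

theorem D_comm (b b' : Bool) (f : Rg) : D b (D b' f) = D b' (D b f) :=
  Rg.ext' fun i p => congrFun (dd_comm (f.sm i) b b') p

theorem D_mul (b : Bool) (f g : Rg) : D b (f * g) = f * D b g + g * D b f := by
  rw [Derivation.leibniz]; rfl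

/-- Words of derivations, as linear maps; the head letter is applied first. -/
def W : List Bool → Rg →ₗ[ℝ] Rg
  | [] => LinearMap.id
  | b :: l => (W l).comp (D b).toLinearMap

@[simp] theorem W_nil (f : Rg) : W [] f = f := rfl
@[simp] theorem W_cons (b : Bool) (l : List Bool) (f : Rg) : W (b :: l) f = W l (D b f) := rfl

theorem W_ap (l : List Bool) (f : Rg) (i : ℕ) : (W l f).1 i = wd l (f.1 i) := by
  induction l generalizing f with
  | nil => rfl
  | cons b l ih => rw [W_cons, ih]; rfl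

theorem W_append (l l' : List Bool) (f : Rg) : W (l ++ l') f = W l' (W l f) := by
  induction l generalizing f with
  | nil => rfl
  | cons b l ih => simp [ih]

theorem W_D (l : List Bool) (b : Bool) (f : Rg) : W l (D b f) = D b (W l f) := by
  induction l generalizing f with
  | nil => rfl
  | cons c l ih => rw [W_cons, W_cons, D_comm, ih]

theorem W_perm {l l' : List Bool} (h : l.Perm l') (f : Rg) : W l f = W l' f := by
  induction h generalizing f with
  | nil => rfl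
  | cons b _ ih => simp [ih]
  | swap b c l => simp [D_comm b c]
  | trans _ _ ih1 ih2 => rw [ih1, ih2]

/-- A fixed smooth function as a constant family. -/
def fix (f : Pl → ℝ) (hf : Sm f) : Rg := ⟨fun _ => f, fun _ => hf⟩

/-- A sequence of numbers as a family of constant functions. -/
def cst (c : ℕ → ℝ) : Rg := ⟨fun i _ => c i, fun _ => contDiff_const⟩

/-- The coordinate functions. -/
def cX : Rg := fix (fun p => p.1) contDiff_fst
def cY : Rg := fix (fun p => p.2) contDiff_snd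

@[simp] theorem fix_ap (f hf i) : (fix f hf).1 i = f := rfl
@[simp] theorem cst_ap (c : ℕ → ℝ) (i p) : (cst c).1 i p = c i := rfl
@[simp] theorem cX_ap (i p) : cX.1 i p = p.1 := rfl
@[simp] theorem cY_ap (i p) : cY.1 i p = p.2 := rfl
@[simp] theorem D_cst (b : Bool) (c : ℕ → ℝ) : D b (cst c) = 0 :=
  Rg.ext' fun i p => dd_const b (c i) p
@[simp] theorem D1_cX : D false cX = 1 := Rg.ext' fun _ p => dd_fst false p
@[simp] theorem D2_cX : D true cX = 0 := Rg.ext' fun _ p => dd_fst true p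
@[simp] theorem D1_cY : D false cY = 0 := Rg.ext' fun _ p => dd_snd false p
@[simp] theorem D2_cY : D true cY = 1 := Rg.ext' fun _ p => dd_snd true p

/-- Composition with the family of plane maps `(X, Y)`, an algebra homomorphism. -/
def cmp (X Y : Rg) : Rg →ₐ[ℝ] Rg where
  toFun f := ⟨fun i p => f.1 i (X.1 i p, Y.1 i p),
    fun i => (f.sm i).comp ((X.sm i).prodMk (Y.sm i))⟩
  map_one' := rfl
  map_mul' _ _ := rfl
  map_zero' := rfl
  map_add' _ _ := rfl
  commutes' _ := rfl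

@[simp] theorem cmp_ap (X Y f : Rg) (i p) :
    (cmp X Y f).1 i p = f.1 i (X.1 i p, Y.1 i p) := rfl

theorem D_cmp (b : Bool) (X Y f : Rg) :
    D b (cmp X Y f) = cmp X Y (D1 f) * D b X + cmp X Y (D2 f) * D b Y :=
  Rg.ext' fun i p => dd_comp2 b ((f.sm i).diff _) ((X.sm i).diff p) ((Y.sm i).diff p)

/-! ### Classes of families -/

/-- Uniformly bounded on the family of sets `G`. -/
def Bd (G : ℕ → Set Pl) (f : Rg) : Prop := ∃ C, ∀ i, ∀ p ∈ G i, |f.1 i p| ≤ C

/-- Uniformly square integrable on `G`. -/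
def L2 (G : ℕ → Set Pl) (f : Rg) : Prop := ∃ C, ∀ i, ∫ p in G i, f.1 i p ^ 2 ≤ C

/-- Vanishing on `G`. -/
def Z (G : ℕ → Set Pl) (f : Rg) : Prop := ∀ i, ∀ p ∈ G i, f.1 i p = 0

/-- Derivatives of order at most `s` are uniformly bounded. -/
def S (s : ℕ) (G : ℕ → Set Pl) (f : Rg) : Prop :=
  ∀ l : List Bool, l.length ≤ s → Bd G (W l f)

/-- Derivatives of order at most `s` are uniformly square integrable. -/
def Nn (s : ℕ) (G : ℕ → Set Pl) (f : Rg) : Prop :=
  ∀ l : List Bool, l.length ≤ s → L2 G (W l f)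

/-- The Moser type class. -/
def A (s : ℕ) (G : ℕ → Set Pl) (f : Rg) : Prop :=
  Nn s G f ∧ ∀ t, t + 2 ≤ s → S t G f

/-- Open and uniformly bounded families of sets. -/
def Reg (G : ℕ → Set Pl) : Prop :=
  (∀ i, IsOpen (G i)) ∧ ∀ i, G i ⊆ Metric.closedBall 0 3

theorem disc_subset {σ : ℝ} (hσ : σ ≤ 9) : disc σ ⊆ Metric.closedBall 0 3 := by
  intro p hp
  have h1 := norm_sq_le_rr p
  have h2 : rr p < σ := hp
  rw [mem_closedBall_zero_iff]
  nlinarith [norm_nonneg p]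

theorem reg_disc {σ : ℝ} (hσ : σ ≤ 9) : Reg (fun _ => disc σ) :=
  ⟨fun _ => isOpen_disc σ, fun _ => disc_subset hσ⟩

theorem reg_Gf (η : ℕ → ℝ) {σ : ℝ} (hσ : σ ≤ 9) : Reg (Gf η σ) :=
  ⟨fun _ => isOpen_Gs _ _, fun _ _ hp => disc_subset hσ hp.2⟩

end

end Vale.Agent.P229
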