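import Vale.Agent.P229.Defs

/-! P229: definitions for the multiplier, the Gauss lemma and the hodograph system. -/

namespace Vale.Agent.P229

open Set Filter MeasureTheory Topology

noncomputable section

theorem Close.mono {ε ε' : ℝ} {u v z : Pl → ℝ} (h : Close ε u v z) (hε : ε ≤ ε') :
    Close ε' u v z where
  v0 := h.v0
  ux p hp := (h.ux p hp).trans hε
  uy p hp := (h.uy p hp).trans hε
  vx p hp := (h.vx p hp).trans hε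
  vy p hp := (h.vy p hp).trans hε
  u2 b b' p hp := (h.u2 b b' p hp).trans hε
  v2 b b' p hp := (h.v2 b b' p hp).trans hε
  zxx p hp := (h.zxx p hp).trans hε
  zxy p hp := (h.zxy p hp).trans hε
  zyy p hp := (h.zyy p hp).trans hε
  z1 := h.z1

/-! ### Multiplier -/

/-- The non-divergence part of `(Eq - f) * (b U1 + c U2 - al U)`, where
`Eq = U22 + a U11 + e1 U1 + e2 U2`; the suffixes `1`, `2` are partial derivatives. -/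
def form (b b1 b2 c c1 c2 al al1 al2 a a1 a2 e1 e2 U U1 U2 f : ℝ) : ℝ :=
  (-(a1 * b + a * b1) / 2 + (c2 * a + c * a2) / 2 + al * a + e1 * b) * U1 ^ 2 +
    (b1 / 2 - c2 / 2 + al + e2 * c) * U2 ^ 2 +
    (-b2 - (c1 * a + c * a1) + e1 * c + e2 * b) * (U1 * U2) +
    U * ((al1 * a + al * a1 - al * e1) * U1 + (al2 - al * e2) * U2) -
    f * (b * U1 + c * U2 - al * U)

/-- Pointwise hypotheses on the coefficients of the linear equation at the point `(P, V)`. -/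
structure Co (ε μ0 M μ m P V a a1 a2 e1 e2 : ℝ) : Prop where
  mu_ge : μ0 ≤ μ
  mu_le : μ ≤ ε
  m_ge : 7 ≤ m
  m_le : m ≤ M
  ha : |a - μ * (P ^ 2 + V ^ 2 - 1)| ≤ μ * ε
  ha1 : |a1 - 2 * μ * P| ≤ μ * ε
  ha2 : |a2 - 2 * μ * V| ≤ μ * ε
  he1 : |e1 - 2 * m * μ * P| ≤ μ * ε
  he2 : |e2| ≤ μ * ε

/-- Value `B` and derivative `β` at `t` of the truncated identity. -/
structure BF (η t B β : ℝ) : Prop where
  nonneg : 0 ≤ β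
  le_one : β ≤ 1
  eq_one : 2 * η ≤ |t| → β = 1
  sign : 0 ≤ t * B
  le : |B| ≤ |t| * β
  near : |t - B| ≤ 2 * η

/-- Values and partial derivatives of the two cutoffs at a point of squared radius `s`. -/
structure CF (K s ω ω1 ω2 ρ ρ1 ρ2 : ℝ) : Prop where
  om_nonneg : 0 ≤ ω
  om_le : ω ≤ 1
  om_in : s < 2 → ω = 1 ∧ ω1 = 0 ∧ ω2 = 0
  om1 : |ω1| ≤ K
  om2 : |ω2| ≤ K
  rho_nonneg : 0 ≤ ρ
  rho_le : ρ ≤ 1
  rho1 : |ρ1| ≤ K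
  rho2 : |ρ2| ≤ K
  rho_in : s ≤ 1 + 1 / 2000 → ρ = 0
  rho_out : 1 + 1 / 1000 ≤ s → ρ = ω

def b0 (P B1 B2 : ℝ) : ℝ := 50 * B1 + 12 * B2 ^ 2 * (P - B1)
def b0P (β1 B2 : ℝ) : ℝ := 50 * β1 + 12 * B2 ^ 2 * (1 - β1)
def b0V (P B1 B2 β2 : ℝ) : ℝ := 24 * B2 * β2 * (P - B1)
def c0 (B2 : ℝ) : ℝ := -B2 + 4 * B2 ^ 3
def c0V (B2 β2 : ℝ) : ℝ := -β2 + 12 * B2 ^ 2 * β2

/-! ### Gauss lemma -/

def Dl (u v : Pl → ℝ) (p : Pl) : ℝ := d1 u p * d2 v p - d2 u p * d1 v p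
def n1 (v z : Pl → ℝ) (p : Pl) : ℝ := d1 v p * d2 z p - d1 z p * d2 v p
def n2 (u z : Pl → ℝ) (p : Pl) : ℝ := d1 z p * d2 u p - d1 u p * d2 z p

/-- Unnormalised second fundamental form. -/
def ell (u v z : Pl → ℝ) (b b' : Bool) (p : Pl) : ℝ :=
  dd b (dd b' u) p * n1 v z p + dd b (dd b' v) p * n2 u z p + dd b (dd b' z) p * Dl u v p

/-- Gauss formula for the component `f` with normal component `ν`. -/
def GF (u v z ψ f : Pl → ℝ) (ν : ℝ) (p : Pl) : Prop :=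
  Real.exp (2 * ψ p) ^ 2 * d1 (d1 f) p =
      Real.exp (2 * ψ p) ^ 2 * (d1 ψ p * d1 f p - d2 ψ p * d2 f p) +
        ell u v z false false p * ν ∧
    Real.exp (2 * ψ p) ^ 2 * d2 (d1 f) p =
      Real.exp (2 * ψ p) ^ 2 * (d2 ψ p * d1 f p + d1 ψ p * d2 f p) +
        ell u v z true false p * ν ∧
    Real.exp (2 * ψ p) ^ 2 * d2 (d2 f) p =
      Real.exp (2 * ψ p) ^ 2 * (-(d1 ψ p * d1 f p) + d2 ψ p * d2 f p) +
        ell u v z true true p * ν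

/-! ### Hodograph data -/

/-- A family of normalised immersions with their hodograph charts `(P, V)` and the inverse
charts `(X, Y)`. -/
structure Dat (N : ℕ) (ε κ lmin : ℝ) where
  h : ℕ → ℝ
  lam : ℕ → ℝ
  p0 : ℕ → ℝ
  u : Rg
  v : Rg
  z : Rg
  io : Rg
  P : Rg
  V : Rg
  X : Rg
  Y : Rg
  eps_pos : 0 < ε
  eps_le : ε ≤ 1 / 100
  lmin_pos : 0 < lmin
  kap_pos : 0 < κ
  kap_le : κ ≤ ε * lmin ^ 2
  h_pos : ∀ i, 0 < h i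
  lam_ge : ∀ i, lmin ≤ lam i
  lam_le : ∀ i, lam i ≤ ε
  iso : ∀ i, Iso (lam i) (u.1 i) (v.1 i) (z.1 i) (psi N κ (h i)) (disc 9)
  close : ∀ i, Close ε (u.1 i) (v.1 i) (z.1 i)
  bu : S 8 (fun _ => disc 9) u
  bv : S 8 (fun _ => disc 9) v
  bz : S 8 (fun _ => disc 9) z
  p0_le : ∀ i, |p0 i| ≤ 1000
  io_mul : ∀ i, ∀ p ∈ disc 4, io.1 i p * Dl (u.1 i) (v.1 i) p = 1
  io_le : ∀ i, ∀ p ∈ disc 4, |io.1 i p| ≤ 2
  P_eq : ∀ i, ∀ p ∈ disc 4, P.1 i p + p0 i = -n1 (v.1 i) (z.1 i) p * io.1 i p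
  V_eq : ∀ i, ∀ p ∈ disc 4, V.1 i p = v.1 i p
  PV_close : ∀ i p, |d1 (P.1 i) p - 1| ≤ ε ∧ |d2 (P.1 i) p| ≤ ε ∧
    |d1 (V.1 i) p| ≤ ε ∧ |d2 (V.1 i) p - 1| ≤ ε
  XY_close : ∀ i p, |d1 (X.1 i) p - 1| ≤ ε ∧ |d2 (X.1 i) p| ≤ ε ∧
    |d1 (Y.1 i) p| ≤ ε ∧ |d2 (Y.1 i) p - 1| ≤ ε
  PV_XY : ∀ i p, P.1 i (X.1 i p, Y.1 i p) = p.1 ∧ V.1 i (X.1 i p, Y.1 i p) = p.2
  XY_PV : ∀ i p, X.1 i (P.1 i p, V.1 i p) = p.1 ∧ Y.1 i (P.1 i p, V.1 i p) = p.2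
  PV_norm : ∀ i p, |P.1 i p - p.1| ≤ ε * ‖p‖ ∧ |V.1 i p - p.2| ≤ ε * ‖p‖
  XY_norm : ∀ i p, |X.1 i p - p.1| ≤ ε * ‖p‖ ∧ |Y.1 i p - p.2| ≤ ε * ‖p‖

theorem sm_exp_psi0 (κ : ℝ) : Sm (fun p => Real.exp (-2 * psi0 κ p)) :=
  Real.contDiff_exp.comp (contDiff_const.mul (sm_psi0 κ))

namespace Dat

variable {N : ℕ} {ε κ lmin : ℝ} (d : Dat N ε κ lmin)

/-- The initial region in the hodograph plane. -/
def G0 : ℕ → Set Pl := Gf (fun i => 2 * d.h i) 3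

/-- Pull back to the hodograph plane. -/
def c : Rg →ₐ[ℝ] Rg := cmp d.X d.Y

def U : Rg := d.c d.u
def Zt : Rg := d.c d.z
def Q : Rg := d.c (-(D1 d.z * D2 d.u - D1 d.u * D2 d.z) * d.io)
def Ux : Rg := d.c (D1 d.u)
def Uy : Rg := d.c (D2 d.u)
def Vx : Rg := d.c (D1 d.v)
def Vy : Rg := d.c (D2 d.v)
def Ee : Rg := d.c (fix _ (sm_exp_psi0 κ))
def La : Rg := cst d.lam
def Mu : Rg := cst (fun i => κ / d.lam i ^ 2)
def P0 : Rg := cst d.p0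

/-- The generators of the closed system. -/
def Gam : Set Rg :=
  {d.X, d.Y, d.U, d.Zt, d.Q, d.Ux, d.Uy, d.Vx, d.Vy, d.Ee, cX, d.La, d.Mu, d.P0}

def Pp : Rg := cX + d.P0
def ss : Rg := d.X ^ 2 + d.Y ^ 2
def px : Rg := (κ / 2) • d.X - (κ / 4) • (d.X * d.ss)
def py : Rg := (κ / 2) • d.Y - (κ / 4) • (d.Y * d.ss)
def De : Rg := d.Ux * d.Vy - d.Uy * d.Vx
def W2 : Rg := 1 + d.La ^ 2 * (d.Pp ^ 2 + d.Q ^ 2)
def Io : Rg := d.De * d.W2 * d.Ee ^ 2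
def Ww : Rg := d.De ^ 2 * d.Ee ^ 2
def aa : Rg := d.Mu * (d.ss - 1) * d.Ee * d.W2 ^ 2
def gg : Rg := d.Mu * d.Ee * d.W2 ^ 2 * d.Io *
  (2 * (d.X * d.Vy - d.Y * d.Vx) - 2 * (d.ss - 1) * (d.px * d.Vy - d.py * d.Vx))
def f2 : Rg := -(4 * d.Mu * d.La ^ 2 * (d.ss - 1) * d.Ee * d.W2 * d.Q)
def f0 : Rg := 4 * d.Mu * d.La ^ 2 * (d.ss - 1) * d.Ee * d.W2 * d.Pp

end Dat

end

end Vale.Agent.P229
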