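import Vale.Agent.P229.Mult
import Vale.Agent.P229.ClsA

namespace Vale.Agent.P229

open Set Filter MeasureTheory Topology

noncomputable section

/-! JOB Energy: the energy estimate by integration by parts. -/

theorem energy_div {J : Pl → ℝ} (hJ : Sm J) (hc : ∀ p, p ∉ Metric.closedBall (0 : Pl) 3 → J p = 0)
    (k : Bool) : ∫ p, dd k J p = 0 := by
  have hs : HasCompactSupport J := HasCompactSupport.intro (isCompact_closedBall 0 3) hc
  have hs' : HasCompactSupport (dd k J) := hs.fderiv_apply (𝕜 := ℝ) (ev k)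
  have i1 : Integrable J := hJ.continuous.integrable_of_hasCompactSupport hs
  have i2 : Integrable (dd k J) := (hJ.dd k).continuous.integrable_of_hasCompactSupport hs'
  have := integral_mul_fderiv_eq_neg_fderiv_mul_of_integrable (μ := (volume : Measure Pl))
    (f := fun _ : Pl => (1 : ℝ)) (g := J) (v := ev k) (by simp) (by simp only [one_mul]; exact i2)
    (by simpa using i1) (fun _ _ => differentiableAt_const _) (fun x _ => hJ.diff x)
  simpa [dd] using this

/-- The first order flux. -/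
def energyJ1 (b c al a U : Rg) : Rg :=
  a * b * D1 U ^ 2 - b * D2 U ^ 2 + 2 * (c * a * D1 U * D2 U) - 2 * (al * a * U * D1 U)

/-- The second flux. -/
def energyJ2 (b c al a U : Rg) : Rg :=
  2 * (b * D1 U * D2 U) + c * D2 U ^ 2 - c * a * D1 U ^ 2 - 2 * (al * U * D2 U)

theorem energy_id (b c al a e1 e2 U f : Rg) (i : ℕ) (p : Pl) :
    2 * ((D2 (D2 U) + a * D1 (D1 U) + e1 * D1 U + e2 * D2 U - f).1 i p *
      (b.1 i p * (D1 U).1 i p + c.1 i p * (D2 U).1 i p - al.1 i p * U.1 i p)) =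
    2 * form (b.1 i p) (d1 (b.1 i) p) (d2 (b.1 i) p) (c.1 i p) (d1 (c.1 i) p) (d2 (c.1 i) p)
        (al.1 i p) (d1 (al.1 i) p) (d2 (al.1 i) p) (a.1 i p) ((D1 a).1 i p) ((D2 a).1 i p)
        (e1.1 i p) (e2.1 i p) (U.1 i p) ((D1 U).1 i p) ((D2 U).1 i p) (f.1 i p) +
      (d1 ((energyJ1 b c al a U).1 i) p + d2 ((energyJ2 b c al a U).1 i) p) := by
  have h2 : ∀ k, D k (2 : Rg) = 0 := fun k => by
    have : (2 : Rg) = 1 + 1 := by norm_num
    rw [this, map_add, Derivation.map_one_eq_zero, add_zero]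
  have e1' : D1 (energyJ1 b c al a U) = (D1 a * b + a * D1 b) * D1 U ^ 2 +
      2 * a * b * D1 U * D1 (D1 U) - D1 b * D2 U ^ 2 - 2 * b * D2 U * D2 (D1 U) +
      2 * ((D1 c * a + c * D1 a) * D1 U * D2 U + c * a * D1 (D1 U) * D2 U +
        c * a * D1 U * D2 (D1 U)) -
      2 * ((D1 al * a + al * D1 a) * U * D1 U + al * a * D1 U ^ 2 + al * a * U * D1 (D1 U)) := by
    simp only [energyJ1, map_add, map_sub, D_mul, sq, h2, D_comm false true U]
    ring
  have e2' : D2 (energyJ2 b c al a U) =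
      2 * (D2 b * D1 U * D2 U + b * D2 (D1 U) * D2 U + b * D1 U * D2 (D2 U)) +
      D2 c * D2 U ^ 2 + 2 * c * D2 U * D2 (D2 U) - (D2 c * a + c * D2 a) * D1 U ^ 2 -
      2 * c * a * D1 U * D2 (D1 U) -
      2 * (D2 al * U * D2 U + al * D2 U ^ 2 + al * U * D2 (D2 U)) := by
    simp only [energyJ2, map_add, map_sub, D_mul, sq, h2]
    ring
  have x1 := congrArg (fun g : Rg => g.1 i p) e1'
  have x2 := congrArg (fun g : Rg => g.1 i p) e2'
  simp only [Rg.add_ap, Rg.sub_ap, Rg.mul_ap, Rg.pow_ap, Rg.ofNat_ap, D_ap, d1, d2] at x1 x2 ⊢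
  rw [x1, x2]
  unfold form
  ring

theorem energy (M : ℝ) (hM : 7 ≤ M) : ∃ ε > 0, ∀ μ0 > 0, ∃ η0 > 0, ∀ σ' σ : ℝ,
    2 ≤ σ' → σ' < σ → σ ≤ 3 → ∀ (η μ : ℕ → ℝ) (m : ℝ) (U a e1 e2 f : Rg),
      (∀ i, 0 < η i ∧ η i ≤ η0) →
      Z (Gf η σ) (D2 (D2 U) + a * D1 (D1 U) + e1 * D1 U + e2 * D2 U - f) →
      (∀ i, ∀ p ∈ Gs (η i) σ, Co ε μ0 M (μ i) m p.1 p.2 (a.1 i p) ((D1 a).1 i p)
        ((D2 a).1 i p) (e1.1 i p) (e2.1 i p)) →
      L2 (Gf η σ) U → L2 (Gf η σ) f →
      L2 (Gf (fun i => 2 * η i) σ') (D1 U) ∧ L2 (Gf (fun i => 2 * η i) σ') (D2 U) := by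
  obtain ⟨ε, hε, hI⟩ := multiplier M hM
  refine ⟨ε, hε, fun μ0 hμ0 => ?_⟩
  obtain ⟨η0, hη0, hI⟩ := hI μ0 hμ0
  refine ⟨η0, hη0, fun σ' σ h2 hσ h3 η μ m U a e1 e2 f hη hZ hco ⟨CU, hU⟩ ⟨Cf, hf⟩ => ?_⟩
  obtain ⟨k0, hk0, C, hC, hI⟩ := hI σ' σ h2 hσ h3
  choose b0 c0 al0 sb sc sal hout hin using fun i => hI (η i) (hη i).1 (hη i).2
  set b : Rg := ⟨b0, sb⟩
  set c : Rg := ⟨c0, sc⟩
  set al : Rg := ⟨al0, sal⟩
  have hG : Reg (Gf η σ) := reg_Gf η (by linarith)
  have hG' : Reg (Gf (fun i => 2 * η i) σ') := reg_Gf _ (by linarith)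
  have main : ∀ i, ∫ p in Gs (2 * η i) σ', ((D1 U).1 i p ^ 2 + (D2 U).1 i p ^ 2) ≤
      C * (Cf + CU) / k0 := by
    intro i
    set F : Pl → ℝ := fun p => form (b.1 i p) (d1 (b.1 i) p) (d2 (b.1 i) p) (c.1 i p)
      (d1 (c.1 i) p) (d2 (c.1 i) p) (al.1 i p) (d1 (al.1 i) p) (d2 (al.1 i) p) (a.1 i p)
      ((D1 a).1 i p) ((D2 a).1 i p) (e1.1 i p) (e2.1 i p) (U.1 i p) ((D1 U).1 i p)
      ((D2 U).1 i p) (f.1 i p) with hF
    set dv : Pl → ℝ := fun p =>
      d1 ((energyJ1 b c al a U).1 i) p + d2 ((energyJ2 b c al a U).1 i) p with hdv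
    have cdv : Continuous dv := (((energyJ1 b c al a U).sm i).dd false).continuous.add
      (((energyJ2 b c al a U).sm i).dd true).continuous
    have hsub : Gs (η i) σ ⊆ Metric.closedBall 0 3 := hG.2 i
    have hm : MeasurableSet (Gs (η i) σ) := (isOpen_Gs _ _).measurableSet
    have hm' : MeasurableSet (Gs (2 * η i) σ') := (isOpen_Gs _ _).measurableSet
    have o1 : ∀ p, p ∉ Metric.closedBall (0 : Pl) 3 → (energyJ1 b c al a U).1 i p = 0 := by
      intro p hp
      obtain ⟨x, y, w, -⟩ := hout i p fun h => hp (hsub h)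
      simp [energyJ1, b, c, al, x, y, w]
    have o2 : ∀ p, p ∉ Metric.closedBall (0 : Pl) 3 → (energyJ2 b c al a U).1 i p = 0 := by
      intro p hp
      obtain ⟨x, y, w, -⟩ := hout i p fun h => hp (hsub h)
      simp [energyJ2, b, c, al, x, y, w]
    have ii : ∀ (J : Rg) (k : Bool), (∀ p, p ∉ Metric.closedBall (0 : Pl) 3 → J.1 i p = 0) →
        Integrable (dd k (J.1 i)) := fun J k h =>
      ((J.sm i).dd k).continuous.integrable_of_hasCompactSupport
        ((HasCompactSupport.intro (isCompact_closedBall 0 3) h).fderiv_apply (𝕜 := ℝ) (ev k))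
    have I0 : ∫ p, dv p = 0 := by
      rw [hdv, integral_add (ii _ _ o1) (ii _ _ o2), energy_div (Rg.sm _ i) o1,
        energy_div (Rg.sm _ i) o2, add_zero]
    have I1 : ∫ p in Gs (η i) σ, dv p = 0 := by
      rw [setIntegral_eq_integral_of_forall_compl_eq_zero, I0]
      intro p hp
      have := energy_id b c al a e1 e2 U f i p
      obtain ⟨x, y, w, hk⟩ := hout i p hp
      simp only [b, c, al, x, y, w, (hk _).1, (hk _).2.1, (hk _).2.2, form] at this
      simp only [hdv, b, c, al]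
      linarith
    have hFd : ∀ p ∈ Gs (η i) σ, F p = -(1 / 2) * dv p := by
      intro p hp
      have := energy_id b c al a e1 e2 U f i p
      rw [hZ i p hp] at this
      simp only [hF, hdv]
      linarith
    have cf := (f.sm i).continuous
    have cU := (U.sm i).continuous
    have c1 := ((D1 U).sm i).continuous
    have c2 := ((D2 U).sm i).continuous
    set H : Pl → ℝ := fun p => -(1 / 2) * dv p + C * (f.1 i p ^ 2 + U.1 i p ^ 2) with hH
    have cH : Continuous H := by rw [hH]; fun_prop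
    have I2 : ∫ p in Gs (η i) σ, H p ≤ C * (Cf + CU) := by
      have ig : ∀ φ : Pl → ℝ, Continuous φ → IntegrableOn φ (Gs (η i) σ) :=
        fun φ hφ => hG.integrableOn hφ i
      simp only [hH]
      rw [integral_add (ig (fun p => -(1 / 2) * dv p) (by fun_prop))
          (ig (fun p => C * (f.1 i p ^ 2 + U.1 i p ^ 2)) (by fun_prop)),
        integral_const_mul, integral_const_mul, I1,
        integral_add (ig (fun p => f.1 i p ^ 2) (by fun_prop))
          (ig (fun p => U.1 i p ^ 2) (by fun_prop))]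
      have := add_le_add (hf i) (hU i)
      have := mul_le_mul_of_nonneg_left this hC
      simpa [Gf] using this
    have hs : Gs (2 * η i) σ' ⊆ Gs (η i) σ := fun p hp =>
      ⟨by linarith [hp.1, (hη i).1], hp.2.trans hσ⟩
    have I3 : ∫ p in Gs (2 * η i) σ', H p ≤ ∫ p in Gs (η i) σ, H p := by
      refine setIntegral_mono_set (hG.integrableOn cH i) ?_ hs.eventuallyLE
      refine (ae_restrict_iff' hm).2 (ae_of_all _ fun p hp => ?_)
      have := (hin i p hp _ _ _ _ _ _ _ (U.1 i p) ((D1 U).1 i p) ((D2 U).1 i p) (f.1 i p)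
        (hco i p hp)).1
      simp only [hH, ← hFd p hp]
      exact this
    have I4 : ∫ p in Gs (2 * η i) σ', k0 * ((D1 U).1 i p ^ 2 + (D2 U).1 i p ^ 2) ≤
        ∫ p in Gs (2 * η i) σ', H p := by
      refine setIntegral_mono_on (hG'.integrableOn (by fun_prop) i) (hG'.integrableOn cH i) hm'
        fun p hp => ?_
      have := (hin i p (hs hp) _ _ _ _ _ _ _ (U.1 i p) ((D1 U).1 i p) ((D2 U).1 i p) (f.1 i p)
        (hco i p (hs hp))).2 hp
      simp only [hH, ← hFd p (hs hp)]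
      exact this
    rw [integral_const_mul] at I4
    rw [le_div_iff₀ hk0]
    linarith
  have fin : ∀ k, L2 (Gf (fun i => 2 * η i) σ') (D k U) := fun k =>
    ⟨C * (Cf + CU) / k0, fun i => by
      have c1 := ((D1 U).sm i).continuous
      have c2 := ((D2 U).sm i).continuous
      have c3 := ((D k U).sm i).continuous
      refine le_trans (setIntegral_mono_on (hG'.integrableOn (by fun_prop) i)
        (hG'.integrableOn (by fun_prop) i) (isOpen_Gs _ _).measurableSet fun p _ => ?_) (main i)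
      cases k
      · exact le_add_of_nonneg_right (sq_nonneg _)
      · exact le_add_of_nonneg_left (sq_nonneg _)⟩
  exact ⟨fin false, fin true⟩

end

end Vale.Agent.P229
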