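import Vale.Agent.P229.Defs2

namespace Vale.Agent.P229

open Set Filter MeasureTheory Topology

noncomputable section

/-! JOB Gauss: Gauss formula and Gauss equation; facts on the conformal factors. -/

/-- Weighted inner product of two triples of functions. -/
def gip (lam : ℝ) (a1 a2 a3 c1 c2 c3 : Pl → ℝ) (p : Pl) : ℝ :=
  a1 p * c1 p + a2 p * c2 p + lam ^ 2 * (a3 p * c3 p)

theorem gauss_dd (lam : ℝ) {a1 a2 a3 c1 c2 c3 : Pl → ℝ} (h1 : Sm a1) (h2 : Sm a2) (h3 : Sm a3)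
    (k1 : Sm c1) (k2 : Sm c2) (k3 : Sm c3) (b : Bool) (p : Pl) :
    dd b (gip lam a1 a2 a3 c1 c2 c3) p = gip lam (dd b a1) (dd b a2) (dd b a3) c1 c2 c3 p +
      gip lam a1 a2 a3 (dd b c1) (dd b c2) (dd b c3) p := by
  have e1 := (h1.diff p).fun_mul (k1.diff p)
  have e2 := (h2.diff p).fun_mul (k2.diff p)
  have e3 := (h3.diff p).fun_mul (k3.diff p)
  unfold gip
  rw [dd_add b (e1.fun_add e2) (e3.const_mul _), dd_add b e1 e2, dd_const_mul b _ e3,
    dd_mul b (h1.diff p) (k1.diff p), dd_mul b (h2.diff p) (k2.diff p),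
    dd_mul b (h3.diff p) (k3.diff p)]
  ring

theorem gauss_exp {ψ : Pl → ℝ} (hψ : Sm ψ) (b : Bool) (p : Pl) :
    dd b (fun q => Real.exp (2 * ψ q)) p = Real.exp (2 * ψ p) * (2 * dd b ψ p) := by
  rw [dd_comp1 b (Real.hasDerivAt_exp _) ((hψ.diff p).const_mul _), dd_const_mul b _ (hψ.diff p)]

theorem gauss_vec {lam E α β x1 x2 x3 y1 y2 y3 a1 a2 a3 : ℝ}
    (hx : x1 ^ 2 + x2 ^ 2 + lam ^ 2 * x3 ^ 2 = E) (hxy : x1 * y1 + x2 * y2 + lam ^ 2 * (x3 * y3) = 0)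
    (hy : y1 ^ 2 + y2 ^ 2 + lam ^ 2 * y3 ^ 2 = E) (ha : a1 * x1 + a2 * x2 + lam ^ 2 * (a3 * x3) = α)
    (hb : a1 * y1 + a2 * y2 + lam ^ 2 * (a3 * y3) = β) :
    E ^ 2 * a1 = E * α * x1 + E * β * y1 + (a1 * (x2 * y3 - x3 * y2) + a2 * (x3 * y1 - x1 * y3) +
      a3 * (x1 * y2 - y1 * x2)) * (lam ^ 2 * (x2 * y3 - x3 * y2)) ∧
    E ^ 2 * a2 = E * α * x2 + E * β * y2 + (a1 * (x2 * y3 - x3 * y2) + a2 * (x3 * y1 - x1 * y3) +
      a3 * (x1 * y2 - y1 * x2)) * (lam ^ 2 * (x3 * y1 - x1 * y3)) ∧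
    E ^ 2 * a3 = E * α * x3 + E * β * y3 + (a1 * (x2 * y3 - x3 * y2) + a2 * (x3 * y1 - x1 * y3) +
      a3 * (x1 * y2 - y1 * x2)) * (x1 * y2 - y1 * x2) := by
  have key : ∀ xx yy xy : ℝ, x1 ^ 2 + x2 ^ 2 + lam ^ 2 * x3 ^ 2 = xx →
      x1 * y1 + x2 * y2 + lam ^ 2 * (x3 * y3) = xy → y1 ^ 2 + y2 ^ 2 + lam ^ 2 * y3 ^ 2 = yy →
      (xx * yy - xy ^ 2) * a1 = (α * yy - β * xy) * x1 + (β * xx - α * xy) * y1 +
        (a1 * (x2 * y3 - x3 * y2) + a2 * (x3 * y1 - x1 * y3) +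
        a3 * (x1 * y2 - y1 * x2)) * (lam ^ 2 * (x2 * y3 - x3 * y2)) ∧
      (xx * yy - xy ^ 2) * a2 = (α * yy - β * xy) * x2 + (β * xx - α * xy) * y2 +
        (a1 * (x2 * y3 - x3 * y2) + a2 * (x3 * y1 - x1 * y3) +
        a3 * (x1 * y2 - y1 * x2)) * (lam ^ 2 * (x3 * y1 - x1 * y3)) ∧
      (xx * yy - xy ^ 2) * a3 = (α * yy - β * xy) * x3 + (β * xx - α * xy) * y3 +
        (a1 * (x2 * y3 - x3 * y2) + a2 * (x3 * y1 - x1 * y3) +
        a3 * (x1 * y2 - y1 * x2)) * (x1 * y2 - y1 * x2) := by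
    rintro _ _ _ rfl rfl rfl
    subst ha hb
    exact ⟨by ring, by ring, by ring⟩
  obtain ⟨h1, h2, h3⟩ := key E E 0 hx hxy hy
  exact ⟨by linear_combination h1, by linear_combination h2, by linear_combination h3⟩

theorem gauss {lam : ℝ} (hl : lam ≠ 0) {u v z ψ : Pl → ℝ} (hu : Sm u) (hv : Sm v) (hz : Sm z)
    (hψ : Sm ψ) {O : Set Pl} (hO : IsOpen O) (h : Iso lam u v z ψ O) {p : Pl} (hp : p ∈ O) :
    Dl u v p ^ 2 + lam ^ 2 * (n1 v z p ^ 2 + n2 u z p ^ 2) = Real.exp (2 * ψ p) ^ 2 ∧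
    GF u v z ψ u (lam ^ 2 * n1 v z p) p ∧ GF u v z ψ v (lam ^ 2 * n2 u z p) p ∧
    GF u v z ψ z (Dl u v p) p ∧
    lam ^ 2 * (ell u v z false false p * ell u v z true true p - ell u v z true false p ^ 2) =
      -(d1 (d1 ψ) p + d2 (d2 ψ) p) * Real.exp (2 * ψ p) ^ 3 := by
  have _ := hl
  have hA : ∀ b, ∀ q ∈ O, gip lam (dd b (d1 u)) (dd b (d1 v)) (dd b (d1 z)) (d1 u) (d1 v) (d1 z) q =
      Real.exp (2 * ψ q) * dd b ψ q := fun b q hq => by
    have := dd_congr_on hO (f := gip lam (d1 u) (d1 v) (d1 z) (d1 u) (d1 v) (d1 z))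
      (g := fun q => Real.exp (2 * ψ q)) (fun q hq => by rw [← (h q hq).1, gip]; ring) b q hq
    rw [gauss_dd lam (hu.dd _) (hv.dd _) (hz.dd _) (hu.dd _) (hv.dd _) (hz.dd _), gauss_exp hψ] at this
    unfold gip at this ⊢
    linear_combination this / 2
  have hC : ∀ b, ∀ q ∈ O, gip lam (dd b (d2 u)) (dd b (d2 v)) (dd b (d2 z)) (d2 u) (d2 v) (d2 z) q =
      Real.exp (2 * ψ q) * dd b ψ q := fun b q hq => by
    have := dd_congr_on hO (f := gip lam (d2 u) (d2 v) (d2 z) (d2 u) (d2 v) (d2 z))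
      (g := fun q => Real.exp (2 * ψ q)) (fun q hq => by rw [← (h q hq).2.2, gip]; ring) b q hq
    rw [gauss_dd lam (hu.dd _) (hv.dd _) (hz.dd _) (hu.dd _) (hv.dd _) (hz.dd _), gauss_exp hψ] at this
    unfold gip at this ⊢
    linear_combination this / 2
  have hB : ∀ b, ∀ q ∈ O, gip lam (dd b (d1 u)) (dd b (d1 v)) (dd b (d1 z)) (d2 u) (d2 v) (d2 z) q +
      gip lam (d1 u) (d1 v) (d1 z) (dd b (d2 u)) (dd b (d2 v)) (dd b (d2 z)) q = 0 := fun b q hq => by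
    have := dd_congr_on hO (f := gip lam (d1 u) (d1 v) (d1 z) (d2 u) (d2 v) (d2 z))
      (fun q hq => (h q hq).2.1) b q hq
    rwa [gauss_dd lam (hu.dd _) (hv.dd _) (hz.dd _) (hu.dd _) (hv.dd _) (hz.dd _), dd_const] at this
  have cu : d1 (d2 u) = d2 (d1 u) := dd_comm hu _ _
  have cv : d1 (d2 v) = d2 (d1 v) := dd_comm hv _ _
  have cz : d1 (d2 z) = d2 (d1 z) := dd_comm hz _ _
  have h1 : ∀ q ∈ O, gip lam (d1 (d1 u)) (d1 (d1 v)) (d1 (d1 z)) (d2 u) (d2 v) (d2 z) q =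
      -1 * (Real.exp (2 * ψ q) * d2 ψ q) := fun q hq => by
    have a1 := hA true q hq
    have a2 := hB false q hq
    rw [show dd false (d2 u) = _ from cu, show dd false (d2 v) = _ from cv,
      show dd false (d2 z) = _ from cz] at a2
    unfold gip at a1 a2 ⊢
    linear_combination a2 - a1
  have h2 : ∀ q ∈ O, gip lam (d2 (d1 u)) (d2 (d1 v)) (d2 (d1 z)) (d2 u) (d2 v) (d2 z) q =
      Real.exp (2 * ψ q) * d1 ψ q := fun q hq => by
    rw [← cu, ← cv, ← cz]; exact hC false q hq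
  have hE : DifferentiableAt ℝ (fun q => Real.exp (2 * ψ q)) p := ((hψ.diff p).const_mul _).exp
  have h3 := dd_congr_on hO h1 true p hp
  have h4 := dd_congr_on hO h2 false p hp
  rw [gauss_dd lam ((hu.dd _).dd _) ((hv.dd _).dd _) ((hz.dd _).dd _) (hu.dd _) (hv.dd _) (hz.dd _),
    dd_const_mul _ _ (hE.fun_mul ((hψ.dd _).diff p)), dd_mul _ hE ((hψ.dd _).diff p),
    gauss_exp hψ] at h3
  rw [gauss_dd lam ((hu.dd _).dd _) ((hv.dd _).dd _) ((hz.dd _).dd _) (hu.dd _) (hv.dd _) (hz.dd _),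
    dd_mul _ hE ((hψ.dd _).diff p), gauss_exp hψ, dd_comm (hu.dd _), dd_comm (hv.dd _),
    dd_comm (hz.dd _), show dd false (d2 u) = _ from cu, show dd false (d2 v) = _ from cv,
    show dd false (d2 z) = _ from cz] at h4
  obtain ⟨i1, i2, i3⟩ := h p hp
  have a1 := hA false p hp
  have a2 := h1 p hp
  have b1 := hA true p hp
  have b2 := h2 p hp
  have c2 := hC true p hp
  have c1 : d2 (d2 u) p * d1 u p + d2 (d2 v) p * d1 v p + lam ^ 2 * (d2 (d2 z) p * d1 z p) =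
      -(Real.exp (2 * ψ p) * d1 ψ p) := by
    have := hB true p hp
    unfold gip at this b2
    linear_combination this - b2
  obtain ⟨e1, e2, e3⟩ := gauss_vec i1 i2 i3 a1 a2
  obtain ⟨f1, f2, f3⟩ := gauss_vec i1 i2 i3 b1 b2
  obtain ⟨g1, g2, g3⟩ := gauss_vec i1 i2 i3 c1 c2
  unfold gip at h3 h4 a1 a2 b1 b2 c2
  unfold GF ell Dl n1 n2
  refine ⟨?_, ⟨by linear_combination e1, by linear_combination f1, by linear_combination g1⟩,
    ⟨by linear_combination e2, by linear_combination f2, by linear_combination g2⟩,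
    ⟨by linear_combination e3, by linear_combination f3, by linear_combination g3⟩, ?_⟩
  · generalize Real.exp (2 * ψ p) = E at *
    linear_combination (d2 u p ^ 2 + d2 v p ^ 2 + lam ^ 2 * d2 z p ^ 2) * i1 + E * i3 -
      (d1 u p * d2 u p + d1 v p * d2 v p + lam ^ 2 * (d1 z p * d2 z p)) * i2
  · generalize Real.exp (2 * ψ p) = E at *
    linear_combination (-d2 (d2 u) p) * e1 - d2 (d2 v) p * e2 - lam ^ 2 * d2 (d2 z) p * e3 +
      d2 (d1 u) p * f1 + d2 (d1 v) p * f2 + lam ^ 2 * d2 (d1 z) p * f3 + E ^ 2 * (h3 - h4) -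
      E ^ 2 * d1 ψ p * c1 + E ^ 2 * d2 ψ p * c2 + E ^ 2 * d2 ψ p * b1 + E ^ 2 * d1 ψ p * b2

theorem gauss_rr (b : Bool) (p : Pl) : dd b rr p = 2 * cond b p.2 p.1 := by
  have h1 : DifferentiableAt ℝ (fun q : Pl => q.1) p := differentiableAt_fst
  have h2 : DifferentiableAt ℝ (fun q : Pl => q.2) p := differentiableAt_snd
  rw [show rr = fun q => q.1 * q.1 + q.2 * q.2 from funext fun q => by unfold rr; ring,
    dd_add b (h1.fun_mul h1) (h2.fun_mul h2), dd_mul b h1 h1, dd_mul b h2 h2, dd_fst, dd_snd]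
  cases b <;> simp <;> ring

theorem gauss_psi0 (κ : ℝ) (b : Bool) (p : Pl) :
    dd b (psi0 κ) p = κ / 2 * cond b p.2 p.1 - κ / 4 * (cond b p.2 p.1 * rr p) := by
  have h : HasDerivAt (fun t : ℝ => κ * (t / 4 - t ^ 2 / 16)) (κ * (1 / 4 - rr p / 8)) (rr p) := by
    refine ((((hasDerivAt_id' (rr p)).div_const 4).fun_sub
      ((hasDerivAt_pow 2 (rr p)).div_const 16)).const_mul κ).congr_deriv ?_
    simp; ring_nf; simp
  rw [show psi0 κ = fun q => (fun t : ℝ => κ * (t / 4 - t ^ 2 / 16)) (rr q) from rfl,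
    dd_comp1 b h (sm_rr.diff p), gauss_rr]
  ring

theorem d1_psi0 (κ : ℝ) (p : Pl) : d1 (psi0 κ) p = κ / 2 * p.1 - κ / 4 * (p.1 * rr p) :=
  gauss_psi0 κ false p

theorem d2_psi0 (κ : ℝ) (p : Pl) : d2 (psi0 κ) p = κ / 2 * p.2 - κ / 4 * (p.2 * rr p) :=
  gauss_psi0 κ true p

theorem lap_psi0 (κ : ℝ) (p : Pl) :
    d1 (d1 (psi0 κ)) p + d2 (d2 (psi0 κ)) p = κ * (1 - rr p) := by
  have h1 : DifferentiableAt ℝ (fun q : Pl => q.1) p := differentiableAt_fst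
  have h2 : DifferentiableAt ℝ (fun q : Pl => q.2) p := differentiableAt_snd
  have h3 := sm_rr.diff p
  rw [funext (d1_psi0 κ), funext (d2_psi0 κ), d1, d2,
    dd_sub _ (h1.const_mul _) ((h1.fun_mul h3).const_mul _),
    dd_sub _ (h2.const_mul _) ((h2.fun_mul h3).const_mul _), dd_const_mul _ _ h1,
    dd_const_mul _ _ h2, dd_const_mul _ _ (h1.fun_mul h3), dd_const_mul _ _ (h2.fun_mul h3),
    dd_mul _ h1 h3, dd_mul _ h2 h3, gauss_rr, gauss_rr, dd_fst, dd_snd]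
  simp only [cond_true, cond_false, rr]
  ring

theorem gauss_beta0 {t : ℝ} (ht : 1 ≤ t) : beta0 t = 0 :=
  Real.smoothTransition.zero_of_nonpos (by linarith)

theorem psi_out (N : ℕ) (κ : ℝ) {h : ℝ} (hh : 0 < h) {p : Pl} (hp : h ^ 2 ≤ rr p) :
    psi N κ h p = psi0 κ p := by
  rw [psi, gauss_beta0 ((one_le_div (by positivity)).mpr hp), mul_zero, add_zero]

theorem psi_in (N : ℕ) (κ : ℝ) {h : ℝ} (hh : 0 < h) {p : Pl} (hp : rr p ≤ h ^ 2 / 4) :
    psi N κ h p = psi0 κ p + h ^ N := by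
  have : rr p / h ^ 2 ≤ 1 / 4 := by rw [div_le_iff₀ (by positivity)]; linarith
  rw [psi, beta0, Real.smoothTransition.one_of_one_le (by linarith), mul_one]

theorem psi0_le_psi (N : ℕ) (κ : ℝ) {h : ℝ} (hh : 0 < h) (p : Pl) :
    psi0 κ p ≤ psi N κ h p ∧ psi N κ h p ≤ psi0 κ p + h ^ N :=
  ⟨le_add_of_nonneg_right (mul_nonneg (by positivity) (Real.smoothTransition.nonneg _)),
    add_le_add_right (mul_le_of_le_one_right (by positivity) (Real.smoothTransition.le_one _)) _⟩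

theorem gauss_scale {f : Pl → ℝ} (hf : Sm f) (c : ℝ) (b : Bool) (p : Pl) :
    dd b (fun q => f (c * q.1, c * q.2)) p = c * dd b f (c * p.1, c * p.2) := by
  have h1 : DifferentiableAt ℝ (fun q : Pl => q.1) p := differentiableAt_fst
  have h2 : DifferentiableAt ℝ (fun q : Pl => q.2) p := differentiableAt_snd
  rw [dd_comp2 b (hf.diff _) (h1.const_mul c) (h2.const_mul c), dd_const_mul b c h1,
    dd_const_mul b c h2, dd_fst, dd_snd]
  cases b <;> simp [mul_comm]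

theorem psi_bounds : ∃ C, 0 < C ∧ ∀ (N : ℕ) (κ h : ℝ), 3 ≤ N → 0 < h → h ≤ 1 → ∀ p b,
    |dd b (psi N κ h) p - dd b (psi0 κ) p| ≤ C * h ∧
    |dd b (dd b (psi N κ h)) p - dd b (dd b (psi0 κ)) p| ≤ C * h := by
  set β : Pl → ℝ := fun p => beta0 (rr p) with hβ
  have sβ : Sm β := by unfold Sm β beta0 rr; fun_prop
  have cβ : HasCompactSupport β := HasCompactSupport.intro (isCompact_closedBall 0 1) fun p hp => by
    rw [mem_closedBall_zero_iff, not_le] at hp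
    exact gauss_beta0 ((one_le_pow₀ hp.le).trans (norm_sq_le_rr p))
  have c1 : ∀ b, HasCompactSupport (dd b β) := fun b => cβ.fderiv_apply ℝ _
  have c2 : ∀ b, HasCompactSupport (dd b (dd b β)) := fun b => (c1 b).fderiv_apply ℝ _
  choose C1 hC1 using fun b => (sβ.dd b).continuous.bounded_above_of_compact_support (c1 b)
  choose C2 hC2 using fun b => ((sβ.dd b).dd b).continuous.bounded_above_of_compact_support (c2 b)
  have p1 := fun b => (norm_nonneg _).trans (hC1 b 0)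
  have p2 := fun b => (norm_nonneg _).trans (hC2 b 0)
  have hC : ∀ b, C1 b ≤ C1 false + C1 true + C2 false + C2 true + 1 ∧
      C2 b ≤ C1 false + C1 true + C2 false + C2 true + 1 := fun b => by
    have := p1 false; have := p1 true; have := p2 false; have := p2 true
    cases b <;> constructor <;> linarith
  refine ⟨_, lt_of_lt_of_le one_pos (le_add_of_nonneg_left (add_nonneg (add_nonneg
    (add_nonneg (p1 false) (p1 true)) (p2 false)) (p2 true))), fun N κ h hN h0 h1 p b => ?_⟩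
  generalize C1 false + C1 true + C2 false + C2 true + 1 = C at hC
  obtain ⟨n, rfl⟩ := Nat.exists_eq_add_of_le' hN
  have sc : ∀ {f : Pl → ℝ}, Sm f → Sm fun q => f (h⁻¹ * q.1, h⁻¹ * q.2) := fun hf =>
    hf.comp (by fun_prop)
  have e0 : psi (n + 3) κ h = fun q => psi0 κ q + h ^ (n + 3) * β (h⁻¹ * q.1, h⁻¹ * q.2) :=
    funext fun q => by
      simp only [psi, hβ, rr]
      congr 3
      field_simp
  have e1 : dd b (psi (n + 3) κ h) =
      fun q => dd b (psi0 κ) q + h ^ (n + 2) * dd b β (h⁻¹ * q.1, h⁻¹ * q.2) := funext fun q => by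
    rw [e0, dd_add b ((sm_psi0 κ).diff q) (((sc sβ).diff q).const_mul _),
      dd_const_mul b _ ((sc sβ).diff q), gauss_scale sβ]
    field_simp
    ring
  have e2 : dd b (dd b (psi (n + 3) κ h)) p = dd b (dd b (psi0 κ)) p +
      h ^ (n + 1) * dd b (dd b β) (h⁻¹ * p.1, h⁻¹ * p.2) := by
    rw [e1, dd_add b (((sm_psi0 κ).dd b).diff p) (((sc (sβ.dd b)).diff p).const_mul _),
      dd_const_mul b _ ((sc (sβ.dd b)).diff p), gauss_scale (sβ.dd b)]
    field_simp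
    ring
  have hp : ∀ k, h ^ (k + 1) ≤ h := fun k => pow_le_of_le_one h0.le h1 (Nat.succ_ne_zero k)
  rw [e2, e1, add_sub_cancel_left, add_sub_cancel_left, abs_mul, abs_mul, mul_comm C,
    abs_of_pos (pow_pos h0 _), abs_of_pos (pow_pos h0 _)]
  exact ⟨mul_le_mul (hp _) ((hC1 b _).trans (hC b).1) (abs_nonneg _) h0.le,
    mul_le_mul (hp _) ((hC2 b _).trans (hC b).2) (abs_nonneg _) h0.le⟩

end

end Vale.Agent.P229
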