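import Vale.Agent.P229.Patch

namespace Vale.Agent.P229

open Set Filter MeasureTheory Topology

noncomputable section

/-! JOB Glob: summing the patches and the final statement. -/

theorem glob_WB (k : ℕ) : ∀ f : Pl → ℝ, Sm f → HasCompactSupport f →
    ∃ C, ∀ M, C ≤ M → WB k M univ f := by
  induction k with
  | zero =>
    intro f hf hc
    obtain ⟨C, hC⟩ := hc.exists_bound_of_continuous hf.continuous
    refine ⟨C, fun M hM l hl p _ => ?_⟩
    obtain rfl := List.length_eq_zero_iff.1 (Nat.le_zero.1 hl)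
    exact (hC p).trans hM
  | succ k ih =>
    intro f hf hc
    obtain ⟨C, hC⟩ := hc.exists_bound_of_continuous hf.continuous
    have h : ∀ b, ∃ C, ∀ M, C ≤ M → WB k M univ (dd b f) := fun b =>
      ih _ (hf.dd b) (hc.fderiv_apply ℝ (ev b))
    choose C' hC' using h
    refine ⟨max C (max (C' true) (C' false)), fun M hM l hl p hp => ?_⟩
    cases l with
    | nil => exact (hC p).trans ((le_max_left _ _).trans hM)
    | cons b l =>
      refine hC' b M (le_trans ?_ ((le_max_right _ _).trans hM)) l (Nat.le_of_succ_le_succ hl) p hp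
      cases b
      · exact le_max_right _ _
      · exact le_max_left _ _

theorem glob_psi : ∃ ψ : Pl → ℝ, Sm ψ ∧ ∀ n : ℕ, ∀ F1 F2 F3 : Pl → ℝ, Sm F1 → Sm F2 → Sm F3 →
    WB 8 n univ F1 → WB 8 n univ F2 → WB 8 n univ F3 →
    ¬ Iso 1 F1 F2 F3 ψ (Metric.ball ((1 / 2) ^ n, 0) ((1 / 2) ^ n / 4)) := by
  have h := fun n : ℕ => patch ((1 / 2) ^ n, 0) (R := (1 / 2) ^ n / 16) (δ := (1 / 2) ^ n)
    (by positivity) (by positivity) n n
  choose ψ s1 s2 s3 s4 using h
  refine ⟨fun p => ∑' n, ψ n p, ?_, fun n F1 F2 F3 a1 a2 a3 b1 b2 b3 hiso => ?_⟩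
  · refine contDiff_tsum_of_eventually (v := fun _ n => (1 / 2) ^ n) s1
      (fun _ _ => summable_geometric_two) fun k _ => ?_
    rw [Nat.cofinite_eq_atTop]
    exact (eventually_ge_atTop k).mono fun n hn => s3 n k hn
  · refine s4 n F1 F2 F3 a1 a2 a3 b1 b2 b3 fun p hp => ?_
    rw [show 4 * ((1 / 2 : ℝ) ^ n / 16) = (1 / 2) ^ n / 4 by ring] at hp
    have e : ∑' m, ψ m p = ψ n p := by
      refine tsum_eq_single n fun m hm => s2 m p ?_
      rw [mem_ball_iff_norm] at hp
      have h1 := (norm_fst_le (p - ((1 / 2) ^ n, 0))).trans_lt hp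
      refine le_trans ?_ (norm_fst_le (p - ((1 / 2) ^ m, 0)))
      rw [Prod.fst_sub, Real.norm_eq_abs] at h1 ⊢
      rw [abs_lt] at h1
      rw [le_abs]
      have key : ∀ i j : ℕ, i < j → (1 / 2 : ℝ) ^ j ≤ (1 / 2) ^ i / 2 := fun i j hij => by
        have := pow_le_pow_of_le_one (a := (1 / 2 : ℝ)) (by norm_num) (by norm_num)
          (Nat.succ_le_of_lt hij)
        rw [pow_succ] at this
        linarith
      have p1 : (0 : ℝ) < (1 / 2) ^ n := by positivity
      have p2 : (0 : ℝ) < (1 / 2) ^ m := by positivity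
      rcases lt_or_gt_of_ne hm with h2 | h2
      · have := key m n h2
        right; simp only at *; linarith
      · have := key n m h2
        left; simp only at *; linarith
    have := hiso p hp
    simp only [e] at this
    exact this

/-- the plane as a Euclidean space -/
def globT : Pl →L[ℝ] EuclideanSpace ℝ (Fin 2) :=
  (ContinuousLinearMap.fst ℝ ℝ ℝ).smulRight (EuclideanSpace.single 0 1) +
    (ContinuousLinearMap.snd ℝ ℝ ℝ).smulRight (EuclideanSpace.single 1 1)

theorem globT_0 (p : Pl) : globT p 0 = p.1 := by simp [globT]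
theorem globT_1 (p : Pl) : globT p 1 = p.2 := by simp [globT]
theorem globT_false : globT (ev false) = EuclideanSpace.single 0 1 := by simp [globT, ev]
theorem globT_true : globT (ev true) = EuclideanSpace.single 1 1 := by simp [globT, ev]

theorem main : ∃ g : EuclideanSpace ℝ (Fin 2) → Matrix (Fin 2) (Fin 2) ℝ,
    (∀ i j, ContDiff ℝ (⊤ : ℕ∞) fun x => g x i j) ∧ (∀ x, (g x).PosDef) ∧
    ∀ U : Set (EuclideanSpace ℝ (Fin 2)), IsOpen U → 0 ∈ U →
      ∀ F : EuclideanSpace ℝ (Fin 2) → EuclideanSpace ℝ (Fin 3), ContDiffOn ℝ (⊤ : ℕ∞) F U →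
        ¬ ∀ x ∈ U, ∀ i j, inner ℝ (fderiv ℝ F x (EuclideanSpace.single i 1))
          (fderiv ℝ F x (EuclideanSpace.single j 1)) = g x i j := by
  obtain ⟨ψ, sψ, hψ⟩ := glob_psi
  refine ⟨fun x => Matrix.diagonal fun _ => Real.exp (2 * ψ (x 0, x 1)), fun i j => ?_,
    fun x => Matrix.posDef_diagonal_iff.2 fun _ => Real.exp_pos _, fun U hU h0 F hF hiso => ?_⟩
  · simp only [Matrix.diagonal_apply]
    split_ifs
    · exact Real.contDiff_exp.comp (contDiff_const.mul (sψ.comp (by fun_prop)))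
    · exact contDiff_const
  obtain ⟨ρ0, hρ0, hb⟩ := Metric.isOpen_iff.1 (hU.preimage globT.continuous) 0 (by simpa using h0)
  obtain ⟨ρ, hρ, hρ'⟩ : ∃ ρ, 0 < ρ ∧ ρ < ρ0 := ⟨ρ0 / 2, by positivity, by linarith⟩
  have hin : ∀ p : Pl, ‖p‖ < ρ0 → globT p ∈ U := fun p hp => hb (mem_ball_zero_iff.2 hp)
  have hFa : ∀ p : Pl, ‖p‖ < ρ0 → ContDiffAt ℝ (⊤ : ℕ∞) F (globT p) := fun p hp =>
    hF.contDiffAt (hU.mem_nhds (hin p hp))
  obtain ⟨G, hG⟩ : ∃ G : Fin 3 → Pl → ℝ, ∀ k, G k = fun p =>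
    beta0 (rr p / ρ ^ 2) * F (globT p) k := ⟨_, fun _ => rfl⟩
  have gz : ∀ k p, ρ ≤ ‖p‖ → G k p = 0 := fun k p hp => by
    rw [hG]
    simp only
    rw [patch_beta_zero (by simpa using patch_rr_ge hρ zero_le_one (by rwa [one_mul])), zero_mul]
  have gs : ∀ k, Sm (G k) := fun k => by
    refine contDiff_iff_contDiffAt.2 fun p => ?_
    by_cases hp : ‖p‖ < ρ0
    · rw [hG]
      have h1 : Sm fun p => beta0 (rr p / ρ ^ 2) := by unfold Sm beta0 rr; fun_prop
      exact h1.contDiffAt.mul ((EuclideanSpace.proj (𝕜 := ℝ) k).contDiff.contDiffAt.comp p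
        ((hFa p hp).comp p globT.contDiff.contDiffAt))
    · refine (contDiffAt_const (c := (0 : ℝ))).congr_of_eventuallyEq ?_
      exact Filter.eventually_of_mem ((isOpen_lt continuous_const continuous_norm).mem_nhds
        (show ρ < ‖p‖ by linarith)) fun q hq => gz k q (le_of_lt hq)
  have gb : ∀ k, ∃ C, ∀ M, C ≤ M → WB 8 M univ (G k) := fun k => glob_WB 8 _ (gs k)
    (HasCompactSupport.intro (isCompact_closedBall 0 ρ) fun p hp =>
      gz k p (by rw [mem_closedBall_zero_iff, not_le] at hp; exact hp.le))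
  choose C hC using gb
  have gd : ∀ k b (p : Pl), ‖p‖ < ρ / 3 → dd b (G k) p = fderiv ℝ F (globT p) (globT (ev b)) k := by
    intro k b p hp
    have h1 : G k =ᶠ[𝓝 p] fun q => F (globT q) k := by
      refine Filter.eventually_of_mem ((isOpen_lt continuous_norm continuous_const).mem_nhds hp)
        fun q hq => ?_
      have h2 : ‖q‖ ^ 2 ≤ (ρ / 3) ^ 2 := pow_le_pow_left₀ (norm_nonneg _) (le_of_lt hq) 2
      have h3 := rr_le_norm_sq q
      have h4 : 0 < ρ ^ 2 := by positivity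
      rw [hG]
      simp only
      rw [patch_beta_one ((div_le_iff₀ h4).2 (by linarith)), one_mul]
    have h5 := ((hFa p (by linarith)).differentiableAt (by simp)).hasFDerivAt
    have h6 := (EuclideanSpace.proj (𝕜 := ℝ) k).hasFDerivAt.comp p (h5.comp p globT.hasFDerivAt)
    rw [dd_congr b h1]
    exact congrArg (fun L : Pl →L[ℝ] ℝ => L (ev b)) h6.fderiv
  obtain ⟨n, hn1, hn2⟩ : ∃ n : ℕ, max (C 0) (max (C 1) (C 2)) ≤ n ∧ (1 / 2 : ℝ) ^ n < ρ / 4 := by
    have h1 := (tendsto_pow_atTop_nhds_zero_of_lt_one (r := (1 / 2 : ℝ)) (by norm_num)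
      (by norm_num)).eventually (gt_mem_nhds (show (0 : ℝ) < ρ / 4 by positivity))
    exact ((tendsto_natCast_atTop_atTop.eventually_ge_atTop _).and h1).exists
  rw [max_le_iff, max_le_iff] at hn1
  refine hψ n (G 0) (G 1) (G 2) (gs 0) (gs 1) (gs 2) (hC 0 n hn1.1) (hC 1 n hn1.2.1)
    (hC 2 n hn1.2.2) fun p hp => ?_
  have hp' : ‖p‖ < ρ / 3 := by
    rw [mem_ball_iff_norm] at hp
    have h1 := norm_le_norm_add_norm_sub' p ((1 / 2 : ℝ) ^ n, (0 : ℝ))
    have h2 : ‖(((1 / 2 : ℝ) ^ n, (0 : ℝ)) : Pl)‖ = (1 / 2) ^ n := by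
      rw [Prod.norm_def, norm_zero, max_eq_left (norm_nonneg _), Real.norm_eq_abs,
        abs_of_pos (by positivity)]
    linarith
  have h := hiso (globT p) (hin p (by linarith))
  have h00 := h 0 0
  have h01 := h 0 1
  have h11 := h 1 1
  simp only [d1, d2, gd _ _ p hp', globT_false, globT_true]
  simp only [PiLp.inner_apply, Fin.sum_univ_three, Matrix.diagonal_apply_eq, globT_0, globT_1,
    Matrix.diagonal_apply_ne _ (zero_ne_one), RCLike.inner_apply, conj_trivial] at h00 h01 h11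
  refine ⟨?_, ?_, ?_⟩ <;> linarith

end

end Vale.Agent.P229
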