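import Vale.Agent.P229.IneqB

namespace Vale.Agent.P229

open Set Filter MeasureTheory Topology

noncomputable section

/-! JOB Ineq: the pointwise positivity of the multiplier (pure real inequality). -/

theorem ineq_final {q11 q22 q12 r1 r2 b c al c1 C Om w Aa U U1 U2 f : ℝ} (hc1 : 0 < c1)
    (hC : 0 < C) (hw : 0 ≤ w) (hw' : w ≤ Om) (h1 : 2 * (c1 * Om) ≤ q11) (h2 : 2 * (c1 * Om) ≤ q22)
    (h12 : q12 ^ 2 ≤ q11 * q22) (hr1 : r1 ^ 2 ≤ C * Om) (hr2 : r2 ^ 2 ≤ C * Om)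
    (hb : b ^ 2 ≤ C * Om) (hc : c ^ 2 ≤ C * Om) (hal : 0 ≤ al) (hal' : al ≤ Aa) :
    c1 / 2 * w * (U1 ^ 2 + U2 ^ 2) ≤ q11 * U1 ^ 2 + q22 * U2 ^ 2 + q12 * (U1 * U2) +
      U * (r1 * U1 + r2 * U2) - f * (b * U1 + c * U2 - al * U) +
      (2 * (C / c1) + Aa) * (f ^ 2 + U ^ 2) := by
  have hO : 0 ≤ c1 * Om := mul_nonneg hc1.le (hw.trans hw')
  have a0 := ineq_quad (x := U1) (y := U2) hO h1 h2 h12
  have a1 := abs_le.1 (ineq_amgm (x := U) (y := U1) hC hc1 hr1)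
  have a2 := abs_le.1 (ineq_amgm (x := U) (y := U2) hC hc1 hr2)
  have a3 := abs_le.1 (ineq_amgm (x := f) (y := U1) hC hc1 hb)
  have a4 := abs_le.1 (ineq_amgm (x := f) (y := U2) hC hc1 hc)
  have a5 : 0 ≤ al * ((f + U) ^ 2) := mul_nonneg hal (sq_nonneg _)
  have a6 : al * (f ^ 2 + U ^ 2) ≤ Aa * (f ^ 2 + U ^ 2) :=
    mul_le_mul_of_nonneg_right hal' (by positivity)
  have a7 : 0 ≤ al * (f ^ 2 + U ^ 2) := mul_nonneg hal (by positivity)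
  have a8 : c1 * w * (U1 ^ 2 + U2 ^ 2) ≤ c1 * Om * (U1 ^ 2 + U2 ^ 2) :=
    mul_le_mul_of_nonneg_right (mul_le_mul_of_nonneg_left hw' hc1.le) (by positivity)
  linarith

theorem ineq_sq {x y : ℝ} (h : |x| ≤ y) : x ^ 2 ≤ y ^ 2 := by
  have := pow_le_pow_left₀ (abs_nonneg _) h 2
  rwa [sq_abs] at this

theorem ineq_low {a a1 e1 e2 ρ ρ1 ρ2 K Aa : ℝ} (ha : |a| ≤ 1) (ha1 : |a1| ≤ 1) (he1 : |e1| ≤ 1)
    (he2 : |e2| ≤ 1) (hρ : 0 ≤ ρ) (hρ' : ρ ≤ 1) (h1 : |ρ1| ≤ K) (h2 : |ρ2| ≤ K) (hK : 1 ≤ K) :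
    (2 * Aa * ρ * ρ1 * a + Aa * ρ ^ 2 * a1 - Aa * ρ ^ 2 * e1) ^ 2 ≤ (4 * Aa * K) ^ 2 * ρ ^ 2 ∧
      (2 * Aa * ρ * ρ2 - Aa * ρ ^ 2 * e2) ^ 2 ≤ (4 * Aa * K) ^ 2 * ρ ^ 2 := by
  have hρa : |ρ| ≤ 1 := by rwa [abs_of_nonneg hρ]
  have t1 := abs_le.1 (ineq_abs_mul h1 ha)
  have t2 := abs_le.1 (ineq_abs_mul hρa ha1)
  have t3 := abs_le.1 (ineq_abs_mul hρa he1)
  have t4 := abs_le.1 (ineq_abs_mul hρa he2)
  have t5 := abs_le.1 h2
  have u1 := ineq_sq (show |2 * (ρ1 * a) + ρ * a1 - ρ * e1| ≤ 4 * K by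
    rw [abs_le]; constructor <;> linarith)
  have u2 := ineq_sq (show |2 * ρ2 - ρ * e2| ≤ 4 * K by rw [abs_le]; constructor <;> linarith)
  have v1 := mul_le_mul_of_nonneg_left u1 (sq_nonneg (Aa * ρ))
  have v2 := mul_le_mul_of_nonneg_left u2 (sq_nonneg (Aa * ρ))
  constructor <;> linarith

theorem ineq (M : ℝ) (hM : 7 ≤ M) : ∃ ε > 0, ∀ μ0 > 0, ∃ η0 > 0, ∀ K, 1 ≤ K →
    ∃ Aa > 0, ∃ k0 > 0, ∃ C, ∀ η P V B1 β1 B2 β2 ω ω1 ω2 ρ ρ1 ρ2 μ m a a1 a2 e1 e2 U U1 U2 f : ℝ,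
      0 < η → η ≤ η0 → P ^ 2 + V ^ 2 ≤ 3 → BF η P B1 β1 → BF η V B2 β2 →
      CF K (P ^ 2 + V ^ 2) ω ω1 ω2 ρ ρ1 ρ2 → Co ε μ0 M μ m P V a a1 a2 e1 e2 →
      k0 * (ω ^ 3 * (β1 + β2)) * (U1 ^ 2 + U2 ^ 2) ≤
        form (ω ^ 3 * b0 P B1 B2) (3 * ω ^ 2 * ω1 * b0 P B1 B2 + ω ^ 3 * b0P β1 B2)
          (3 * ω ^ 2 * ω2 * b0 P B1 B2 + ω ^ 3 * b0V P B1 B2 β2)
          (ω ^ 3 * c0 B2) (3 * ω ^ 2 * ω1 * c0 B2) (3 * ω ^ 2 * ω2 * c0 B2 + ω ^ 3 * c0V B2 β2)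
          (Aa * ρ ^ 2) (2 * Aa * ρ * ρ1) (2 * Aa * ρ * ρ2) a a1 a2 e1 e2 U U1 U2 f +
        C * (f ^ 2 + U ^ 2) := by
  obtain ⟨ε, hε0, hε2⟩ : ∃ ε : ℝ, 0 < ε ∧ ε * (10 ^ 7 * (M + 2) ^ 2) = 1 :=
    ⟨1 / (10 ^ 7 * (M + 2) ^ 2), by positivity, by field_simp⟩
  have hε : ε ≤ 1 / 10000 := by
    have : ε * 1 ≤ ε * (M + 2) ^ 2 := mul_le_mul_of_nonneg_left (by nlinarith) hε0.le
    linarith
  refine ⟨ε, hε0, fun μ0 hμ0 => ⟨μ0, hμ0, fun K hK => ?_⟩⟩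
  obtain ⟨Aa, hA1, hA2⟩ : ∃ Aa : ℝ, 4000 * (900 * M + 1100 * K) ≤ Aa ∧
      8000 * (600 * K) ^ 2 ≤ μ0 * Aa := by
    refine ⟨4000 * (900 * M + 1100 * K) + 8000 * (600 * K) ^ 2 / μ0, ?_, ?_⟩
    · have : 0 ≤ 8000 * (600 * K) ^ 2 / μ0 := by positivity
      linarith
    · have : μ0 * (8000 * (600 * K) ^ 2 / μ0) = 8000 * (600 * K) ^ 2 := by field_simp
      have h2 : 0 ≤ μ0 * (4000 * (900 * M + 1100 * K)) := by
        have : 0 ≤ 900 * M + 1100 * K := by linarith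
        positivity
      linarith
  have hA4 : 4000 ≤ Aa := by linarith
  refine ⟨Aa, by linarith, μ0 / 100 / 2, by positivity,
    2 * (((4 * Aa * K) ^ 2 + 16200) / (μ0 / 100)) + Aa, ?_⟩
  intro η P V B1 β1 B2 β2 ω ω1 ω2 ρ ρ1 ρ2 μ m a a1 a2 e1 e2 U U1 U2 f hη hη0 hs h1 h2 hcf hco
  have hμ0' := hco.mu_ge
  have hμ : 0 < μ := hμ0.trans_le hμ0'
  have hμ1 : μ ≤ 1 / 10000 := hco.mu_le.trans hε
  have hη1 : η ≤ 1 / 10000 := by linarith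
  obtain ⟨m1, m2, m3, m4, m5⟩ := ineq_mult hη hη1 hs h1 h2
  obtain ⟨b0', b1, -, b3, b4, b5⟩ := ineq_Co hco hμ0 hε hs
  have hMμ : M * μ ≤ 1 / 10000 := by
    have s9 : μ * (10 ^ 7 * (M + 2) ^ 2) ≤ 1 :=
      (mul_le_mul_of_nonneg_right hco.mu_le (by positivity)).trans hε2.le
    have : μ * M ≤ μ * (M + 2) ^ 2 := mul_le_mul_of_nonneg_left (by nlinarith) hμ.le
    linarith
  have hω := hcf.om_nonneg
  have hω' := hcf.om_le
  have hρ := hcf.rho_nonneg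
  obtain ⟨l1, l2⟩ := ineq_low (a := a) (a1 := a1) (e1 := e1) (e2 := e2) (Aa := Aa) (by linarith)
    (by linarith) (by linarith) (by linarith) hρ hcf.rho_le hcf.rho1 hcf.rho2 hK
  have hbr := fun h => ineq_bracket hη hη1 hco.m_ge h h1 h2
  have hwt : 0 ≤ β1 + β2 := add_nonneg h1.nonneg h2.nonneg
  have hwt2 : β1 + β2 ≤ 2 := by linarith [h1.le_one, h2.le_one]
  generalize b0 P B1 B2 = b at *
  generalize c0 B2 = c at *
  generalize b0V P B1 B2 β2 = bV at *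
  generalize b0P β1 B2 = bP at *
  generalize c0V B2 β2 = cV at *
  generalize β1 + β2 = wt at *
  have hw : 0 ≤ ω ^ 3 * wt := by positivity
  have hω3 : ω ^ 3 ≤ 1 := pow_le_one₀ hω hω'
  have hρ2 : 0 ≤ ρ ^ 2 := sq_nonneg ρ
  have hAK : 0 ≤ (4 * Aa * K) ^ 2 := sq_nonneg _
  have hx1 := mul_nonneg hAK hw
  have hbc : ∀ x : ℝ, |x| ≤ 90 * wt → (ω ^ 3 * x) ^ 2 ≤ 16200 * (ω ^ 3 * wt) := fun x hx => by
    have k1 := ineq_sq hx
    have k2 : wt * wt ≤ 2 * wt := mul_le_mul_of_nonneg_right hwt2 hwt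
    have k3 : x ^ 2 ≤ 16200 * wt := by linarith
    have k4 := mul_le_mul hω3 k3 (sq_nonneg x) zero_le_one
    have k5 := mul_le_mul_of_nonneg_left k4 (pow_nonneg hω 3)
    linarith
  have hb2 := hbc b m1
  have hc2 := hbc c (by linarith)
  have hx2 := mul_nonneg hAK hρ2
  unfold form
  refine ineq_final (Om := ω ^ 3 * wt + ρ ^ 2) (by positivity) (by positivity) hw (by linarith)
    ?_ ?_ ?_ (by linarith) (by linarith) (by linarith) (by linarith) (by positivity)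
    (by have := mul_le_mul_of_nonneg_left (pow_le_one₀ hρ hcf.rho_le (n := 2))
          (show 0 ≤ Aa by linarith)
        linarith)
  all_goals
    rcases lt_or_ge (P ^ 2 + V ^ 2) (1 + 1 / 1000) with hin | hout
    · obtain ⟨rfl, rfl, rfl⟩ := hcf.om_in (by linarith)
      have hala : μ / 4000 * (Aa * ρ ^ 2) ≤ Aa * ρ ^ 2 * a := by
        by_cases h0 : P ^ 2 + V ^ 2 ≤ 1 + 1 / 2000
        · rw [hcf.rho_in h0]; simp
        · have k1 := mul_le_mul_of_nonneg_left (not_le.1 h0).le hμ.le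
          rw [mul_comm]
          exact mul_le_mul_of_nonneg_left (by linarith) (by positivity)
      obtain ⟨i1, i2, i3⟩ := ineq_inner hco hμ0 hε hε2.le hs hη0 hwt m1 m2 m3 m4 m5
        (by positivity : 0 ≤ Aa * ρ ^ 2) hala (hbr hin)
      have k1 : μ0 * wt ≤ μ * wt := mul_le_mul_of_nonneg_right hμ0' hwt
      have k2 : μ0 * 4000 * ρ ^ 2 ≤ μ * Aa * ρ ^ 2 :=
        mul_le_mul_of_nonneg_right (mul_le_mul hμ0' hA4 (by norm_num) hμ.le) hρ2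
      have k3 : μ0 * wt ≤ 1 * wt := mul_le_mul_of_nonneg_right (by linarith) hwt
      have k4 : μ0 * ρ ^ 2 ≤ Aa * ρ ^ 2 := mul_le_mul_of_nonneg_right (by linarith) hρ2
      have k5 : 0 ≤ μ0 * ρ ^ 2 := by positivity
      linarith
    · obtain rfl := hcf.rho_out hout
      have hηw : η * wt ≤ 1 / 10000 * 2 := mul_le_mul hη1 hwt2 hwt (by norm_num)
      obtain ⟨o1, o2, o3⟩ := ineq_outer (b := b) (c := c) (Wd := bP - cV) (bV := bV) hco hμ0 hε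
        hε2.le hs hout (by linarith) (by linarith) (by linarith) (by linarith) (by linarith)
        hω hω' hcf.om1 hcf.om2 hK hA1 hA2
      have k0 : ρ * wt ≤ 1 * 2 := mul_le_mul hω' hwt2 hwt zero_le_one
      have k1 : μ0 * (ρ * wt) ≤ μ0 * (1 * 2) := mul_le_mul_of_nonneg_left k0 hμ0.le
      have k2 : μ0 * 4000 ≤ μ * Aa := mul_le_mul hμ0' hA4 (by norm_num) hμ.le
      have p1 := mul_le_mul_of_nonneg_left
        (show μ0 / 50 * (ρ * wt + 1) ≤ μ * Aa / 4000 by linarith) hρ2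
      have p2 := mul_le_mul_of_nonneg_left
        (show μ0 / 50 * (ρ * wt + 1) ≤ Aa / 2 by linarith) hρ2
      have p3 := mul_le_mul_of_nonneg_left o1 hρ2
      have p4 := mul_le_mul_of_nonneg_left o2 hρ2
      first
        | linarith
        | (have p5 := mul_le_mul o1 o2 (by positivity) (le_trans (by positivity) o1)
           have p6 := mul_le_mul_of_nonneg_left (o3.trans p5) (sq_nonneg (ρ ^ 2))
           refine le_of_eq_of_le ?_ (le_of_le_of_eq p6 ?_) <;> ring)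

end

end Vale.Agent.P229
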