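import Vale.Agent.P229.Defs2

namespace Vale.Agent.P229

/-! Auxiliary real inequalities for the multiplier. -/

theorem ineq_abs_mul {x y X Y : ℝ} (hx : |x| ≤ X) (hy : |y| ≤ Y) : |x * y| ≤ X * Y := by
  rw [abs_mul]; exact mul_le_mul hx hy (abs_nonneg _) ((abs_nonneg _).trans hx)

theorem ineq_abs74 {t : ℝ} (h : t ^ 2 ≤ 3) : |t| ≤ 7 / 4 :=
  abs_le_of_sq_le_sq' (by nlinarith) (by norm_num) |> abs_le.2

theorem ineq_BF {η t B β : ℝ} (h : BF η t B β) (ht : t ^ 2 ≤ 3) :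
    B ^ 2 ≤ 3 * β ∧ |B| ≤ 7 / 4 * β ∧ 0 ≤ t * (t - B) ∧ t * B ≤ t ^ 2 * β ∧ B ^ 2 ≤ t * B ∧
      t ^ 2 - 2 * η * |t| ≤ t * B ∧ t ^ 2 - 4 * η * |t| ≤ B ^ 2 := by
  have h74 := ineq_abs74 ht
  have h0 := h.nonneg
  have h1 := h.le_one
  have hle := h.le
  have hn := h.near
  have ha := abs_nonneg t
  have hb := abs_nonneg B
  have e1 : t * B = |t| * |B| := by rw [← abs_mul, abs_of_nonneg h.sign]
  have e2 : t ^ 2 = |t| ^ 2 := (sq_abs t).symm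
  have e3 : B ^ 2 = |B| ^ 2 := (sq_abs B).symm
  have hBt : |B| ≤ |t| := by nlinarith
  have h4 : |t| - |B| ≤ 2 * η := (abs_sub_abs_le_abs_sub t B).trans hn
  have h5 : t * B ≤ t ^ 2 * β := by rw [e1, e2]; nlinarith
  have h6 : B ^ 2 ≤ t * B := by rw [e1, e3]; nlinarith
  refine ⟨by nlinarith, by nlinarith, ?_, h5, h6, ?_, ?_⟩
  · have : t * (t - B) = t ^ 2 - t * B := by ring
    rw [this, e1, e2]; nlinarith
  · rw [e1, e2]; nlinarith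
  · rw [e2, e3]; nlinarith

theorem ineq_mult {η P V B1 β1 B2 β2 : ℝ} (hη : 0 < η) (hη1 : η ≤ 1 / 10000)
    (hs : P ^ 2 + V ^ 2 ≤ 3) (h1 : BF η P B1 β1) (h2 : BF η V B2 β2) :
    |b0 P B1 B2| ≤ 90 * (β1 + β2) ∧ |c0 B2| ≤ 23 * (β1 + β2) ∧
      β1 + β2 ≤ b0P β1 B2 - c0V B2 β2 ∧ b0P β1 B2 - c0V B2 β2 ≤ 50 * (β1 + β2) ∧
      |b0V P B1 B2 β2| ≤ 84 * η * (β1 + β2) := by
  obtain ⟨-, a2, -, -, -, -, -⟩ := ineq_BF h1 (by nlinarith)
  obtain ⟨c1, c2, -, -, -, -, -⟩ := ineq_BF h2 (by nlinarith)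
  have p1 := h1.nonneg
  have p2 := h2.nonneg
  have q1 := h1.le_one
  have q2 := h2.le_one
  have hn := h1.near
  have hsq : |B2 ^ 2| ≤ 3 * β2 := by rw [abs_of_nonneg (sq_nonneg _)]; exact c1
  have s2 := sq_nonneg B2
  refine ⟨?_, ?_, ?_, ?_, ?_⟩
  · have e : b0 P B1 B2 = 50 * B1 + 12 * (B2 ^ 2 * (P - B1)) := by unfold b0; ring
    have := ineq_abs_mul hsq hn
    rw [e, abs_le] at *
    constructor <;> nlinarith
  · have e : c0 B2 = B2 * (4 * B2 ^ 2 - 1) := by unfold c0; ring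
    have h13 : |4 * B2 ^ 2 - 1| ≤ 13 := by rw [abs_le]; constructor <;> nlinarith
    have := ineq_abs_mul c2 h13
    rw [e]; nlinarith
  · unfold b0P c0V; nlinarith
  · unfold b0P c0V; nlinarith
  · have e : b0V P B1 B2 β2 = 24 * (B2 * β2 * (P - B1)) := by unfold b0V; ring
    have hb : |β2| ≤ 1 := by rw [abs_of_nonneg p2]; exact q2
    have := ineq_abs_mul (ineq_abs_mul c2 hb) hn
    rw [e, abs_mul, abs_of_pos (by norm_num : (0 : ℝ) < 24)]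
    nlinarith

theorem ineq_br1 {V B2 β2 : ℝ} (p2 : 0 ≤ β2) (sg2 : 0 ≤ V * B2) (c4 : V * B2 ≤ V ^ 2 * β2)
    (hv2 : V ^ 2 ≤ 1 / 2) (c7 : V ^ 2 - 1 / 1000 ≤ B2 ^ 2) :
    -(β2 / 10) ≤ V * B2 * (4 * B2 ^ 2 - 1) := by
  by_cases hb : 0 ≤ 4 * B2 ^ 2 - 1
  · have := mul_nonneg sg2 hb
    linarith
  · have hb' : 0 ≤ 1 - 4 * B2 ^ 2 := by linarith
    have t1 : V * B2 * (1 - 4 * B2 ^ 2) ≤ V ^ 2 * β2 * (1 - 4 * B2 ^ 2) :=
      mul_le_mul_of_nonneg_right c4 hb'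
    have t2 : V ^ 2 * (1 - 4 * B2 ^ 2) ≤ 1 / 10 := by
      have t3 : 1 - 4 * B2 ^ 2 ≤ 1 - 4 * V ^ 2 + 1 / 100 := by linarith
      have t4 := mul_le_mul_of_nonneg_left t3 (sq_nonneg V)
      nlinarith [sq_nonneg (V ^ 2 - 1 / 8)]
    have t5 := mul_le_mul_of_nonneg_left t2 p2
    linarith

theorem ineq_bracket {η P V B1 β1 B2 β2 m : ℝ} (hη : 0 < η) (hη1 : η ≤ 1 / 10000)
    (hm : 7 ≤ m) (hs : P ^ 2 + V ^ 2 < 1 + 1 / 1000) (h1 : BF η P B1 β1) (h2 : BF η V B2 β2) :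
    (β1 + β2) / 25 ≤ -(b0P β1 B2 - c0V B2 β2) * (P ^ 2 + V ^ 2 - 1) / 2 +
      (2 * m - 1) * (P * b0 P B1 B2) + c0 B2 * V := by
  have sP := sq_nonneg P
  have sV := sq_nonneg V
  have hP3 : P ^ 2 ≤ 3 := by linarith
  have hV3 : V ^ 2 ≤ 3 := by linarith
  obtain ⟨-, -, w1, w2, -⟩ := ineq_mult hη hη1 (by linarith) h1 h2
  obtain ⟨-, -, a3, -, -, a6, -⟩ := ineq_BF h1 hP3
  obtain ⟨-, -, -, c4, c5, -, c7⟩ := ineq_BF h2 hV3
  have p1 := h1.nonneg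
  have p2 := h2.nonneg
  have q1 := h1.le_one
  have q2 := h2.le_one
  have sg1 := h1.sign
  have sg2 := h2.sign
  have hP := ineq_abs74 hP3
  have hV := ineq_abs74 hV3
  generalize b0P β1 B2 - c0V B2 β2 = Wd at w1 w2 ⊢
  have hPb : 50 * (P * B1) ≤ P * b0 P B1 B2 := by
    have : P * b0 P B1 B2 = 50 * (P * B1) + 12 * (B2 ^ 2 * (P * (P - B1))) := by unfold b0; ring
    have := mul_nonneg (sq_nonneg B2) a3
    linarith
  have hmb : 650 * (P * B1) ≤ (2 * m - 1) * (P * b0 P B1 B2) := by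
    have := mul_le_mul (show (13 : ℝ) ≤ 2 * m - 1 by linarith) hPb (by linarith) (by linarith)
    linarith
  have ec : c0 B2 * V = V * B2 * (4 * B2 ^ 2 - 1) := by unfold c0; ring
  have hηP : η * |P| ≤ 1 / 10000 * (7 / 4) := mul_le_mul hη1 hP (abs_nonneg _) (by norm_num)
  have hηV : η * |V| ≤ 1 / 10000 * (7 / 4) := mul_le_mul hη1 hV (abs_nonneg _) (by norm_num)
  rw [ec]
  by_cases hI : P ^ 2 + V ^ 2 ≤ 1 / 2
  · have e1 : (β1 + β2) * (1 / 2) ≤ Wd * (1 - (P ^ 2 + V ^ 2)) :=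
      mul_le_mul w1 (by linarith) (by norm_num) (by linarith)
    have e2 := ineq_br1 p2 sg2 c4 (by linarith) (by linarith)
    linarith
  · have e1 : Wd * (P ^ 2 + V ^ 2 - 1) ≤ Wd * (1 / 1000) :=
      mul_le_mul_of_nonneg_left (by linarith) (by linarith)
    by_cases hII : 1 / 8 ≤ P ^ 2
    · have t0 : V ^ 2 * β2 ≤ V ^ 2 * 1 := mul_le_mul_of_nonneg_left q2 sV
      have t1 := mul_nonneg sg2 (sq_nonneg B2)
      linarith
    · have hv : 3 / 8 ≤ V ^ 2 := by linarith [not_le.1 hI, not_le.1 hII]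
      have t1 : 37 / 100 ≤ B2 ^ 2 := by linarith
      have t2 : 37 / 100 * (48 / 100) ≤ V * B2 * (4 * B2 ^ 2 - 1) :=
        mul_le_mul (by linarith) (by linarith) (by norm_num) sg2
      linarith

theorem ineq_quad {q11 q22 q12 w x y : ℝ} (hw : 0 ≤ w) (h1 : 2 * w ≤ q11) (h2 : 2 * w ≤ q22)
    (h : q12 ^ 2 ≤ q11 * q22) :
    w * (x ^ 2 + y ^ 2) ≤ q11 * x ^ 2 + q22 * y ^ 2 + q12 * (x * y) := by
  have a1 : 0 ≤ q11 * x ^ 2 := mul_nonneg (by linarith) (sq_nonneg x)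
  have a2 : 0 ≤ q22 * y ^ 2 := mul_nonneg (by linarith) (sq_nonneg y)
  have a3 : (q12 * (x * y)) ^ 2 ≤ ((q11 * x ^ 2 + q22 * y ^ 2) / 2) ^ 2 := by
    have := mul_le_mul_of_nonneg_right h (sq_nonneg (x * y))
    nlinarith [sq_nonneg (q11 * x ^ 2 - q22 * y ^ 2)]
  have a4 := (abs_le_of_sq_le_sq' a3 (by linarith)).1
  nlinarith [mul_le_mul_of_nonneg_right h1 (sq_nonneg x), mul_le_mul_of_nonneg_right h2 (sq_nonneg y)]

theorem ineq_amgm {r w c C x y : ℝ} (hC : 0 < C) (hc : 0 < c) (h : r ^ 2 ≤ C * w) :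
    |x * (r * y)| ≤ c / 4 * (w * y ^ 2) + C / c * x ^ 2 := by
  have e : c / 4 * (w * y ^ 2) + C / c * x ^ 2 =
      (c ^ 2 * (C * w) * y ^ 2 + 4 * C ^ 2 * x ^ 2) / (4 * c * C) := by field_simp
  have h1 := mul_le_mul_of_nonneg_right (mul_le_mul_of_nonneg_left h (sq_nonneg c)) (sq_nonneg y)
  rw [e, abs_le]
  constructor
  · rw [neg_le, le_div_iff₀ (by positivity)]
    nlinarith [sq_nonneg (2 * C * x + c * r * y)]
  · rw [le_div_iff₀ (by positivity)]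
    nlinarith [sq_nonneg (2 * C * x - c * r * y)]

end Vale.Agent.P229
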