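import Vale.Agent.P229.IneqA

namespace Vale.Agent.P229

/-! The quadratic form of the multiplier in the inner and the outer region. -/

theorem ineq_Co {ε μ0 M μ m P V a a1 a2 e1 e2 : ℝ} (h : Co ε μ0 M μ m P V a a1 a2 e1 e2)
    (hμ0 : 0 < μ0) (hε : ε ≤ 1 / 10000) (hs : P ^ 2 + V ^ 2 ≤ 3) :
    |a| ≤ 3 * μ ∧ |a1| ≤ 4 * μ ∧ |a2| ≤ 4 * μ ∧ |e1| ≤ 4 * M * μ ∧ |e2| ≤ μ / 10000 ∧
      μ * (P ^ 2 + V ^ 2 - 1) - μ / 10000 ≤ a := by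
  have hμ : 0 < μ := hμ0.trans_le h.mu_ge
  have sP := sq_nonneg P
  have sV := sq_nonneg V
  have hP := ineq_abs74 (t := P) (by linarith)
  have hV := ineq_abs74 (t := V) (by linarith)
  have hme : μ * ε ≤ μ * (1 / 10000) := mul_le_mul_of_nonneg_left hε hμ.le
  have hμa : |μ| ≤ μ := (abs_of_pos hμ).le
  have hm : |m| ≤ M := by rw [abs_of_nonneg (by linarith [h.m_ge])]; exact h.m_le
  have t1 := abs_le.1 (ineq_abs_mul hμa hP)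
  have t2 := abs_le.1 (ineq_abs_mul hμa hV)
  have t3 := abs_le.1 (ineq_abs_mul (ineq_abs_mul hm hμa) hP)
  have t4 := abs_le.1 (ineq_abs_mul hμa (show |P ^ 2 + V ^ 2 - 1| ≤ 2 from
    abs_le.2 ⟨by linarith, by linarith⟩))
  have t5 : 7 * μ ≤ M * μ := mul_le_mul_of_nonneg_right (h.m_ge.trans h.m_le) hμ.le
  have u0 := abs_le.1 h.ha
  have u1 := abs_le.1 h.ha1
  have u2 := abs_le.1 h.ha2
  have u3 := abs_le.1 h.he1
  have u4 := abs_le.1 h.he2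
  refine ⟨?_, ?_, ?_, ?_, ?_, by linarith⟩ <;> rw [abs_le] <;> constructor <;> linarith

theorem ineq_inner {ε μ0 M μ m P V a a1 a2 e1 e2 η b c Wd bV wt al : ℝ}
    (h : Co ε μ0 M μ m P V a a1 a2 e1 e2) (hμ0 : 0 < μ0) (hε : ε ≤ 1 / 10000)
    (hε2 : ε * (10 ^ 7 * (M + 2) ^ 2) ≤ 1) (hs : P ^ 2 + V ^ 2 ≤ 3) (hη : η ≤ μ0)
    (hwt : 0 ≤ wt) (hb : |b| ≤ 90 * wt) (hc : |c| ≤ 23 * wt) (hW1 : wt ≤ Wd) (hW2 : Wd ≤ 50 * wt)
    (hbV : |bV| ≤ 84 * η * wt) (hal : 0 ≤ al) (hala : μ / 4000 * al ≤ al * a)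
    (hbr : wt / 25 ≤ -Wd * (P ^ 2 + V ^ 2 - 1) / 2 + (2 * m - 1) * (P * b) + c * V) :
    μ / 50 * wt + μ / 4000 * al ≤ -(a1 * b) / 2 - a * Wd / 2 + c * a2 / 2 + al * a + e1 * b ∧
      2 / 5 * wt + al ≤ Wd / 2 + al + e2 * c ∧
      (-bV - c * a1 + e1 * c + e2 * b) ^ 2 ≤
        (-(a1 * b) / 2 - a * Wd / 2 + c * a2 / 2 + al * a + e1 * b) * (Wd / 2 + al + e2 * c) := by
  obtain ⟨-, b1, -, b3, b4, -⟩ := ineq_Co h hμ0 hε hs
  have hμ : 0 < μ := hμ0.trans_le h.mu_ge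
  have hM : 7 ≤ M := h.m_ge.trans h.m_le
  have hme : μ * ε ≤ μ / 10000 := by
    have := mul_le_mul_of_nonneg_left hε hμ.le; linarith
  have hW : |Wd| ≤ 50 * wt := by rw [abs_of_nonneg (by linarith)]; exact hW2
  have t0 := abs_le.1 (ineq_abs_mul (h.ha.trans hme) hW)
  have t1 := abs_le.1 (ineq_abs_mul (h.ha1.trans hme) hb)
  have t2 := abs_le.1 (ineq_abs_mul (h.ha2.trans hme) hc)
  have t3 := abs_le.1 (ineq_abs_mul (h.he1.trans hme) hb)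
  have t4 := mul_le_mul_of_nonneg_left hbr hμ.le
  have hmw : 0 ≤ μ * wt := mul_nonneg hμ.le hwt
  have r1 : μ / 50 * wt + μ / 4000 * al ≤
      -(a1 * b) / 2 - a * Wd / 2 + c * a2 / 2 + al * a + e1 * b := by linarith
  have t5 := abs_le.1 (ineq_abs_mul b4 hc)
  have hμ1 : μ * wt ≤ 1 * wt := mul_le_mul_of_nonneg_right (by linarith [h.mu_le]) hwt
  have r2 : 2 / 5 * wt + al ≤ Wd / 2 + al + e2 * c := by linarith
  refine ⟨r1, r2, ?_⟩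
  have s1 := abs_le.1 (ineq_abs_mul hc b1)
  have s2 := abs_le.1 (ineq_abs_mul b3 hc)
  have s3 := abs_le.1 (ineq_abs_mul b4 hb)
  have s4 := abs_le.1 hbV
  have s5 : η * wt ≤ μ * wt := mul_le_mul_of_nonneg_right (hη.trans h.mu_ge) hwt
  have s6 : 0 ≤ M * (μ * wt) := mul_nonneg (by linarith) hmw
  have s7 : |-bV - c * a1 + e1 * c + e2 * b| ≤ 100 * (M + 2) * (μ * wt) := by
    rw [abs_le]; constructor <;> linarith
  have s8 := pow_le_pow_left₀ (abs_nonneg _) s7 2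
  rw [sq_abs] at s8
  have s9 : μ * (10 ^ 7 * (M + 2) ^ 2) ≤ 1 :=
    (mul_le_mul_of_nonneg_right h.mu_le (by positivity)).trans hε2
  have s10 := mul_le_mul_of_nonneg_right s9 (mul_nonneg hmw hwt)
  have hal2 : 0 ≤ μ / 4000 * al := by positivity
  have s11 : μ / 50 * wt * (2 / 5 * wt) ≤
      (-(a1 * b) / 2 - a * Wd / 2 + c * a2 / 2 + al * a + e1 * b) * (Wd / 2 + al + e2 * c) :=
    mul_le_mul (by linarith) (by linarith) (by positivity) (by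
      have : 0 ≤ μ / 50 * wt := by positivity
      linarith)
  have s12 : 0 ≤ μ * wt * wt := mul_nonneg hmw hwt
  linarith

theorem ineq_outer {ε μ0 M μ m P V a a1 a2 e1 e2 b c Wd bV ω ω1 ω2 K Aa : ℝ}
    (h : Co ε μ0 M μ m P V a a1 a2 e1 e2) (hμ0 : 0 < μ0) (hε : ε ≤ 1 / 10000)
    (hε2 : ε * (10 ^ 7 * (M + 2) ^ 2) ≤ 1) (hs : P ^ 2 + V ^ 2 ≤ 3)
    (hs1 : 1 + 1 / 1000 ≤ P ^ 2 + V ^ 2)
    (hb : |b| ≤ 180) (hc : |c| ≤ 46) (hW1 : 0 ≤ Wd) (hW2 : Wd ≤ 100) (hbV : |bV| ≤ 1)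
    (hω : 0 ≤ ω) (hω' : ω ≤ 1) (hω1 : |ω1| ≤ K) (hω2 : |ω2| ≤ K) (hK : 1 ≤ K)
    (hA1 : 4000 * (900 * M + 1100 * K) ≤ Aa) (hA2 : 8000 * (600 * K) ^ 2 ≤ μ0 * Aa) :
    μ * Aa / 4000 ≤ ω * (-(a1 * b) / 2 - a * Wd / 2 + c * a2 / 2 + e1 * b) -
        3 / 2 * (a * (ω1 * b - ω2 * c)) + Aa * a ∧
      Aa / 2 ≤ ω * Wd / 2 + 3 / 2 * (ω1 * b - ω2 * c) + Aa + ω * (e2 * c) ∧
      (-(3 * (ω2 * b)) - ω * bV - 3 * (ω1 * c * a) + ω * (-(c * a1) + e1 * c + e2 * b)) ^ 2 ≤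
        μ * Aa / 4000 * (Aa / 2) := by
  obtain ⟨b0, b1, b2, b3, b4, b5⟩ := ineq_Co h hμ0 hε hs
  have hμ : 0 < μ := hμ0.trans_le h.mu_ge
  have hM : 7 ≤ M := h.m_ge.trans h.m_le
  have hμ1 : μ ≤ 1 / 10000 := h.mu_le.trans hε
  have hA0 : 0 ≤ Aa := by linarith
  have hMμ : M * μ ≤ 1 / 10000 := by
    have s9 : μ * (10 ^ 7 * (M + 2) ^ 2) ≤ 1 :=
      (mul_le_mul_of_nonneg_right h.mu_le (by positivity)).trans hε2
    have : μ * M ≤ μ * (M + 2) ^ 2 := mul_le_mul_of_nonneg_left (by nlinarith) hμ.le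
    linarith
  have hωa : |ω| ≤ 1 := by rwa [abs_of_nonneg hω]
  have hW : |Wd| ≤ 100 := by rwa [abs_of_nonneg hW1]
  have ha : μ / 2000 ≤ a := by
    have := mul_le_mul_of_nonneg_left hs1 hμ.le; linarith
  have t1 := abs_le.1 (ineq_abs_mul b1 hb)
  have t2 := abs_le.1 (ineq_abs_mul b0 hW)
  have t3 := abs_le.1 (ineq_abs_mul hc b2)
  have t4 := abs_le.1 (ineq_abs_mul b3 hb)
  have t5 : 7 * μ ≤ M * μ := mul_le_mul_of_nonneg_right hM hμ.le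
  have t6 : |-(a1 * b) / 2 - a * Wd / 2 + c * a2 / 2 + e1 * b| ≤ 810 * (M * μ) := by
    rw [abs_le]; constructor <;> linarith
  have t7 := abs_le.1 (ineq_abs_mul hωa t6)
  have t8 := abs_le.1 (ineq_abs_mul hω1 hb)
  have t9 := abs_le.1 (ineq_abs_mul hω2 hc)
  have t10 : |ω1 * b - ω2 * c| ≤ 226 * K := by rw [abs_le]; constructor <;> linarith
  have t11 := abs_le.1 (ineq_abs_mul b0 t10)
  have t12 := mul_le_mul_of_nonneg_left hA1 hμ.le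
  have t13 := mul_le_mul_of_nonneg_left ha hA0
  have t14 : 1 * μ ≤ K * μ := mul_le_mul_of_nonneg_right hK hμ.le
  refine ⟨by linarith, ?_, ?_⟩
  · have u1 := abs_le.1 (ineq_abs_mul hωa (ineq_abs_mul b4 hc))
    have u2 := mul_nonneg hω hW1
    have u3 := abs_le.1 t10
    linarith
  · have u1 := abs_le.1 (ineq_abs_mul hω2 hb)
    have u2 := abs_le.1 (ineq_abs_mul hωa hbV)
    have u3 := abs_le.1 (ineq_abs_mul (ineq_abs_mul hω1 hc)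
      (show |a| ≤ 1 / 1000 by linarith))
    have u4 := abs_le.1 (ineq_abs_mul hc b1)
    have u5 := abs_le.1 (ineq_abs_mul b3 hc)
    have u6 := abs_le.1 (ineq_abs_mul b4 hb)
    have u7 : |-(c * a1) + e1 * c + e2 * b| ≤ 1 := by rw [abs_le]; constructor <;> linarith
    have u8 := abs_le.1 (ineq_abs_mul hωa u7)
    have u9 : |-(3 * (ω2 * b)) - ω * bV - 3 * (ω1 * c * a) + ω * (-(c * a1) + e1 * c + e2 * b)| ≤
        600 * K := by rw [abs_le]; constructor <;> linarith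
    have u10 := pow_le_pow_left₀ (abs_nonneg _) u9 2
    rw [sq_abs] at u10
    have u11 : μ0 * Aa ≤ μ * Aa := mul_le_mul_of_nonneg_right h.mu_ge hA0
    have u12 : μ * Aa * 1 ≤ μ * Aa * Aa :=
      mul_le_mul_of_nonneg_left (by linarith) (mul_nonneg hμ.le hA0)
    linarith

end Vale.Agent.P229
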