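import Vale.Agent.P229.Defs2

namespace Vale.Agent.P229

open Set Filter MeasureTheory Topology

noncomputable section

/-! JOB Inv: global inverse of a map close to the identity. -/

theorem inv_lin {a b c : ℝ} (ha : |a| ≤ c) (hb : |b| ≤ c) (w : Pl) :
    |w.1 * a + w.2 * b| ≤ 2 * c * ‖w‖ := by
  have h1 : |w.1| ≤ ‖w‖ := norm_fst_le w
  have h2 : |w.2| ≤ ‖w‖ := norm_snd_le w
  have h3 := mul_le_mul h1 ha (abs_nonneg _) (norm_nonneg _)
  have h4 := mul_le_mul h2 hb (abs_nonneg _) (norm_nonneg _)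
  have h5 := abs_add_le (w.1 * a) (w.2 * b)
  rw [abs_mul, abs_mul] at h5
  linarith

theorem inv_mvt {f : Pl → ℝ} (hf : Sm f) {a b c : ℝ}
    (h : ∀ p, |d1 f p - a| ≤ c ∧ |d2 f p - b| ≤ c) (p q : Pl) :
    |f p - f q - (a * (p.1 - q.1) + b * (p.2 - q.2))| ≤ 2 * c * ‖p - q‖ := by
  have hc : 0 ≤ c := (abs_nonneg _).trans (h p).1
  have := convex_univ.norm_image_sub_le_of_norm_fderiv_le' (𝕜 := ℝ) (f := f) (C := 2 * c)
    (φ := a • ContinuousLinearMap.fst ℝ ℝ ℝ + b • ContinuousLinearMap.snd ℝ ℝ ℝ)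
    (fun x _ => hf.diff x) (fun x _ => ContinuousLinearMap.opNorm_le_bound _ (by positivity) fun w => by
      have e : (fderiv ℝ f x - (a • ContinuousLinearMap.fst ℝ ℝ ℝ
          + b • ContinuousLinearMap.snd ℝ ℝ ℝ)) w = w.1 * (d1 f x - a) + w.2 * (d2 f x - b) := by
        rw [ContinuousLinearMap.sub_apply, fderiv_apply_eq]; simp; ring
      rw [e, Real.norm_eq_abs]
      exact inv_lin (h x).1 (h x).2 w) (mem_univ q) (mem_univ p)
  simpa using this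

theorem inv_solve {ε a b c d x y s t : ℝ} (hε : 0 ≤ ε) (hε' : ε ≤ 1 / 100) (ha : |a - 1| ≤ ε)
    (hb : |b| ≤ ε) (hc : |c| ≤ ε) (hd : |d - 1| ≤ ε) (hs : |s| ≤ 1) (ht : |t| ≤ 1)
    (h1 : a * x + b * y = s) (h2 : c * x + d * y = t) : |x - s| ≤ 4 * ε ∧ |y - t| ≤ 4 * ε := by
  have e1 := inv_lin ha hb (x, y)
  have e2 := inv_lin hc hd (x, y)
  rw [show (x, y).1 * (a - 1) + (x, y).2 * b = -(x - s) by simp only; linarith, abs_neg] at e1
  rw [show (x, y).1 * c + (x, y).2 * (d - 1) = -(y - t) by simp only; linarith, abs_neg] at e2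
  have e3 : ‖((x, y) : Pl)‖ ≤ 1 + 2 * ε * ‖((x, y) : Pl)‖ := by
    conv_lhs => rw [Prod.norm_def, Real.norm_eq_abs, Real.norm_eq_abs]
    have := abs_sub_abs_le_abs_sub x s
    have := abs_sub_abs_le_abs_sub y t
    exact max_le (by simp only; linarith) (by simp only; linarith)
  have e4 : ‖((x, y) : Pl)‖ ≤ 2 := by nlinarith [norm_nonneg ((x, y) : Pl)]
  constructor <;> nlinarith

theorem inverse {ε : ℝ} (hε : 0 ≤ ε) (hε' : ε ≤ 1 / 100) {P V : Pl → ℝ} (hP : Sm P) (hV : Sm V)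
    (hP0 : P 0 = 0) (hV0 : V 0 = 0)
    (h : ∀ p, |d1 P p - 1| ≤ ε ∧ |d2 P p| ≤ ε ∧ |d1 V p| ≤ ε ∧ |d2 V p - 1| ≤ ε) :
    ∃ X Y : Pl → ℝ, Sm X ∧ Sm Y ∧
      (∀ p, P (X p, Y p) = p.1 ∧ V (X p, Y p) = p.2) ∧
      (∀ p, X (P p, V p) = p.1 ∧ Y (P p, V p) = p.2) ∧
      (∀ p, |d1 X p - 1| ≤ 4 * ε ∧ |d2 X p| ≤ 4 * ε ∧ |d1 Y p| ≤ 4 * ε ∧
        |d2 Y p - 1| ≤ 4 * ε) ∧
      (∀ p, |P p - p.1| ≤ 2 * ε * ‖p‖ ∧ |V p - p.2| ≤ 2 * ε * ‖p‖) ∧
      (∀ p, |X p - p.1| ≤ 8 * ε * ‖p‖ ∧ |Y p - p.2| ≤ 8 * ε * ‖p‖) := by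
  have mP := inv_mvt hP (a := 1) (b := 0) (c := ε) fun p => ⟨(h p).1, by simpa using (h p).2.1⟩
  have mV := inv_mvt hV (a := 0) (b := 1) (c := ε) fun p =>
    ⟨by simpa using (h p).2.2.1, (h p).2.2.2⟩
  have hA : ApproximatesLinearOn (fun p : Pl => (P p, V p))
      ((ContinuousLinearEquiv.refl ℝ Pl : Pl ≃L[ℝ] Pl) : Pl →L[ℝ] Pl) univ (1 / 2) := by
    intro p _ q _
    have h1 := mP p q
    have h2 := mV p q
    have h3 : 2 * ε * ‖p - q‖ ≤ 1 / 2 * ‖p - q‖ :=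
      mul_le_mul_of_nonneg_right (by linarith) (norm_nonneg _)
    rw [Prod.norm_def]
    push_cast
    exact max_le (by simpa using h1.trans h3) (by simpa using h2.trans h3)
  let Φ : Pl ≃ₜ Pl := hA.toHomeomorph _ (Or.inr (by
    simp only [ContinuousLinearEquiv.refl_symm, ContinuousLinearEquiv.coe_refl,
      ContinuousLinearMap.nnnorm_id, inv_one]
    rw [← NNReal.coe_lt_coe]; norm_num))
  have hΦ : ∀ p, Φ p = (P p, V p) := fun p => rfl
  have hinj : ∀ p, Function.Injective ((fderiv ℝ P p).prod (fderiv ℝ V p)) := fun p => by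
    rw [injective_iff_map_eq_zero]
    intro w hw
    have h1 : fderiv ℝ P p w = 0 := congrArg Prod.fst hw
    have h2 : fderiv ℝ V p w = 0 := congrArg Prod.snd hw
    rw [fderiv_apply_eq] at h1 h2
    have e1 := inv_lin (h p).1 (h p).2.1 w
    have e2 := inv_lin (h p).2.2.1 (h p).2.2.2 w
    rw [show w.1 * (d1 P p - 1) + w.2 * d2 P p = -w.1 by linarith, abs_neg] at e1
    rw [show w.1 * d1 V p + w.2 * (d2 V p - 1) = -w.2 by linarith, abs_neg] at e2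
    have e3 : ‖w‖ ≤ 2 * ε * ‖w‖ := by
      conv_lhs => rw [Prod.norm_def]
      exact max_le e1 e2
    exact norm_eq_zero.1 (le_antisymm (by nlinarith [norm_nonneg w]) (norm_nonneg w))
  have hS : ContDiff ℝ (⊤ : ℕ∞) (Φ.symm : Pl → Pl) :=
    Φ.contDiff_symm (f₀' := fun p => (LinearEquiv.ofInjectiveEndo
      (((fderiv ℝ P p).prod (fderiv ℝ V p) : Pl →L[ℝ] Pl) : Pl →ₗ[ℝ] Pl)
        (hinj p)).toContinuousLinearEquiv)
      (fun p => (hP.diff p).hasFDerivAt.prodMk (hV.diff p).hasFDerivAt) (hP.prodMk hV)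
  have hX : Sm fun p => (Φ.symm p).1 := hS.fst
  have hY : Sm fun p => (Φ.symm p).2 := hS.snd
  have k1 : ∀ p : Pl, P ((Φ.symm p).1, (Φ.symm p).2) = p.1 ∧ V ((Φ.symm p).1, (Φ.symm p).2) = p.2 :=
    fun p => ⟨congrArg Prod.fst (Φ.apply_symm_apply p), congrArg Prod.snd (Φ.apply_symm_apply p)⟩
  have k2 : ∀ p : Pl, (Φ.symm (P p, V p)).1 = p.1 ∧ (Φ.symm (P p, V p)).2 = p.2 :=
    fun p => ⟨congrArg Prod.fst (Φ.symm_apply_apply p), congrArg Prod.snd (Φ.symm_apply_apply p)⟩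
  have k3 : ∀ p, |d1 (fun p => (Φ.symm p).1) p - 1| ≤ 4 * ε ∧ |d2 (fun p => (Φ.symm p).1) p| ≤ 4 * ε
      ∧ |d1 (fun p => (Φ.symm p).2) p| ≤ 4 * ε ∧ |d2 (fun p => (Φ.symm p).2) p - 1| ≤ 4 * ε := by
    intro p
    have cP := fun b => dd_comp2 b (hP.diff _) (hX.diff p) (hY.diff p)
    have cV := fun b => dd_comp2 b (hV.diff _) (hX.diff p) (hY.diff p)
    simp only [(k1 _).1, dd_fst] at cP
    simp only [(k1 _).2, dd_snd] at cV
    obtain ⟨a1, a2, a3, a4⟩ := h ((Φ.symm p).1, (Φ.symm p).2)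
    have s1 := inv_solve hε hε' a1 a2 a3 a4 (by simp) (by simp) (cP false).symm (cV false).symm
    have s2 := inv_solve hε hε' a1 a2 a3 a4 (by simp) (by simp) (cP true).symm (cV true).symm
    simp only [cond_true, cond_false, sub_zero] at s1 s2
    exact ⟨s1.1, s2.1, s1.2, s2.2⟩
  have z := k2 0
  rw [hP0, hV0] at z
  refine ⟨_, _, hX, hY, k1, k2, k3, fun p => ⟨?_, ?_⟩, fun p => ⟨?_, ?_⟩⟩
  · simpa [hP0] using mP p 0
  · simpa [hV0] using mV p 0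
  · have := inv_mvt hX (a := 1) (b := 0) (c := 4 * ε)
      (fun p => ⟨(k3 p).1, by simpa using (k3 p).2.1⟩) p (0, 0)
    rw [z.1, show ((0, 0) : Pl) = 0 from rfl] at this
    simp only [Prod.fst_zero, sub_zero, one_mul, zero_mul, add_zero] at this
    linarith
  · have := inv_mvt hY (a := 0) (b := 1) (c := 4 * ε)
      (fun p => ⟨by simpa using (k3 p).2.2.1, (k3 p).2.2.2⟩) p (0, 0)
    rw [z.2, show ((0, 0) : Pl) = 0 from rfl] at this
    simp only [Prod.snd_zero, sub_zero, one_mul, zero_mul, zero_add] at this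
    linarith

end

end Vale.Agent.P229
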