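import Vale.Agent.P229.Sys

namespace Vale.Agent.P229

open Set Filter MeasureTheory Topology

noncomputable section

/-! JOB Pt: pointwise bounds on the coefficients of the hodograph equation. -/

/-- All data at one point. -/
structure PtO where
  N : ℕ
  ε : ℝ
  κ : ℝ
  lmin : ℝ
  d : Dat N ε κ lmin
  i : ℕ
  p : Pl
  hp : p ∈ d.G0 i

/-- `g` is bounded and `f - g` is of order `ε`, uniformly in the data. -/
def PtAp (f g : PtO → ℝ) : Prop := ∃ C, ∀ o, |g o| ≤ C ∧ |f o - g o| ≤ C * o.ε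

namespace PtAp

variable {f g f' g' : PtO → ℝ}

theorem of (C C' : ℝ) (h : ∀ o, |g o| ≤ C) (h' : ∀ o, |f o - g o| ≤ C' * o.ε) : PtAp f g :=
  ⟨max C C', fun o => ⟨(h o).trans (le_max_left _ _), (h' o).trans
    (mul_le_mul_of_nonneg_right (le_max_right _ _) o.d.eps_pos.le)⟩⟩

theorem bd (C : ℝ) (h : ∀ o, |f o| ≤ C) : PtAp f f :=
  of C 0 h (fun o => by simp)

theorem const (c : ℝ) : PtAp (fun _ => c) (fun _ => c) := bd |c| (fun _ => le_rfl)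

theorem bound (h : PtAp f g) : ∃ C, ∀ o, |f o| ≤ C := by
  obtain ⟨C, h⟩ := h
  refine ⟨C + C, fun o => ?_⟩
  obtain ⟨h1, h2⟩ := h o
  have h3 : 0 ≤ C := (abs_nonneg _).trans h1
  have h4 : C * o.ε ≤ C * 1 := mul_le_mul_of_nonneg_left (o.d.eps_le.trans (by norm_num)) h3
  have h5 : |f o| ≤ |f o - g o| + |g o| := by
    simpa using abs_add_le (f o - g o) (g o)
  linarith

theorem self (h : PtAp f g) : PtAp f f := by
  obtain ⟨C, hC⟩ := h.bound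
  exact bd C hC

theorem add (h : PtAp f g) (h' : PtAp f' g') :
    PtAp (fun o => f o + f' o) (fun o => g o + g' o) := by
  obtain ⟨C, h⟩ := h
  obtain ⟨C', h'⟩ := h'
  refine ⟨C + C', fun o => ⟨(abs_add_le _ _).trans (add_le_add (h o).1 (h' o).1), ?_⟩⟩
  have := abs_add_le (f o - g o) (f' o - g' o)
  rw [show f o + f' o - (g o + g' o) = f o - g o + (f' o - g' o) by ring, add_mul]
  linarith [(h o).2, (h' o).2]

theorem mul (h : PtAp f g) (h' : PtAp f' g') :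
    PtAp (fun o => f o * f' o) (fun o => g o * g' o) := by
  obtain ⟨B, hB⟩ := h'.bound
  obtain ⟨C, h⟩ := h
  obtain ⟨C', h'⟩ := h'
  refine of (C * C') (C * B + C * C') (fun o => ?_) (fun o => ?_)
  · rw [abs_mul]
    exact mul_le_mul (h o).1 (h' o).1 (abs_nonneg _) ((abs_nonneg _).trans (h o).1)
  · have h3 : 0 ≤ C := (abs_nonneg _).trans (h o).1
    have h1 := abs_add_le ((f o - g o) * f' o) (g o * (f' o - g' o))
    rw [abs_mul, abs_mul] at h1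
    have h2 := mul_le_mul (h o).2 (hB o) (abs_nonneg _) (mul_nonneg h3 o.d.eps_pos.le)
    have h4 := mul_le_mul (h o).1 (h' o).2 (abs_nonneg _) h3
    rw [show f o * f' o - g o * g' o = (f o - g o) * f' o + g o * (f' o - g' o) by ring]
    linarith

theorem congr (h : PtAp f g) (h1 : ∀ o, f' o = f o) (h2 : ∀ o, g' o = g o) : PtAp f' g' := by
  rw [funext h1, funext h2]; exact h

theorem neg (h : PtAp f g) : PtAp (fun o => -f o) (fun o => -g o) :=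
  ((const (-1)).mul h).congr (fun _ => by ring) (fun _ => by ring)

theorem sub (h : PtAp f g) (h' : PtAp f' g') :
    PtAp (fun o => f o - f' o) (fun o => g o - g' o) :=
  (h.add h'.neg).congr (fun _ => by ring) (fun _ => by ring)

theorem sq (h : PtAp f g) : PtAp (fun o => f o ^ 2) (fun o => g o ^ 2) :=
  (h.mul h).congr (fun _ => by ring) (fun _ => by ring)

end PtAp

namespace PtO

variable (o : PtO)

/-- The small parameter. -/
def mu : ℝ := o.κ / o.d.lam o.i ^ 2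

theorem lam_pos : 0 < o.d.lam o.i := o.d.lmin_pos.trans_le (o.d.lam_ge o.i)

theorem mu_pos : 0 < o.mu := div_pos o.d.kap_pos (pow_pos o.lam_pos 2)

theorem mu_le : o.mu ≤ o.ε := by
  rw [mu, div_le_iff₀ (pow_pos o.lam_pos 2)]
  exact o.d.kap_le.trans (mul_le_mul_of_nonneg_left
    (pow_le_pow_left₀ o.d.lmin_pos.le (o.d.lam_ge o.i) 2) o.d.eps_pos.le)

theorem kap_le : o.κ ≤ o.ε := by
  have h1 : o.lmin ≤ 1 :=
    ((o.d.lam_ge o.i).trans (o.d.lam_le o.i)).trans (o.d.eps_le.trans (by norm_num))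
  have h2 : o.lmin ^ 2 ≤ 1 := pow_le_one₀ o.d.lmin_pos.le h1
  have := mul_le_mul_of_nonneg_left h2 o.d.eps_pos.le
  linarith [o.d.kap_le]

theorem norm_le : ‖o.p‖ ≤ 2 := by
  have h1 : rr o.p < 3 := o.hp.2
  have h2 := norm_sq_le_rr o.p
  nlinarith [norm_nonneg o.p]

theorem q4 : o.d.sysq o.i o.p ∈ disc 4 := (o.d.map_mem o.hp).1

theorem q9 : o.d.sysq o.i o.p ∈ disc 9 := lt_trans (show rr _ < 4 from o.q4) (by norm_num)

end PtO

theorem pt_one {f : PtO → ℝ} (h : ∀ o, |f o - 1| ≤ o.ε) : PtAp f (fun _ => 1) :=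
  PtAp.of 1 1 (fun _ => by simp) (fun o => by simpa using h o)

theorem pt_zero {f : PtO → ℝ} (h : ∀ o, |f o| ≤ o.ε) : PtAp f (fun _ => 0) :=
  PtAp.of 1 1 (fun _ => by simp) (fun o => by simpa using h o)

theorem pt_x : PtAp (fun o => o.p.1) (fun o => o.p.1) :=
  PtAp.bd 2 fun o => (norm_fst_le o.p).trans o.norm_le

theorem pt_y : PtAp (fun o => o.p.2) (fun o => o.p.2) :=
  PtAp.bd 2 fun o => (norm_snd_le o.p).trans o.norm_le

theorem pt_X : PtAp (fun o => o.d.X.1 o.i o.p) (fun o => o.p.1) :=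
  PtAp.of 2 2 (fun o => (norm_fst_le o.p).trans o.norm_le) fun o =>
    (o.d.XY_norm o.i o.p).1.trans (by
      rw [mul_comm]; exact mul_le_mul_of_nonneg_right o.norm_le o.d.eps_pos.le)

theorem pt_Y : PtAp (fun o => o.d.Y.1 o.i o.p) (fun o => o.p.2) :=
  PtAp.of 2 2 (fun o => (norm_snd_le o.p).trans o.norm_le) fun o =>
    (o.d.XY_norm o.i o.p).2.trans (by
      rw [mul_comm]; exact mul_le_mul_of_nonneg_right o.norm_le o.d.eps_pos.le)

theorem pt_DX (b : Bool) : PtAp (fun o => (D b o.d.X).1 o.i o.p) (fun _ => cond b 0 1) := by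
  cases b
  · exact pt_one fun o => (o.d.XY_close o.i o.p).1
  · exact pt_zero fun o => (o.d.XY_close o.i o.p).2.1

theorem pt_DY (b : Bool) : PtAp (fun o => (D b o.d.Y).1 o.i o.p) (fun _ => cond b 1 0) := by
  cases b
  · exact pt_zero fun o => (o.d.XY_close o.i o.p).2.2.1
  · exact pt_one fun o => (o.d.XY_close o.i o.p).2.2.2

theorem pt_kap : PtAp (fun o => o.κ) (fun _ => 0) :=
  pt_zero fun o => by rw [abs_of_pos o.d.kap_pos]; exact o.kap_le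

theorem pt_mu : PtAp (fun o => o.mu) (fun _ => 0) :=
  pt_zero fun o => by rw [abs_of_pos o.mu_pos]; exact o.mu_le

theorem pt_lam : PtAp (fun o => o.d.lam o.i) (fun _ => 0) :=
  pt_zero fun o => by rw [abs_of_pos o.lam_pos]; exact o.d.lam_le o.i

theorem pt_Ux : PtAp (fun o => d1 (o.d.u.1 o.i) (o.d.sysq o.i o.p)) (fun _ => 1) :=
  pt_one fun o => (o.d.close o.i).ux _ o.q9

theorem pt_Uy : PtAp (fun o => d2 (o.d.u.1 o.i) (o.d.sysq o.i o.p)) (fun _ => 0) :=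
  pt_zero fun o => (o.d.close o.i).uy _ o.q9

theorem pt_DU (b : Bool) : PtAp (fun o => (D b o.d.U).1 o.i o.p) (fun _ => cond b 0 1) :=
  ((pt_Ux.mul (pt_DX b)).add (pt_Uy.mul (pt_DY b))).congr
    (fun o => o.d.sys_Dc b o.d.u o.i o.p) (fun _ => by ring)

theorem pt_Ee : PtAp (fun o => o.d.Ee.1 o.i o.p) (fun _ => 1) := by
  refine pt_one fun o => ?_
  change |Real.exp (-2 * psi0 o.κ (o.d.sysq o.i o.p)) - 1| ≤ _
  have h1 : rr (o.d.sysq o.i o.p) < 4 := o.q4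
  have h2 : 0 ≤ rr (o.d.sysq o.i o.p) := (sq_nonneg _).trans (norm_sq_le_rr _)
  have h3 : |-2 * psi0 o.κ (o.d.sysq o.i o.p)| ≤ o.ε / 2 := by
    unfold psi0
    generalize rr (o.d.sysq o.i o.p) = s at h1 h2
    have h4 : 0 ≤ s / 4 - s ^ 2 / 16 := by nlinarith
    have h5 : s / 4 - s ^ 2 / 16 ≤ 1 / 4 := by nlinarith [sq_nonneg (s - 2)]
    have h6 := mul_nonneg o.d.kap_pos.le h4
    have h7 := mul_le_mul o.kap_le h5 h4 o.d.eps_pos.le
    rw [abs_le]; constructor <;> linarith [o.d.eps_pos]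
  have h8 := Real.abs_exp_sub_one_le (h3.trans (by linarith [o.d.eps_le]))
  linarith

theorem pt_Pp : PtAp (fun o => o.d.Pp.1 o.i o.p) (fun o => o.d.Pp.1 o.i o.p) :=
  ((pt_x.add (PtAp.bd 1000 fun o => o.d.p0_le o.i)).congr (fun _ => rfl) (fun _ => rfl)).self

theorem pt_Q : PtAp (fun o => o.d.Q.1 o.i o.p) (fun o => o.d.Q.1 o.i o.p) := by
  have hz := fun b => PtAp.bd (f := fun o => dd b (o.d.z.1 o.i) (o.d.sysq o.i o.p)) 100
    fun o => (o.d.close o.i).z1 b _ o.q9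
  have hi := PtAp.bd (f := fun o => o.d.io.1 o.i (o.d.sysq o.i o.p)) 2
    fun o => o.d.io_le o.i _ o.q4
  exact ((((((hz false).mul pt_Uy).sub (pt_Ux.mul (hz true))).neg.mul hi).congr
    (fun o => o.d.sys_Qq o.i o.p) (fun _ => rfl))).self

theorem pt_ss : PtAp (fun o => o.d.ss.1 o.i o.p) (fun o => rr o.p) :=
  (pt_X.sq.add pt_Y.sq).congr (fun _ => rfl) (fun _ => rfl)

theorem pt_W2 : PtAp (fun o => o.d.W2.1 o.i o.p) (fun _ => 1) :=
  ((PtAp.const 1).add (pt_lam.sq.mul (pt_Pp.sq.add pt_Q.sq))).congr (fun _ => rfl)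
    (fun _ => by ring)

theorem pt_px : PtAp (fun o => o.d.px.1 o.i o.p) (fun _ => 0) :=
  (((pt_kap.mul (PtAp.const 2⁻¹)).mul pt_X).sub
    ((pt_kap.mul (PtAp.const 4⁻¹)).mul (pt_X.mul pt_ss))).congr (fun _ => rfl) (fun _ => by ring)

theorem pt_py : PtAp (fun o => o.d.py.1 o.i o.p) (fun _ => 0) :=
  (((pt_kap.mul (PtAp.const 2⁻¹)).mul pt_Y).sub
    ((pt_kap.mul (PtAp.const 4⁻¹)).mul (pt_Y.mul pt_ss))).congr (fun _ => rfl) (fun _ => by ring)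

theorem pt_a0 : PtAp (fun o => (o.d.ss.1 o.i o.p - 1) * o.d.Ee.1 o.i o.p * o.d.W2.1 o.i o.p ^ 2)
    (fun o => rr o.p - 1) :=
  (((pt_ss.sub (PtAp.const 1)).mul pt_Ee).mul pt_W2.sq).congr (fun _ => rfl) (fun _ => by ring)

theorem pt_aa_eq (o : PtO) : o.d.aa.1 o.i o.p =
    o.mu * ((o.d.ss.1 o.i o.p - 1) * o.d.Ee.1 o.i o.p * o.d.W2.1 o.i o.p ^ 2) := by
  change o.mu * (o.d.ss.1 o.i o.p - 1) * o.d.Ee.1 o.i o.p * o.d.W2.1 o.i o.p ^ 2 = _
  ring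

theorem pt_DQ (b : Bool) : PtAp (fun o => (D b o.d.Q).1 o.i o.p) (fun _ => 0) := by
  cases b
  · exact (pt_DU true).neg.congr (fun o => eq_neg_of_add_eq_zero_left (o.d.sys_Q1 o.i o.p o.hp))
      (fun _ => by simp)
  · exact ((pt_mu.mul pt_a0).mul (pt_DU false)).congr
      (fun o => (sub_eq_zero.mp (o.d.sys_Q2 o.i o.p o.hp)).trans (by rw [← pt_aa_eq]; rfl))
      (fun _ => by ring)

theorem pt_DEe (b : Bool) : PtAp (fun o => (D b o.d.Ee).1 o.i o.p) (fun _ => 0) :=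
  (((PtAp.const 2).mul pt_Ee).mul ((pt_px.mul (pt_DX b)).add (pt_py.mul (pt_DY b)))).neg.congr
    (fun o => eq_neg_of_add_eq_zero_left (o.d.sys_Ee b o.i o.p o.hp)) (fun _ => by ring)

theorem pt_Dss_eq {N : ℕ} {ε κ lmin : ℝ} (d : Dat N ε κ lmin) (b : Bool) :
    D b d.ss = 2 * (d.X * D b d.X) + 2 * (d.Y * D b d.Y) := by
  rw [Dat.ss, map_add, sq, sq, D_mul, D_mul]; ring

theorem pt_DW2_eq {N : ℕ} {ε κ lmin : ℝ} (d : Dat N ε κ lmin) (b : Bool) :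
    D b d.W2 = d.La ^ 2 * (2 * (d.Pp * D b cX) + 2 * (d.Q * D b d.Q)) := by
  have h1 : D b d.La = 0 := D_cst b _
  have h2 : D b d.Pp = D b cX := by rw [Dat.Pp, map_add, Dat.P0, D_cst, add_zero]
  rw [Dat.W2, map_add, Derivation.map_one_eq_zero, D_mul, map_add, sq, sq, sq, D_mul, D_mul, D_mul,
    h1, h2]
  ring

theorem pt_Daa_eq {N : ℕ} {ε κ lmin : ℝ} (d : Dat N ε κ lmin) (b : Bool) :
    D b d.aa = d.Mu * (D b d.ss * d.Ee * d.W2 ^ 2 + (d.ss - 1) * D b d.Ee * d.W2 ^ 2 +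
      (d.ss - 1) * d.Ee * (2 * d.W2 * D b d.W2)) := by
  have h1 : D b d.Mu = 0 := D_cst b _
  rw [Dat.aa, sq, D_mul, D_mul, D_mul, D_mul, h1, map_sub, Derivation.map_one_eq_zero]
  ring

theorem pt_Dss (b : Bool) : PtAp (fun o => (D b o.d.ss).1 o.i o.p)
    (fun o => 2 * cond b o.p.2 o.p.1) :=
  (((PtAp.const 2).mul (pt_X.mul (pt_DX b))).add ((PtAp.const 2).mul (pt_Y.mul (pt_DY b)))).congr
    (fun o => by rw [pt_Dss_eq]; rfl) (fun _ => by cases b <;> simp)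

theorem pt_DW2 (b : Bool) : PtAp (fun o => (D b o.d.W2).1 o.i o.p) (fun _ => 0) :=
  (pt_lam.sq.mul (((PtAp.const 2).mul (pt_Pp.mul (PtAp.const (cond b 0 1)))).add
    ((PtAp.const 2).mul (pt_Q.mul (pt_DQ b))))).congr
    (fun o => by rw [pt_DW2_eq]; cases b <;> simp [Dat.La]) (fun _ => by ring)

theorem pt_fin {f g : PtO → ℝ} (h : PtAp f g) {ε2 : ℝ} (h2 : 0 < ε2) :
    ∃ ε0 > 0, ∀ o : PtO, o.ε ≤ ε0 → |o.mu * f o - o.mu * g o| ≤ o.mu * ε2 := by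
  obtain ⟨C, h⟩ := h
  refine ⟨ε2 / (|C| + 1), by positivity, fun o ho => ?_⟩
  rw [← mul_sub, abs_mul, abs_of_pos o.mu_pos]
  refine mul_le_mul_of_nonneg_left ((h o).2.trans ?_) o.mu_pos.le
  rw [le_div_iff₀ (by positivity)] at ho
  have := mul_le_mul_of_nonneg_right (le_abs_self C) o.d.eps_pos.le
  nlinarith [o.d.eps_pos]

theorem pt_Da (b : Bool) {ε2 : ℝ} (h2 : 0 < ε2) : ∃ ε0 > 0, ∀ o : PtO, o.ε ≤ ε0 →
    |(D b o.d.aa).1 o.i o.p - 2 * o.mu * cond b o.p.2 o.p.1| ≤ o.mu * ε2 := by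
  obtain ⟨ε0, h0, h⟩ := pt_fin (((((pt_Dss b).mul pt_Ee).mul pt_W2.sq).add
    (((pt_ss.sub (PtAp.const 1)).mul (pt_DEe b)).mul pt_W2.sq)).add
    (((pt_ss.sub (PtAp.const 1)).mul pt_Ee).mul (((PtAp.const 2).mul pt_W2).mul (pt_DW2 b)))) h2
  refine ⟨ε0, h0, fun o ho => ?_⟩
  have h1 := h o ho
  rw [pt_Daa_eq]
  convert h1 using 3
  · rfl
  · ring

theorem pointwise {ε2 : ℝ} (h : 0 < ε2) : ∃ ε0 > 0, ∀ {N : ℕ} {ε κ lmin : ℝ}
    (d : Dat N ε κ lmin), ε ≤ ε0 → ∀ i, ∀ p ∈ d.G0 i,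
      |d.aa.1 i p - κ / d.lam i ^ 2 * (rr p - 1)| ≤ κ / d.lam i ^ 2 * ε2 ∧
      |(D1 d.aa).1 i p - 2 * (κ / d.lam i ^ 2) * p.1| ≤ κ / d.lam i ^ 2 * ε2 ∧
      |(D2 d.aa).1 i p - 2 * (κ / d.lam i ^ 2) * p.2| ≤ κ / d.lam i ^ 2 * ε2 ∧
      |(d.f2 * D2 d.U + d.f0).1 i p| ≤ κ / d.lam i ^ 2 * ε2 ∧
      |(d.f2 * D1 d.U).1 i p| ≤ κ / d.lam i ^ 2 * ε2 := by
  have hk := ((((PtAp.const 4).mul pt_lam.sq).mul (pt_ss.sub (PtAp.const 1))).mul pt_Ee).mul pt_W2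
  obtain ⟨e1, p1, h1⟩ := pt_fin pt_a0 h
  obtain ⟨e2, p2, h2⟩ := pt_Da false h
  obtain ⟨e3, p3, h3⟩ := pt_Da true h
  obtain ⟨e4, p4, h4⟩ := pt_fin (((hk.mul pt_Q).neg.mul (pt_DU true)).add (hk.mul pt_Pp)) h
  obtain ⟨e5, p5, h5⟩ := pt_fin ((hk.mul pt_Q).neg.mul (pt_DU false)) h
  refine ⟨min e1 (min e2 (min e3 (min e4 e5))), by positivity, fun {N ε κ lmin} d hε i p hp => ?_⟩
  simp only [le_min_iff] at hε
  let o : PtO := ⟨N, ε, κ, lmin, d, i, p, hp⟩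
  refine ⟨?_, h2 o hε.2.1, h3 o hε.2.2.1, ?_, ?_⟩
  · have := h1 o hε.1
    rwa [← pt_aa_eq] at this
  · refine le_of_eq_of_le (congrArg abs ?_) (h4 o hε.2.2.2.1)
    change -(4 * o.mu * d.lam i ^ 2 * (d.ss.1 i p - 1) * d.Ee.1 i p * d.W2.1 i p * d.Q.1 i p) *
      (D true d.U).1 i p + 4 * o.mu * d.lam i ^ 2 * (d.ss.1 i p - 1) * d.Ee.1 i p * d.W2.1 i p *
        d.Pp.1 i p = _
    ring
  · refine le_of_eq_of_le (congrArg abs ?_) (h5 o hε.2.2.2.2)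
    change -(4 * o.mu * d.lam i ^ 2 * (d.ss.1 i p - 1) * d.Ee.1 i p * d.W2.1 i p * d.Q.1 i p) *
      (D false d.U).1 i p = _
    ring

end

end Vale.Agent.P229
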