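import Vale.Agent.P229.Defs2

namespace Vale.Agent.P229

open Set Filter MeasureTheory Topology

noncomputable section

/-! Pointwise computations for the job Rigid. -/

/-- the weighted product of a tangent vector with the difference of the two maps -/
def rigA (l : ℝ) (b : Bool) (u v z gu gv gz : Pl → ℝ) (p : Pl) : ℝ :=
  dd b u p * (u p - gu p) + dd b v p * (v p - gv p) + l * (dd b z p * (z p - gz p))

section

variable {u v z gu gv gz : Pl → ℝ} (hu : Sm u) (hv : Sm v) (hz : Sm z) (hgu : Sm gu) (hgv : Sm gv)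
  (hgz : Sm gz)
include hu hv hz hgu hgv hgz

theorem rigA_sm (l : ℝ) (b : Bool) : Sm (rigA l b u v z gu gv gz) :=
  (((hu.dd b).mul (hu.sub hgu)).add ((hv.dd b).mul (hv.sub hgv))).add
    (contDiff_const.mul ((hz.dd b).mul (hz.sub hgz)))

theorem rigA_dd (l : ℝ) (b c : Bool) (p : Pl) : dd c (rigA l b u v z gu gv gz) p =
    dd c (dd b u) p * (u p - gu p) + dd c (dd b v) p * (v p - gv p)
      + l * (dd c (dd b z) p * (z p - gz p)) + (dd b u p * (dd c u p - dd c gu p)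
      + dd b v p * (dd c v p - dd c gv p) + l * (dd b z p * (dd c z p - dd c gz p))) := by
  have k : ∀ {f g : Pl → ℝ}, Sm f → Sm g → dd c (fun q => dd b f q * (f q - g q)) p =
      dd c (dd b f) p * (f p - g p) + dd b f p * (dd c f p - dd c g p) := fun hf hg => by
    rw [dd_mul c ((hf.dd b).diff p) (Sm.diff (hf.sub hg) p), dd_sub c (hf.diff p) (hg.diff p)]
    ring
  have s1 := Sm.diff ((hu.dd b).mul (hu.sub hgu)) p
  have s2 := Sm.diff ((hv.dd b).mul (hv.sub hgv)) p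
  have s3 := Sm.diff ((hz.dd b).mul (hz.sub hgz)) p
  unfold rigA
  rw [dd_add c (s1.fun_add s2) (s3.const_mul l), dd_add c s1 s2, dd_const_mul c l s3, k hu hgu,
    k hv hgv, k hz hgz]
  ring

end

theorem rigid_gf {u v z ψ f : Pl → ℝ} {ν t : ℝ} {p : Pl} (h : GF u v z ψ f ν p)
    (hq : ell u v z false false p * t ^ 2 + 2 * ell u v z true false p * t +
      ell u v z true true p = 0) :
    t ^ 2 * d1 (d1 f) p + 2 * t * d2 (d1 f) p + d2 (d2 f) p =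
      (t ^ 2 * d1 ψ p + 2 * t * d2 ψ p - d1 ψ p) * d1 f p +
        (-(t ^ 2 * d2 ψ p) + 2 * t * d1 ψ p + d2 ψ p) * d2 f p := by
  obtain ⟨h1, h2, h3⟩ := h
  refine mul_left_cancel₀ (pow_pos (Real.exp_pos (2 * ψ p)) 2).ne' ?_
  linear_combination t ^ 2 * h1 + 2 * t * h2 + h3 + ν * hq

theorem rigid_quad {l t T E E0 e u1 u2 v1 v2 z1 z2 a1 a2 b1 b2 c1 c2 : ℝ} (hl : 0 ≤ l)
    (ht : |t| ≤ T) (hE : E0 ≤ E) (i1 : u1 ^ 2 + v1 ^ 2 + l * z1 ^ 2 = E)
    (i2 : u1 * u2 + v1 * v2 + l * (z1 * z2) = 0) (i3 : u2 ^ 2 + v2 ^ 2 + l * z2 ^ 2 = E)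
    (j1 : |a1 ^ 2 + b1 ^ 2 + l * c1 ^ 2 - E0| ≤ e) (j2 : |a1 * a2 + b1 * b2 + l * (c1 * c2)| ≤ e)
    (j3 : |a2 ^ 2 + b2 ^ 2 + l * c2 ^ 2 - E0| ≤ e) :
    (E - E0) / 2 - e * (T + 1) ^ 2 ≤ (t * u1 + u2) * (t * (u1 - a1) + (u2 - a2)) +
      (t * v1 + v2) * (t * (v1 - b1) + (v2 - b2)) +
      l * ((t * z1 + z2) * (t * (z1 - c1) + (z2 - c2))) := by
  have he : 0 ≤ e := (abs_nonneg _).trans j1
  have k1 : t ^ 2 * (a1 ^ 2 + b1 ^ 2 + l * c1 ^ 2 - E0) ≤ t ^ 2 * e :=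
    mul_le_mul_of_nonneg_left (abs_le.1 j1).2 (sq_nonneg t)
  have k2 : t * (a1 * a2 + b1 * b2 + l * (c1 * c2)) ≤ T * e := (le_abs_self _).trans (by
    rw [abs_mul]; exact mul_le_mul ht j2 (abs_nonneg _) ((abs_nonneg _).trans ht))
  have k3 := (abs_le.1 j3).2
  have k4 : t ^ 2 * e ≤ T ^ 2 * e :=
    mul_le_mul_of_nonneg_right (sq_le_sq' (abs_le.1 ht).1 (abs_le.1 ht).2) he
  have k5 := mul_nonneg (sq_nonneg t) (sub_nonneg.2 hE)
  have k6 := mul_nonneg he (sq_nonneg (T + 1))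
  have q1 := sq_nonneg (t * (u1 - a1) + (u2 - a2))
  have q2 := sq_nonneg (t * (v1 - b1) + (v2 - b2))
  have q3 := mul_nonneg hl (sq_nonneg (t * (z1 - c1) + (z2 - c2)))
  linear_combination (k1 + 2 * k2 + k3 + k4 + k5 + k6 + q1 + q2 + q3) / 2 -
    (t ^ 2 * i1 + 2 * t * i2 + i3) / 2

theorem rigid_coef {t T x y : ℝ} (ht : |t| ≤ T) (hx : |x| ≤ 2) (hy : |y| ≤ 2) :
    |t ^ 2 * x + 2 * t * y - x| ≤ 2 * (T + 1) ^ 2 := by
  have hT : 0 ≤ T := (abs_nonneg _).trans ht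
  have a1 : |t ^ 2 * x| ≤ T ^ 2 * 2 := by rw [abs_mul, abs_pow]; gcongr
  have a2 : |2 * t * y| ≤ 2 * T * 2 := by rw [abs_mul, abs_mul, abs_two]; gcongr
  have a3 := abs_sub (t ^ 2 * x + 2 * t * y) x
  have a4 := abs_add_le (t ^ 2 * x) (2 * t * y)
  linarith

/-- the transport inequality along one asymptotic direction -/
theorem rigid_pt {u v z gu gv gz ψ t : Pl → ℝ} (hu : Sm u) (hv : Sm v) (hz : Sm z) (hgu : Sm gu)
    (hgv : Sm gv) (hgz : Sm gz) {p : Pl} {lam T E0 e ν1 ν2 ν3 : ℝ} (dt : DifferentiableAt ℝ t p)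
    (ht : |t p| ≤ T) (ht' : ∀ b, |dd b t p| ≤ T) (hψ : ∀ b, |dd b ψ p| ≤ 2)
    (g1 : GF u v z ψ u ν1 p) (g2 : GF u v z ψ v ν2 p) (g3 : GF u v z ψ z ν3 p)
    (hq : ell u v z false false p * t p ^ 2 + 2 * ell u v z true false p * t p +
      ell u v z true true p = 0) (hiso : Iso lam u v z ψ {p}) (hE : E0 ≤ Real.exp (2 * ψ p))
    (j1 : |d1 gu p ^ 2 + d1 gv p ^ 2 + lam ^ 2 * d1 gz p ^ 2 - E0| ≤ e)
    (j2 : |d1 gu p * d2 gu p + d1 gv p * d2 gv p + lam ^ 2 * (d1 gz p * d2 gz p)| ≤ e)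
    (j3 : |d2 gu p ^ 2 + d2 gv p ^ 2 + lam ^ 2 * d2 gz p ^ 2 - E0| ≤ e) :
    (Real.exp (2 * ψ p) - E0) / 2 - e * (T + 1) ^ 2 - (T + 1) ^ 2 *
      (3 * |rigA (lam ^ 2) false u v z gu gv gz p| + 2 * |rigA (lam ^ 2) true u v z gu gv gz p|) ≤
      t p * d1 (fun q => t q * rigA (lam ^ 2) false u v z gu gv gz q +
        rigA (lam ^ 2) true u v z gu gv gz q) p +
      d2 (fun q => t q * rigA (lam ^ 2) false u v z gu gv gz q +
        rigA (lam ^ 2) true u v z gu gv gz q) p := by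
  have hT : 0 ≤ T := (abs_nonneg _).trans ht
  have s := fun b => (rigA_sm hu hv hz hgu hgv hgz (lam ^ 2) b).diff p
  obtain ⟨i1, i2, i3⟩ := hiso p rfl
  have q := rigid_quad (sq_nonneg lam) ht hE i1 i2 i3 j1 j2 j3
  have m1 := rigid_gf g1 hq
  have m2 := rigid_gf g2 hq
  have m3 := rigid_gf g3 hq
  have c1 := rigid_coef ht (hψ false) (hψ true)
  have c2 := rigid_coef ht (x := -dd true ψ p) (by rw [abs_neg]; exact hψ true) (hψ false)
  have c3 : |t p * dd false t p + dd true t p| ≤ (T + 1) ^ 2 := by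
    have a1 : |t p * dd false t p| ≤ T * T := by rw [abs_mul]; gcongr; exact ht' false
    nlinarith [abs_add_le (t p * dd false t p) (dd true t p), ht' true]
  have k : ∀ x y C : ℝ, |x| ≤ C → -(C * |y|) ≤ x * y := fun x y C h =>
    le_trans (by rw [abs_mul]; gcongr) (neg_abs_le _)
  have k1 := k _ (rigA (lam ^ 2) false u v z gu gv gz p) _ c1
  have k2 := k _ (rigA (lam ^ 2) true u v z gu gv gz p) _ c2
  have k3 := k _ (rigA (lam ^ 2) false u v z gu gv gz p) _ c3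
  simp only [d1, d2, dd_add _ (dt.fun_mul (s false)) (s true), dd_mul _ dt (s false),
    rigA_dd hu hv hz hgu hgv hgz, dd_comm hu false true, dd_comm hv false true,
    dd_comm hz false true] at *
  generalize |rigA (lam ^ 2) false u v z gu gv gz p| = A1 at *
  generalize |rigA (lam ^ 2) true u v z gu gv gz p| = A2 at *
  simp only [rigA] at *
  linear_combination q + k1 + k2 + k3 - (u p - gu p) * m1 - (v p - gv p) * m2 -
    lam ^ 2 * (z p - gz p) * m3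

/-- the slopes of the asymptotic directions -/
theorem rigid_slope {L M D : Pl → ℝ} (hL : Sm L) (hM : Sm M) (hD : Sm D) {p : Pl} {B k σ : ℝ}
    (hB : 1 ≤ B) (hk : 0 < k) (hk1 : k ≤ 1) (hσ : |σ| = 1) (h1 : 1 / 2 ≤ L p) (h2 : k ≤ D p)
    (bM : |M p| ≤ B) (bD : |D p| ≤ B) (dL : ∀ b, |dd b L p| ≤ B) (dM : ∀ b, |dd b M p| ≤ B)
    (dD : ∀ b, |dd b D p| ≤ B) :
    DifferentiableAt ℝ (fun q => (σ * √(D q) - M q) * (L q)⁻¹) p ∧
      |(σ * √(D p) - M p) * (L p)⁻¹| ≤ 15 * B ^ 2 / k ∧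
      ∀ b, |dd b (fun q => (σ * √(D q) - M q) * (L q)⁻¹) p| ≤ 15 * B ^ 2 / k := by
  have hL0 : L p ≠ 0 := by linarith
  have hD0 : D p ≠ 0 := by linarith
  have e1 : DifferentiableAt ℝ (fun q => √(D q)) p := (hD.diff p).sqrt hD0
  have e2 : DifferentiableAt ℝ (fun q => (L q)⁻¹) p := (hL.diff p).fun_inv hL0
  have e3 := (e1.const_mul σ).fun_sub (hM.diff p)
  have r1 : k ≤ √(D p) := Real.le_sqrt_of_sq_le (by nlinarith)
  have r2 : √(D p) ≤ 2 * B := Real.sqrt_le_iff.2 ⟨by linarith, by nlinarith [(abs_le.1 bD).2]⟩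
  have r3 : |σ * √(D p) - M p| ≤ 3 * B := by
    have := abs_sub (σ * √(D p)) (M p)
    rw [abs_mul, hσ, abs_of_nonneg (Real.sqrt_nonneg _)] at this
    linarith
  have r4 : |(L p)⁻¹| ≤ 2 := by
    rw [abs_of_pos (by positivity), inv_le_comm₀ (by linarith) two_pos]
    linarith
  have r5 : B ≤ B / k := le_div_self (by linarith) hk hk1
  have r6 : B ^ 2 ≤ B ^ 2 / k := le_div_self (by positivity) hk hk1
  have r7 : B / k ≤ B ^ 2 / k := by gcongr; nlinarith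
  refine ⟨e3.fun_mul e2, ?_, fun b => ?_⟩
  · rw [abs_mul, mul_div_assoc]
    have : |σ * √(D p) - M p| * |(L p)⁻¹| ≤ 3 * B * 2 := by gcongr
    linarith
  · rw [dd_mul b e3 e2, dd_sub b (e1.const_mul σ) (hM.diff p), dd_const_mul b σ e1,
      dd_comp1 b (Real.hasDerivAt_sqrt hD0) (hD.diff p),
      dd_comp1 b (hasDerivAt_inv hL0) (hL.diff p), mul_div_assoc]
    have a1 : |(σ * √(D p) - M p) * (-(L p ^ 2)⁻¹ * dd b L p)| ≤ 3 * B * (2 ^ 2 * B) := by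
      rw [abs_mul, abs_mul, abs_neg, ← inv_pow, abs_pow]
      gcongr
      exact dL b
    have a2 : |σ * (1 / (2 * √(D p)) * dd b D p)| ≤ 1 / (2 * k) * B := by
      have := hk.trans_le r1
      rw [abs_mul, hσ, one_mul, abs_mul, abs_of_pos (by positivity)]
      gcongr
      exact dD b
    have a3 : |(L p)⁻¹ * (σ * (1 / (2 * √(D p)) * dd b D p) - dd b M p)| ≤
        2 * (1 / (2 * k) * B + B) := by
      rw [abs_mul]
      gcongr
      exact (abs_sub _ _).trans (add_le_add a2 (dM b))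
    have a4 : 1 / (2 * k) * B = B / k / 2 := by field_simp
    exact (abs_add_le _ _).trans (by linarith)

theorem rigid_root {L M N σ : ℝ} (hL : L ≠ 0) (hD : 0 ≤ M ^ 2 - L * N) (hσ : σ ^ 2 = 1) :
    L * ((σ * √(M ^ 2 - L * N) - M) * L⁻¹) ^ 2 + 2 * M * ((σ * √(M ^ 2 - L * N) - M) * L⁻¹) + N
      = 0 := by
  have h := Real.sq_sqrt hD
  generalize √(M ^ 2 - L * N) = r at h
  field_simp
  linear_combination r ^ 2 * hσ + h

/-- recovering the tangential components -/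
theorem rigid_rec {a1 a2 L M r k B T : ℝ} (hB : 1 ≤ B) (hk : 0 < k) (hT : 15 * B ^ 2 / k ≤ T)
    (h1 : 0 < L) (h2 : L ≤ B) (h3 : k ≤ r) (ht : |(1 * r - M) * L⁻¹| ≤ T) :
    (T + 1) ^ 2 * (3 * |a1| + 2 * |a2|) ≤ 5 * (T + 1) ^ 4 *
      (|(1 * r - M) * L⁻¹ * a1 + a2| + |(-1 * r - M) * L⁻¹ * a1 + a2|) := by
  have hT0 : 0 ≤ T := (abs_nonneg _).trans ht
  have e1 : 2 * r * a1 = L * (((1 * r - M) * L⁻¹ * a1 + a2) - ((-1 * r - M) * L⁻¹ * a1 + a2)) := by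
    field_simp
    ring
  have e2 : |a2| ≤ |(1 * r - M) * L⁻¹ * a1 + a2| + T * |a1| := by
    have := abs_sub ((1 * r - M) * L⁻¹ * a1 + a2) ((1 * r - M) * L⁻¹ * a1)
    rw [add_sub_cancel_left, abs_mul _ a1] at this
    exact this.trans (by gcongr)
  generalize (1 * r - M) * L⁻¹ * a1 + a2 = x at *
  generalize (-1 * r - M) * L⁻¹ * a1 + a2 = y at *
  have hx := abs_nonneg x
  have hy := abs_nonneg y
  have e3 : 2 * k * |a1| ≤ B * (|x| + |y|) := by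
    have a := congrArg abs e1
    rw [abs_mul, abs_mul L, abs_of_pos h1, abs_of_pos (by linarith : 0 < 2 * r)] at a
    calc 2 * k * |a1| ≤ 2 * r * |a1| := by gcongr
      _ ≤ _ := by rw [a]; gcongr; exact abs_sub _ _
  have e4 : |a1| ≤ T * (|x| + |y|) := by
    rw [div_le_iff₀ hk] at hT
    refine le_of_mul_le_mul_left (e3.trans ?_) (show 0 < 2 * k by positivity)
    rw [← mul_assoc]
    gcongr
    nlinarith
  have e5 : T * |a1| ≤ T * (T * (|x| + |y|)) := by gcongr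
  have e6 : 3 * |a1| + 2 * |a2| ≤ 5 * (T + 1) ^ 2 * (|x| + |y|) := by
    nlinarith [mul_nonneg hT0 (add_nonneg hx hy), mul_nonneg hT0 (mul_nonneg hT0 (add_nonneg hx hy))]
  calc _ ≤ (T + 1) ^ 2 * (5 * (T + 1) ^ 2 * (|x| + |y|)) := by gcongr
    _ = _ := by ring

end

end Vale.Agent.P229
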