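import Vale.Agent.P229.TaylorA

namespace Vale.Agent.P229

open Set Filter MeasureTheory Topology

noncomputable section

/-! JOB Taylor: polynomial approximation from the boundary of a small square. -/

theorem taylor_prod {q : ℕ → Pl} {k : ℕ} {f g : Rg} (h : Van q (k + 1) (f - g)) (b b' : Bool) :
    Van q k (D b g * D b' g - D b f * D b' f) := by
  have e : D b g * D b' g - D b f * D b' f =
      -D b' g * D b (f - g) + -D b f * D b' (f - g) := by
    rw [map_sub, map_sub]; ring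
  rw [e]
  exact ((h.der b).mul_left _).add ((h.der b').mul_left _)

theorem taylor (K : ℕ) (H lam : ℕ → ℝ) (hH : ∀ i, 0 < H i ∧ H i ≤ 1) (hl : ∀ i, |lam i| ≤ 1)
    (u v z : Rg) {ψ : Pl → ℝ} (hψ : Sm ψ) (O : ℕ → Set Pl) (hO : ∀ i, IsOpen (O i))
    (hp : ∀ i, (-H i, -H i) ∈ O i)
    (hiso : ∀ i, Iso (lam i) (u.1 i) (v.1 i) (z.1 i) ψ (O i))
    (hu : S (K + 1) (fun i => Metric.sphere 0 (H i)) u)
    (hv : S (K + 1) (fun i => Metric.sphere 0 (H i)) v)
    (hz : S (K + 1) (fun i => Metric.sphere 0 (H i)) z) :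
    ∃ (gu gv gz : Rg) (C : ℝ), 0 < C ∧ ∀ i,
      (∀ p ∈ Metric.sphere (0 : Pl) (H i), |u.1 i p - gu.1 i p| ≤ C * H i ^ (K + 1) ∧
        |v.1 i p - gv.1 i p| ≤ C * H i ^ (K + 1) ∧ |z.1 i p - gz.1 i p| ≤ C * H i ^ (K + 1)) ∧
      ∀ p ∈ Metric.closedBall (0 : Pl) (H i),
        |d1 (gu.1 i) p ^ 2 + d1 (gv.1 i) p ^ 2 + lam i ^ 2 * d1 (gz.1 i) p ^ 2 -
          Real.exp (2 * ψ p)| ≤ C * H i ^ K ∧
        |d1 (gu.1 i) p * d2 (gu.1 i) p + d1 (gv.1 i) p * d2 (gv.1 i) p +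
          lam i ^ 2 * (d1 (gz.1 i) p * d2 (gz.1 i) p)| ≤ C * H i ^ K ∧
        |d2 (gu.1 i) p ^ 2 + d2 (gv.1 i) p ^ 2 + lam i ^ 2 * d2 (gz.1 i) p ^ 2 -
          Real.exp (2 * ψ p)| ≤ C * H i ^ K := by
  have hH0 : ∀ i, 0 < H i := fun i => (hH i).1
  obtain ⟨gu, su, vu⟩ := taylor_poly hH (hu.mono (Nat.le_succ K))
  obtain ⟨gv, sv, vv⟩ := taylor_poly hH (hv.mono (Nat.le_succ K))
  obtain ⟨gz, sz, vz⟩ := taylor_poly hH (hz.mono (Nat.le_succ K))
  have hsb : ∀ i, Metric.sphere (0 : Pl) (H i) ⊆ Metric.closedBall 0 (H i) := fun i =>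
    Metric.sphere_subset_closedBall
  have hsph : ∀ i, PathOK (H i) (Metric.sphere 0 (H i)) := fun i => pathOK_sphere (hH0 i).le
  have hbal : ∀ i, PathOK (H i) (Metric.closedBall 0 (H i)) := fun i => pathOK_ball (hH0 i).le
  obtain ⟨C1, c1, h1⟩ := taylor_bound hH0 hsph vu (hu.sub ((su _).mono_set hsb))
  obtain ⟨C2, c2, h2⟩ := taylor_bound hH0 hsph vv (hv.sub ((sv _).mono_set hsb))
  obtain ⟨C3, c3, h3⟩ := taylor_bound hH0 hsph vz (hz.sub ((sz _).mono_set hsb))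
  have hE : Sm (fun p => Real.exp (2 * ψ p)) :=
    Real.contDiff_exp.comp (contDiff_const.mul hψ)
  have hsub : ∀ i, Metric.closedBall (0 : Pl) (H i) ⊆ Metric.closedBall 0 1 := fun i =>
    Metric.closedBall_subset_closedBall (hH i).2
  have key : ∀ (b b' : Bool) (e : Rg), S K (fun i => Metric.closedBall 0 (H i)) e →
      Z O (D b u * D b' u + D b v * D b' v + cst lam ^ 2 * (D b z * D b' z) - e) →
      ∃ C, 0 < C ∧ ∀ i, ∀ p ∈ Metric.closedBall (0 : Pl) (H i),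
        |(D b gu * D b' gu + D b gv * D b' gv + cst lam ^ 2 * (D b gz * D b' gz) - e).1 i p| ≤
          C * H i ^ K := by
    intro b b' e he hZ
    refine taylor_bound hH0 hbal ?_ ?_
    · have e1 : D b gu * D b' gu + D b gv * D b' gv + cst lam ^ 2 * (D b gz * D b' gz) - e =
          (D b gu * D b' gu - D b u * D b' u) + (D b gv * D b' gv - D b v * D b' v) +
            cst lam ^ 2 * (D b gz * D b' gz - D b z * D b' z) +
            (D b u * D b' u + D b v * D b' v + cst lam ^ 2 * (D b z * D b' z) - e) := by ring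
      rw [e1]
      exact (((taylor_prod vu b b').add (taylor_prod vv b b')).add
        ((taylor_prod vz b b').mul_left _)).add (hZ.van hO hp)
    · have hla : S K (fun i => Metric.closedBall 0 (H i)) (cst lam) := S_cst hl
      rw [sq]
      exact (((((su _).der b).mul ((su _).der b')).add (((sv _).der b).mul ((sv _).der b'))).add
        ((hla.mul hla).mul (((sz _).der b).mul ((sz _).der b')))).sub he
  obtain ⟨C4, c4, h4⟩ := key false false (fix _ hE) (S_fix hsub _ _) fun i p hp => by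
    have := (hiso i p hp).1
    simp only [Rg.sub_ap, Rg.add_ap, Rg.mul_ap, Rg.pow_ap, cst_ap, D_ap, fix_ap]
    linear_combination this
  obtain ⟨C5, c5, h5⟩ := key false true 0 clsS_zero fun i p hp => by
    have := (hiso i p hp).2.1
    simp only [Rg.sub_ap, Rg.add_ap, Rg.mul_ap, Rg.pow_ap, cst_ap, D_ap, Rg.zero_ap]
    linear_combination this
  obtain ⟨C6, c6, h6⟩ := key true true (fix _ hE) (S_fix hsub _ _) fun i p hp => by
    have := (hiso i p hp).2.2
    simp only [Rg.sub_ap, Rg.add_ap, Rg.mul_ap, Rg.pow_ap, cst_ap, D_ap, fix_ap]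
    linear_combination this
  have up : ∀ {x C' t : ℝ}, 0 < t → C' ≤ C1 + C2 + C3 + C4 + C5 + C6 → x ≤ C' * t →
      x ≤ (C1 + C2 + C3 + C4 + C5 + C6) * t := fun ht hC hx =>
    hx.trans (mul_le_mul_of_nonneg_right hC ht.le)
  refine ⟨gu, gv, gz, C1 + C2 + C3 + C4 + C5 + C6, by positivity, fun i =>
    ⟨fun p hp => ⟨up (pow_pos (hH0 i) _) (by linarith) (h1 i p hp),
      up (pow_pos (hH0 i) _) (by linarith) (h2 i p hp),
      up (pow_pos (hH0 i) _) (by linarith) (h3 i p hp)⟩, fun p hp => ⟨?_, ?_, ?_⟩⟩⟩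
  · refine up (pow_pos (hH0 i) _) (by linarith) (le_trans (le_of_eq ?_) (h4 i p hp))
    simp only [Rg.sub_ap, Rg.add_ap, Rg.mul_ap, cst_ap, D_ap, fix_ap, sq]
  · refine up (pow_pos (hH0 i) _) (by linarith) (le_trans (le_of_eq ?_) (h5 i p hp))
    simp only [Rg.sub_ap, Rg.add_ap, Rg.mul_ap, cst_ap, D_ap, Rg.zero_ap, sub_zero, sq]
  · refine up (pow_pos (hH0 i) _) (by linarith) (le_trans (le_of_eq ?_) (h6 i p hp))
    simp only [Rg.sub_ap, Rg.add_ap, Rg.mul_ap, cst_ap, D_ap, fix_ap, sq]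

end

end Vale.Agent.P229
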