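import Vale.Agent.P229.MP
import Vale.Agent.P229.Taylor
import Vale.Agent.P229.Gauss
import Vale.Agent.P229.RigidA

namespace Vale.Agent.P229

open Set Filter MeasureTheory Topology

noncomputable section

/-! JOB Rigid: rigidity of the perturbation along asymptotic directions. -/

theorem rigid_L {u v z : Pl → ℝ} (hc : Close (1 / 10000) u v z) {p : Pl} (hp : p ∈ disc 9) :
    1 / 2 ≤ ell u v z false false p := by
  have k : ∀ x y a b : ℝ, |x| ≤ a → |y| ≤ b → -(a * b) ≤ x * y ∧ x * y ≤ a * b := fun x y a b hx hy =>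
    abs_le.1 (by rw [abs_mul]; exact mul_le_mul hx hy (abs_nonneg _) ((abs_nonneg _).trans hx))
  have k2 : ∀ x : ℝ, |x - 1| ≤ 1 / 10000 → |x| ≤ 2 := fun x hx =>
    abs_le.2 ⟨by linarith [(abs_le.1 hx).1], by linarith [(abs_le.1 hx).2]⟩
  have a1 := k _ _ _ _ (hc.vx p hp) (hc.z1 true p hp)
  have a2 := k _ _ _ _ (hc.z1 false p hp) (k2 _ (hc.vy p hp))
  have a3 := k _ _ _ _ (hc.z1 false p hp) (hc.uy p hp)
  have a4 := k _ _ _ _ (k2 _ (hc.ux p hp)) (hc.z1 true p hp)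
  have a5 := k _ _ _ _ (hc.ux p hp) (hc.vy p hp)
  have a6 := k _ _ _ _ (hc.uy p hp) (hc.vx p hp)
  have a7 := abs_le.1 (hc.ux p hp)
  have a8 := abs_le.1 (hc.vy p hp)
  have b1 := k _ (n1 v z p) _ 201 (hc.u2 false false p hp) (abs_le.2 (by
    unfold n1; constructor <;> linarith [a1.1, a1.2, a2.1, a2.2]))
  have b2 := k _ (n2 u z p) _ 201 (hc.v2 false false p hp) (abs_le.2 (by
    unfold n2; constructor <;> linarith [a3.1, a3.2, a4.1, a4.2]))
  have b3 : |Dl u v p - 1| ≤ 1 / 1000 := abs_le.2 (by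
    unfold Dl; constructor <;> linarith [a5.1, a5.2, a6.1, a6.2, a7.1, a7.2, a8.1, a8.2])
  have b4 := k _ _ _ _ (hc.zxx p hp) b3
  have b5 := abs_le.1 (hc.zxx p hp)
  unfold ell
  linarith [b1.1, b2.1, b4.1, b5.1, (abs_le.1 b3).1]

theorem rigid_bd {u v z gu gv gz : Pl → ℝ} (hc : Close (1 / 10000) u v z) {p : Pl}
    (hp : p ∈ disc 9) {l e : ℝ} (hl : |l| ≤ 1) (h1 : |u p - gu p| ≤ e) (h2 : |v p - gv p| ≤ e)
    (h3 : |z p - gz p| ≤ e) (b : Bool) : |rigA l b u v z gu gv gz p| ≤ 104 * e := by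
  have k2 : ∀ x : ℝ, |x - 1| ≤ 1 / 10000 → |x| ≤ 2 := fun x hx =>
    abs_le.2 ⟨by linarith [(abs_le.1 hx).1], by linarith [(abs_le.1 hx).2]⟩
  have du : |dd b u p| ≤ 2 := by
    cases b
    exacts [k2 _ (hc.ux p hp), (hc.uy p hp).trans (by norm_num)]
  have dv : |dd b v p| ≤ 2 := by
    cases b
    exacts [(hc.vx p hp).trans (by norm_num), k2 _ (hc.vy p hp)]
  have dz := hc.z1 b p hp
  have a1 : |dd b u p * (u p - gu p)| ≤ 2 * e := by rw [abs_mul]; gcongr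
  have a2 : |dd b v p * (v p - gv p)| ≤ 2 * e := by rw [abs_mul]; gcongr
  have a3 : |l * (dd b z p * (z p - gz p))| ≤ 1 * (100 * e) := by rw [abs_mul, abs_mul]; gcongr
  exact (abs_add_three _ _ _).trans (by linarith)

theorem rigid_psi {N : ℕ} {κ h Cψ : ℝ} (hκ : 0 < κ) (hκ1 : κ ≤ 1) (hh : 0 < h) {p : Pl}
    (hp : ‖p‖ ≤ 1 / 2) (hC : 8 * (Cψ * h) ≤ κ)
    (hb : ∀ b, |dd b (psi N κ h) p - dd b (psi0 κ) p| ≤ Cψ * h ∧
      |dd b (dd b (psi N κ h)) p - dd b (dd b (psi0 κ)) p| ≤ Cψ * h) :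
    0 ≤ psi0 κ p ∧ (∀ b, |dd b (psi N κ h) p| ≤ 2) ∧
      κ / 4 ≤ (d1 (d1 (psi N κ h)) p + d2 (d2 (psi N κ h)) p) * Real.exp (2 * psi N κ h p) ^ 3 := by
  have r0 : 0 ≤ rr p := (sq_nonneg _).trans (norm_sq_le_rr p)
  have r1 : rr p ≤ 1 / 2 := (rr_le_norm_sq p).trans (by nlinarith [norm_nonneg p])
  have p0 : 0 ≤ psi0 κ p := mul_nonneg hκ.le (by nlinarith)
  have k : ∀ x : ℝ, |x| ≤ 1 / 2 → |κ / 2 * x - κ / 4 * (x * rr p)| ≤ 1 := fun x hx => by
    rw [show κ / 2 * x - κ / 4 * (x * rr p) = x * (κ * (1 / 2 - rr p / 4)) by ring, abs_mul,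
      abs_of_nonneg (mul_nonneg hκ.le (by linarith))]
    nlinarith [abs_nonneg x, mul_nonneg hκ.le r0]
  refine ⟨p0, fun b => ?_, ?_⟩
  · have : |dd b (psi0 κ) p| ≤ 1 := by
      cases b
      · rw [show dd false (psi0 κ) p = _ from d1_psi0 κ p]
        exact k _ ((norm_fst_le p).trans hp)
      · rw [show dd true (psi0 κ) p = _ from d2_psi0 κ p]
        exact k _ ((norm_snd_le p).trans hp)
    linarith [abs_sub_abs_le_abs_sub (dd b (psi N κ h) p) (dd b (psi0 κ) p), (hb b).1]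
  · have a1 := (abs_le.1 (hb false).2).1
    have a2 := (abs_le.1 (hb true).2).1
    have a3 := lap_psi0 κ p
    have a4 : 1 ≤ Real.exp (2 * psi N κ h p) ^ 3 :=
      one_le_pow₀ (Real.one_le_exp (by linarith [(psi0_le_psi N κ hh p).1]))
    have a5 : κ / 4 ≤ d1 (d1 (psi N κ h)) p + d2 (d2 (psi N κ h)) p := by
      nlinarith [mul_le_mul_of_nonneg_left r1 hκ.le]
    exact a5.trans (le_mul_of_one_le_right (by linarith) a4)

theorem rigid_one {N : ℕ} {κ h H lam B e e' Cψ T : ℝ} (hκ : 0 < κ) (hκ1 : κ ≤ 1) (hh : 0 < h)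
    (hH : h ≤ H) (hH1 : H ≤ 1 / 2) (hl : 0 < lam ∧ lam ≤ 1) {u v z gu gv gz : Pl → ℝ} (hu : Sm u)
    (hv : Sm v) (hz : Sm z) (hgu : Sm gu) (hgv : Sm gv) (hgz : Sm gz)
    (hiso : Iso lam u v z (psi N κ h) (disc 9)) (hc : Close (1 / 10000) u v z) (hB : 1 ≤ B)
    (sL : ∀ b b', Sm (ell u v z b b')) (bL : ∀ b b', WB 1 B (disc 9) (ell u v z b b'))
    (bD : WB 1 B (disc 9) fun p => ell u v z true false p ^ 2 -
      ell u v z false false p * ell u v z true true p)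
    (hT : T = 15 * B ^ 2 / (κ / 4)) (hTH : 8 * (5 * (T + 1) ^ 4) * H ≤ 1) (hC : 8 * (Cψ * h) ≤ κ)
    (hb : ∀ p b, |dd b (psi N κ h) p - dd b (psi0 κ) p| ≤ Cψ * h ∧
      |dd b (dd b (psi N κ h)) p - dd b (dd b (psi0 κ)) p| ≤ Cψ * h) (he : 0 < e) (he' : 0 < e')
    (t1 : ∀ p ∈ Metric.sphere (0 : Pl) H, |u p - gu p| ≤ e' ∧ |v p - gv p| ≤ e' ∧ |z p - gz p| ≤ e')
    (t2 : ∀ p ∈ Metric.closedBall (0 : Pl) H,
      |d1 gu p ^ 2 + d1 gv p ^ 2 + lam ^ 2 * d1 gz p ^ 2 - Real.exp (2 * psi0 κ p)| ≤ e ∧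
      |d1 gu p * d2 gu p + d1 gv p * d2 gv p + lam ^ 2 * (d1 gz p * d2 gz p)| ≤ e ∧
      |d2 gu p ^ 2 + d2 gv p ^ 2 + lam ^ 2 * d2 gz p ^ 2 - Real.exp (2 * psi0 κ p)| ≤ e) :
    h ^ N ≤ e * (T + 1) ^ 2 + (2 * (5 * (T + 1) ^ 4) + 6 * (T + 1) / (h / 4)) *
      (2 * ((T + 1) * (104 * e')) + 8 * H * (e * (T + 1) ^ 2)) := by
  have hT0 : 0 ≤ T := by rw [hT]; positivity
  have hn : ∀ p ∈ Metric.closedBall (0 : Pl) H, ‖p‖ ≤ 1 / 2 := fun p hp =>
    (mem_closedBall_zero_iff.1 hp).trans hH1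
  have hd : ∀ p ∈ Metric.closedBall (0 : Pl) H, p ∈ disc 9 := fun p hp =>
    (rr_le_norm_sq p).trans_lt (by nlinarith [hn p hp, norm_nonneg p])
  have hψ := fun p hp => rigid_psi (N := N) hκ hκ1 hh (hn p hp) hC (hb p)
  have hg := fun p hp => gauss hl.1.ne' hu hv hz (sm_psi N κ h) (isOpen_disc 9) hiso (hd p hp)
  have hL := fun p hp => rigid_L hc (hd p hp)
  have l2 : lam ^ 2 ≤ 1 := pow_le_one₀ hl.1.le hl.2
  have hD : ∀ p ∈ Metric.closedBall (0 : Pl) H, κ / 4 ≤ ell u v z true false p ^ 2 -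
      ell u v z false false p * ell u v z true true p := fun p hp => by
    have a1 := (hg p hp).2.2.2.2
    have a2 := (hψ p hp).2.2
    have a3 : κ / 4 ≤ lam ^ 2 * (ell u v z true false p ^ 2 -
      ell u v z false false p * ell u v z true true p) := by linarith
    exact a3.trans (mul_le_of_le_one_left
      ((mul_pos_iff_of_pos_left (pow_pos hl.1 2)).1 (lt_of_lt_of_le (by positivity) a3)).le l2)
  have sl := fun (σ : ℝ) (hσ : |σ| = 1) p hp => rigid_slope (sL false false) (sL true false)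
    (((sL true false).pow 2).sub ((sL false false).mul (sL true true))) hB (by positivity)
    (by linarith) hσ (hL p hp) (hD p hp) (bL true false [] (by simp) p (hd p hp))
    (bD [] (by simp) p (hd p hp)) (fun b => bL false false [b] (by simp) p (hd p hp))
    (fun b => bL true false [b] (by simp) p (hd p hp)) fun b => bD [b] (by simp) p (hd p hp)
  rw [← hT] at sl
  have hE := fun p => Real.exp_le_exp.2 (show 2 * psi0 κ p ≤ 2 * psi N κ h p by
    linarith [(psi0_le_psi N κ hh p).1])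
  have sA := fun b p => (rigA_sm hu hv hz hgu hgv hgz (lam ^ 2) b).diff p
  have pt := fun (σ : ℝ) (hσ : |σ| = 1) p hp => rigid_pt hu hv hz hgu hgv hgz (sl σ hσ p hp).1
    (sl σ hσ p hp).2.1 (sl σ hσ p hp).2.2 (hψ p hp).2.1 (hg p hp).2.1 (hg p hp).2.2.1
    (hg p hp).2.2.2.1 (rigid_root (by linarith [hL p hp]) (by linarith [hD p hp])
      (by rw [← sq_abs, hσ, one_pow]))
    (fun q hq => hiso q (by rw [hq]; exact hd p hp)) (hE p) (t2 p hp).1 (t2 p hp).2.1 (t2 p hp).2.2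
  have rc := fun p hp => rigid_rec (L := ell u v z false false p)
    (a1 := rigA (lam ^ 2) false u v z gu gv gz p)
    (a2 := rigA (lam ^ 2) true u v z gu gv gz p) hB (by positivity) hT.ge
    (by linarith [hL p hp]) (abs_le.1 (bL false false [] (by simp) p (hd p hp))).2
    (Real.le_sqrt_of_sq_le (by nlinarith [hD p hp])) (sl 1 abs_one p hp).2.1
  have m1 : |(-1 : ℝ)| = 1 := by simp
  refine maxp _ _ _ _ (fun p => (Real.exp (2 * psi N κ h p) - Real.exp (2 * psi0 κ p)) / 2)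
    (by positivity) (by linarith) (by positivity) (by positivity) (by positivity) hTH hT0
    (fun p hp => ((sl 1 abs_one p hp).1.fun_mul (sA false p)).fun_add (sA true p))
    (fun p hp => ((sl (-1) m1 p hp).1.fun_mul (sA false p)).fun_add (sA true p))
    (fun p hp => (sl 1 abs_one p hp).2.1)
    (fun p hp => le_trans (by linarith [rc p hp]) (pt 1 abs_one p hp))
    (fun p hp => le_trans (by linarith [rc p hp]) (pt (-1) m1 p hp))
    (fun p _ => by linarith [hE p]) (fun p hp => ?_) fun p hp => ?_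
  · have a0 := mem_closedBall_zero_iff.1 hp
    have a1 := psi_in N κ hh (p := p) ((rr_le_norm_sq p).trans (by nlinarith [norm_nonneg p]))
    have a2 := Real.one_le_exp (show 0 ≤ 2 * psi0 κ p by
      linarith [(hψ p (mem_closedBall_zero_iff.2 (by linarith))).1])
    have a3 := Real.add_one_le_exp (2 * h ^ N)
    have a4 : 0 < h ^ N := by positivity
    rw [a1, mul_add, Real.exp_add]
    nlinarith
  · have hp' := Metric.sphere_subset_closedBall hp
    have a := rigid_bd hc (hd p hp') (l := lam ^ 2) (by rwa [abs_of_nonneg (sq_nonneg _)])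
      (t1 p hp).1 (t1 p hp).2.1 (t1 p hp).2.2
    have k : ∀ t : ℝ, |t| ≤ T → |t * rigA (lam ^ 2) false u v z gu gv gz p +
        rigA (lam ^ 2) true u v z gu gv gz p| ≤ (T + 1) * (104 * e') := fun t ht => by
      have : |t * rigA (lam ^ 2) false u v z gu gv gz p| ≤ T * (104 * e') := by
        rw [abs_mul]; gcongr; exact a false
      linarith [abs_add_le (t * rigA (lam ^ 2) false u v z gu gv gz p)
        (rigA (lam ^ 2) true u v z gu gv gz p), a true]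
    exact ⟨k _ (sl 1 abs_one p hp').2.1, k _ (sl (-1) m1 p hp').2.1⟩

/-- the second fundamental form inside the ring -/
def ellR (u v z : Rg) (b b' : Bool) : Rg :=
  D b (D b' u) * (D1 v * D2 z - D1 z * D2 v) + D b (D b' v) * (D1 z * D2 u - D1 u * D2 z) +
    D b (D b' z) * (D1 u * D2 v - D2 u * D1 v)

theorem ellR_ap (u v z : Rg) (b b' : Bool) (i : ℕ) :
    (ellR u v z b b').1 i = ell (u.1 i) (v.1 i) (z.1 i) b b' := rfl

theorem rigid {N : ℕ} (hN : 3 ≤ N) {κ ρ : ℝ} (hκ : 0 < κ) (hκ1 : κ ≤ 1) (hρ : 2 ≤ ρ)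
    (h lam : ℕ → ℝ) (hh : ∀ i, 0 < h i) (hh' : ∀ i, ρ * h i ≤ 1)
    (hlim : Tendsto h atTop (𝓝 0)) (hl : ∀ i, 0 < lam i ∧ lam i ≤ 1) (u v z : Rg)
    (hiso : ∀ i, Iso (lam i) (u.1 i) (v.1 i) (z.1 i) (psi N κ (h i)) (disc 9))
    (hc : ∀ i, Close (1 / 10000) (u.1 i) (v.1 i) (z.1 i))
    (bu : S 3 (fun _ => disc 9) u) (bv : S 3 (fun _ => disc 9) v) (bz : S 3 (fun _ => disc 9) z)
    (su : S (N + 2) (fun i => Metric.sphere 0 (ρ * h i)) u)
    (sv : S (N + 2) (fun i => Metric.sphere 0 (ρ * h i)) v)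
    (sz : S (N + 2) (fun i => Metric.sphere 0 (ρ * h i)) z) : False := by
  have hH : ∀ i, 0 < ρ * h i := fun i => mul_pos (by linarith) (hh i)
  obtain ⟨gu, gv, gz, C, hC, hT⟩ := taylor (N + 1) (fun i => ρ * h i) lam (fun i => ⟨hH i, hh' i⟩)
    (fun i => by rw [abs_of_pos (hl i).1]; exact (hl i).2) u v z (sm_psi0 κ)
    (fun i => disc 9 ∩ {p | h i ^ 2 < rr p})
    (fun i => (isOpen_disc 9).inter (isOpen_lt continuous_const sm_rr.continuous))
    (fun i => by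
      have a1 := hH i
      have a2 := hh' i
      have a3 := hh i
      have a4 : h i ≤ ρ * h i := le_mul_of_one_le_left a3.le (by linarith)
      refine ⟨show rr _ < 9 from ?_, show _ < rr _ from ?_⟩ <;> simp only [rr] <;> nlinarith)
    (fun i p hp => by
      have := hiso i p hp.1
      rwa [psi_out N κ (hh i) hp.2.le] at this) su sv sz
  have sE : ∀ b b', S 1 (fun _ => disc 9) (ellR u v z b b') := fun b b' => by
    have k : ∀ {f : Rg}, S 3 (fun _ => disc 9) f → ∀ c, S 1 (fun _ => disc 9) (D c f) :=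
      fun hf c => (hf.der c).mono (by norm_num)
    exact (((((bu.der b').der b).mul (((k bv _).mul (k bz _)).sub ((k bz _).mul (k bv _)))).add
      (((bv.der b').der b).mul (((k bz _).mul (k bu _)).sub ((k bu _).mul (k bz _))))).add
      (((bz.der b').der b).mul (((k bu _).mul (k bv _)).sub ((k bu _).mul (k bv _)))))
  choose B1 _ hB1 using fun b b' => (sE b b').unif
  obtain ⟨B2, -, hB2⟩ := (((sE true false).mul (sE true false)).sub
    ((sE false false).mul (sE true true))).unif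
  obtain ⟨B, b0, b1, b2⟩ : ∃ B, 1 ≤ B ∧ (∀ b b', B1 b b' ≤ B) ∧ B2 ≤ B := by
    obtain ⟨M, hM⟩ := (Set.finite_range fun x : Bool × Bool => B1 x.1 x.2).bddAbove
    exact ⟨max (max 1 M) B2, le_sup_of_le_left le_sup_left, fun b b' =>
      le_sup_of_le_left (le_sup_of_le_right (hM ⟨(b, b'), rfl⟩)), le_sup_right⟩
  obtain ⟨Cψ, hCψ, hψ⟩ := psi_bounds
  obtain ⟨T, hTd⟩ : ∃ T, T = 15 * B ^ 2 / (κ / 4) := ⟨_, rfl⟩
  have hT0 : 0 ≤ T := by rw [hTd]; positivity
  have sm : ∀ A : ℝ, ∀ᶠ i in atTop, A * h i < 1 := fun A =>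
    (hlim.const_mul A).eventually (gt_mem_nhds (by simp))
  obtain ⟨i, s1, s2, s3, s4⟩ := ((sm (2 * ρ)).and ((sm (8 * (5 * (T + 1) ^ 4) * ρ)).and
    ((sm (8 * Cψ / κ)).and (sm (C * ρ ^ (N + 1) * (T + 1) ^ 2 + (2 * (5 * (T + 1) ^ 4) +
      24 * (T + 1)) * (ρ ^ (N + 2) * C * (208 * (T + 1) + 8 * (T + 1) ^ 2))))))).exists
  have h0 := hh i
  have h1 : h i ≤ ρ * h i := le_mul_of_one_le_left h0.le (by linarith)
  have h2 : h i ≤ 1 := h1.trans (hh' i)
  have key := rigid_one (N := N) hκ hκ1 h0 h1 (by linarith) (hl i) (u.sm i) (v.sm i) (z.sm i)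
    (gu.sm i) (gv.sm i) (gz.sm i) (hiso i) (hc i) b0 (fun b b' => (ellR u v z b b').sm i)
    (fun b b' l hl p hp => (hB1 b b' i l hl p hp).trans (b1 b b'))
    (fun l hl p hp => le_trans (by simp only [sq]; exact hB2 i l hl p hp) b2) hTd (by linarith)
    (by rw [div_mul_eq_mul_div, div_lt_one hκ] at s3; linarith) (hψ N κ (h i) hN h0 h2)
    (mul_pos hC (pow_pos (hH i) _)) (mul_pos hC (pow_pos (hH i) _)) (hT i).1 (hT i).2
  have hρ0 : 0 < ρ := by linarith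
  have e : C * (ρ * h i) ^ (N + 1) * (T + 1) ^ 2 + (2 * (5 * (T + 1) ^ 4) + 6 * (T + 1) / (h i / 4)) *
      (2 * ((T + 1) * (104 * (C * (ρ * h i) ^ (N + 1 + 1)))) +
        8 * (ρ * h i) * (C * (ρ * h i) ^ (N + 1) * (T + 1) ^ 2)) =
      h i ^ N * ((C * ρ ^ (N + 1) * (T + 1) ^ 2 + (2 * (5 * (T + 1) ^ 4) * h i + 24 * (T + 1)) *
        (ρ ^ (N + 2) * C * (208 * (T + 1) + 8 * (T + 1) ^ 2))) * h i) := by
    field_simp
    ring
  rw [e] at key
  refine absurd key (not_le.2 (mul_lt_of_lt_one_right (pow_pos h0 N) (lt_of_le_of_lt ?_ s4)))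
  have : 2 * (5 * (T + 1) ^ 4) * h i ≤ 2 * (5 * (T + 1) ^ 4) :=
    mul_le_of_le_one_right (by positivity) h2
  exact mul_le_mul_of_nonneg_right (add_le_add le_rfl
    (mul_le_mul_of_nonneg_right (by linarith) (by positivity))) h0.le

end

end Vale.Agent.P229
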