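import Vale.Agent.P229.Boot
import Vale.Agent.P229.Chart
import Vale.Agent.P229.Inv
import Vale.Agent.P229.Pt
import Vale.Agent.P229.Base
import Vale.Agent.P229.Rigid

namespace Vale.Agent.P229

open Set Filter MeasureTheory Topology

noncomputable section

/-! The key non-existence theorem on the unit scale (owner: helper23). -/

namespace Dat

variable {N : ℕ} {ε κ lmin : ℝ} (d : Dat N ε κ lmin)

theorem key_open : ∀ i, IsOpen (d.G0 i) := fun _ => isOpen_Gs _ _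

theorem key_mem (T : Subalgebra ℝ Rg) (hT : ∀ γ ∈ d.Gam, γ ∈ T) :
    d.X ∈ T ∧ d.Y ∈ T ∧ d.U ∈ T ∧ d.Zt ∈ T ∧ d.Q ∈ T ∧ d.Ux ∈ T ∧ d.Uy ∈ T ∧ d.Vx ∈ T ∧
      d.Vy ∈ T ∧ d.Ee ∈ T ∧ cX ∈ T ∧ d.La ∈ T ∧ d.Mu ∈ T ∧ d.P0 ∈ T := by
  refine ⟨hT _ ?_, hT _ ?_, hT _ ?_, hT _ ?_, hT _ ?_, hT _ ?_, hT _ ?_, hT _ ?_, hT _ ?_,
    hT _ ?_, hT _ ?_, hT _ ?_, hT _ ?_, hT _ ?_⟩ <;> simp [Gam]

theorem key_mem2 (T : Subalgebra ℝ Rg) (hT : ∀ γ ∈ d.Gam, γ ∈ T) :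
    d.Pp ∈ T ∧ d.ss ∈ T ∧ d.px ∈ T ∧ d.py ∈ T ∧ d.W2 ∈ T ∧ d.Io ∈ T ∧ d.Ww ∈ T ∧
      d.aa ∈ T ∧ d.gg ∈ T ∧ d.f2 ∈ T ∧ d.f0 ∈ T := by
  obtain ⟨hX, hY, -, -, hQ, hUx, hUy, hVx, hVy, hEe, hc, hLa, hMu, hP0⟩ := d.key_mem T hT
  have h2 : (2 : Rg) ∈ T := ofNat_mem T 2
  have h4 : (4 : Rg) ∈ T := ofNat_mem T 4
  have hPp : d.Pp ∈ T := add_mem hc hP0
  have hss : d.ss ∈ T := add_mem (pow_mem hX 2) (pow_mem hY 2)
  have hpx : d.px ∈ T := sub_mem (T.smul_mem hX _) (T.smul_mem (mul_mem hX hss) _)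
  have hpy : d.py ∈ T := sub_mem (T.smul_mem hY _) (T.smul_mem (mul_mem hY hss) _)
  have hDe : d.De ∈ T := sub_mem (mul_mem hUx hVy) (mul_mem hUy hVx)
  have hW2 : d.W2 ∈ T :=
    add_mem (one_mem T) (mul_mem (pow_mem hLa 2) (add_mem (pow_mem hPp 2) (pow_mem hQ 2)))
  have hIo : d.Io ∈ T := mul_mem (mul_mem hDe hW2) (pow_mem hEe 2)
  have hs1 : d.ss - 1 ∈ T := sub_mem hss (one_mem T)
  refine ⟨hPp, hss, hpx, hpy, hW2, hIo, mul_mem (pow_mem hDe 2) (pow_mem hEe 2),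
    mul_mem (mul_mem (mul_mem hMu hs1) hEe) (pow_mem hW2 2), ?_, ?_, ?_⟩
  · exact mul_mem (mul_mem (mul_mem (mul_mem hMu hEe) (pow_mem hW2 2)) hIo)
      (sub_mem (mul_mem h2 (sub_mem (mul_mem hX hVy) (mul_mem hY hVx)))
        (mul_mem (mul_mem h2 hs1) (sub_mem (mul_mem hpx hVy) (mul_mem hpy hVx))))
  · exact neg_mem (mul_mem (mul_mem (mul_mem (mul_mem (mul_mem (mul_mem h4 hMu) (pow_mem hLa 2))
      hs1) hEe) hW2) hQ)
  · exact mul_mem (mul_mem (mul_mem (mul_mem (mul_mem (mul_mem h4 hMu) (pow_mem hLa 2))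
      hs1) hEe) hW2) hPp

theorem key_closure (T : Subalgebra ℝ Rg) (hZ : ∀ φ, Z d.G0 φ → φ ∈ T)
    (hT : ∀ γ ∈ d.Gam, γ ∈ T) (h1 : D1 d.U ∈ T) (h2 : D2 d.U ∈ T) :
    ∀ γ ∈ d.Gam, ∀ b, D b γ ∈ T := by
  obtain ⟨hX, hY, -, -, hQ, hUx, hUy, hVx, hVy, hEe, hc, hLa, hMu, hP0⟩ := d.key_mem T hT
  obtain ⟨hPp, hss, hpx, hpy, hW2, hIo, hWw, haa, -, -, -⟩ := d.key_mem2 T hT
  have of : ∀ f g : Rg, Z d.G0 (f - g) → g ∈ T → f ∈ T := fun f g h hg => by
    have := add_mem (hZ _ h) hg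
    simpa using this
  have hU : ∀ b, D b d.U ∈ T := fun b => by cases b <;> assumption
  have hcX : ∀ b, D b cX ∈ T := fun b => by cases b <;> simp [one_mem, zero_mem]
  have hcY : ∀ b, D b cY ∈ T := fun b => by cases b <;> simp [one_mem, zero_mem]
  have hDX : ∀ b, D b d.X ∈ T := fun b => of _ _ (d.sys_X b)
    (mul_mem hIo (sub_mem (mul_mem hVy (hU b)) (mul_mem hUy (hcY b))))
  have hDY : ∀ b, D b d.Y ∈ T := fun b => of _ _ (d.sys_Y b)
    (mul_mem hIo (sub_mem (mul_mem hUx (hcY b)) (mul_mem hVx (hU b))))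
  have hDQ : ∀ b, D b d.Q ∈ T := fun b => by
    cases b
    · exact of _ (-D2 d.U) (by rw [sub_neg_eq_add]; exact d.sys_Q1) (neg_mem h2)
    · exact of _ _ d.sys_Q2 (mul_mem haa h1)
  have h2' : (2 : Rg) ∈ T := ofNat_mem T 2
  have hL := pow_mem hLa 2
  intro γ hγ b
  simp only [Gam, mem_insert_iff, mem_singleton_iff] at hγ
  rcases hγ with rfl | rfl | rfl | rfl | rfl | rfl | rfl | rfl | rfl | rfl | rfl | rfl | rfl | rfl
  · exact hDX b
  · exact hDY b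
  · exact hU b
  · exact of _ _ (d.sys_Zt b) (add_mem (mul_mem hPp (hU b)) (mul_mem hQ (hcY b)))
  · exact hDQ b
  · exact of _ _ (d.sys_Ux b) (sub_mem (add_mem
      (mul_mem (sub_mem (mul_mem hpx hUx) (mul_mem hpy hUy)) (hDX b))
      (mul_mem (add_mem (mul_mem hpy hUx) (mul_mem hpx hUy)) (hDY b)))
      (mul_mem (mul_mem (mul_mem hL hPp) hWw)
        (add_mem (mul_mem (hcX b) hUx) (mul_mem (hDQ b) hVx))))
  · exact of _ _ (d.sys_Uy b) (sub_mem (add_mem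
      (mul_mem (add_mem (mul_mem hpy hUx) (mul_mem hpx hUy)) (hDX b))
      (mul_mem (sub_mem (mul_mem hpy hUy) (mul_mem hpx hUx)) (hDY b)))
      (mul_mem (mul_mem (mul_mem hL hPp) hWw)
        (add_mem (mul_mem (hcX b) hUy) (mul_mem (hDQ b) hVy))))
  · exact of _ _ (d.sys_Vx b) (sub_mem (add_mem
      (mul_mem (sub_mem (mul_mem hpx hVx) (mul_mem hpy hVy)) (hDX b))
      (mul_mem (add_mem (mul_mem hpy hVx) (mul_mem hpx hVy)) (hDY b)))
      (mul_mem (mul_mem (mul_mem hL hQ) hWw)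
        (add_mem (mul_mem (hcX b) hUx) (mul_mem (hDQ b) hVx))))
  · exact of _ _ (d.sys_Vy b) (sub_mem (add_mem
      (mul_mem (add_mem (mul_mem hpy hVx) (mul_mem hpx hVy)) (hDX b))
      (mul_mem (sub_mem (mul_mem hpy hVy) (mul_mem hpx hVx)) (hDY b)))
      (mul_mem (mul_mem (mul_mem hL hQ) hWw)
        (add_mem (mul_mem (hcX b) hUy) (mul_mem (hDQ b) hVy))))
  · exact of _ (-(2 * d.Ee * (d.px * D b d.X + d.py * D b d.Y)))
      (by rw [sub_neg_eq_add]; exact d.sys_Ee b)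
      (neg_mem (mul_mem (mul_mem h2' hEe)
        (add_mem (mul_mem hpx (hDX b)) (mul_mem hpy (hDY b)))))
  · exact hcX b
  · simp [La, zero_mem]
  · simp [Mu, zero_mem]
  · simp [P0, zero_mem]

theorem key_eq : Z d.G0 (D2 (D2 d.U) + D1 (d.aa * D1 d.U)) := by
  have h1 := (d.sys_Q1).der d.key_open true
  have h2 := (d.sys_Q2).der d.key_open false
  have := h1.sub h2
  rw [map_add, map_sub, D_comm true false] at this
  convert this using 1
  abel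

theorem key_D_aa (b : Bool) : D b d.aa =
    d.Mu * d.Ee * d.W2 ^ 2 * (2 * d.X * D b d.X + 2 * d.Y * D b d.Y) +
      d.Mu * (d.ss - 1) * d.W2 ^ 2 * D b d.Ee +
      4 * d.Mu * (d.ss - 1) * d.Ee * d.W2 * d.La ^ 2 * (d.Pp * D b cX + d.Q * D b d.Q) := by
  have hW : D b d.W2 = 2 * d.La ^ 2 * (d.Pp * D b cX + d.Q * D b d.Q) := by
    simp only [W2, Pp, La, P0, map_add, D_mul, sq, D_cst, Derivation.map_one_eq_zero]
    ring
  have hs : D b d.ss = 2 * d.X * D b d.X + 2 * d.Y * D b d.Y := by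
    simp only [ss, map_add, D_mul, sq]
    ring
  have hM : D b d.Mu = 0 := D_cst _ _
  simp only [aa, D_mul, sq, map_sub, hW, hs, hM, Derivation.map_one_eq_zero]
  ring

theorem key_eq2 : Z d.G0 (D1 d.aa - (d.gg * D1 d.U + d.f2 * D2 d.U + d.f0)) := by
  have hX := d.sys_X false
  have hY := d.sys_Y false
  have hE := d.sys_Ee false
  have hQ := d.sys_Q1
  have := (((hX.mul_left (d.Mu * d.Ee * d.W2 ^ 2 * (2 * d.X - 2 * (d.ss - 1) * d.px))).add
    (hY.mul_left (d.Mu * d.Ee * d.W2 ^ 2 * (2 * d.Y - 2 * (d.ss - 1) * d.py)))).add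
    (hE.mul_left (d.Mu * (d.ss - 1) * d.W2 ^ 2))).add
    (hQ.mul_left (4 * d.Mu * (d.ss - 1) * d.Ee * d.W2 * d.La ^ 2 * d.Q))
  convert this using 1
  rw [d.key_D_aa false]
  simp only [gg, f2, f0, D1_cX, D1_cY]
  ring

end Dat

/-- The a priori estimate. -/
theorem apriori (J : ℕ) : ∃ ε0 > 0, ∀ {N : ℕ} {ε κ lmin : ℝ}, ε ≤ ε0 → 0 < ε → 0 < κ →
    ∃ h1 > 0, ∀ d : Dat N ε κ lmin, (∀ i, d.h i ≤ h1) →
      (∀ i, 2 ^ (J + 5) * d.h i ≤ 1) ∧
      S J (fun i => Metric.sphere 0 (2 ^ (J + 5) * d.h i)) d.u ∧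
      S J (fun i => Metric.sphere 0 (2 ^ (J + 5) * d.h i)) d.v ∧
      S J (fun i => Metric.sphere 0 (2 ^ (J + 5) * d.h i)) d.z := by
  obtain ⟨εb, hεb, hB⟩ := bootstrap (J + 1)
  obtain ⟨εp, hεp, hP⟩ := pointwise hεb
  refine ⟨min εb εp, lt_min hεb hεp, fun {N ε κ lmin} hε hε0 hκ => ?_⟩
  obtain ⟨η0, hη0, hB⟩ := hB (κ / ε ^ 2) (by positivity)
  refine ⟨min (η0 / 2) (1 / 2 ^ (J + 6)), by positivity, fun d hd => ?_⟩
  have hsm : ∀ i, 2 ^ (J + 5) * d.h i ≤ 1 / 2 := fun i => by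
    have h1 : d.h i ≤ 1 / 2 ^ (J + 6) := (hd i).trans (min_le_right _ _)
    have h2 : (2 : ℝ) ^ (J + 5) * (1 / 2 ^ (J + 6)) = 1 / 2 := by
      rw [pow_succ 2 (J + 5)]; field_simp
    calc _ ≤ (2 : ℝ) ^ (J + 5) * (1 / 2 ^ (J + 6)) := by gcongr
      _ = _ := h2
  have hl : ∀ i, 0 < d.lam i := fun i => d.lmin_pos.trans_le (d.lam_ge i)
  have hS := hB (fun i => 2 * d.h i) (fun i => κ / d.lam i ^ 2) d.Gam d.U d.aa d.gg d.f2 d.f0
    (fun i => ⟨by linarith [d.h_pos i], by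
      have := (hd i).trans (min_le_left _ _); linarith⟩)
    (fun i => ⟨by
      have := hl i
      have := d.lam_le i
      gcongr, by
      have h1 := hl i
      have h2 := d.lam_ge i
      have h3 := d.lmin_pos
      rw [div_le_iff₀ (by positivity)]
      calc κ ≤ ε * lmin ^ 2 := d.kap_le
        _ ≤ εb * d.lam i ^ 2 := by
          have := hε.trans (min_le_left _ _)
          gcongr⟩)
    (by simp [Dat.Gam]) d.base
    (fun T hT => by
      obtain ⟨-, -, -, -, -, -, -, h1, h2, h3, h4⟩ := d.key_mem2 T hT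
      exact ⟨h1, h2, h3, h4⟩)
    (fun T hZ hT h1 h2 => d.key_closure T hZ hT h1 h2) d.key_eq d.key_eq2
    (fun i p hp => hP d (hε.trans (min_le_right _ _)) i p hp)
  refine ⟨fun i => by linarith [hsm i], ?_⟩
  refine d.back (η := fun i => 2 ^ (J + 1 + 2) * (2 * d.h i)) (fun i => ?_) (fun i => ?_) hsm hS
  · have := d.h_pos i
    have h1 : (1 : ℝ) ≤ 2 ^ (J + 1 + 2) := one_le_pow₀ (by norm_num)
    nlinarith
  · apply le_of_eq; ring

theorem key {N : ℕ} (hN : 3 ≤ N) : ∃ ε > 0, ∀ lmin > 0, ∀ κ > 0, κ ≤ ε * lmin ^ 2 → ∀ C0 : ℝ,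
    ∃ h0 > 0, ∀ h, 0 < h → h ≤ h0 → ∀ (lam : ℝ) (u v z : Pl → ℝ), lmin ≤ lam → lam ≤ ε →
      Sm u → Sm v → Sm z → WB 8 C0 (disc 9) u → WB 8 C0 (disc 9) v → WB 8 C0 (disc 9) z →
      Close ε u v z → ¬ Iso lam u v z (psi N κ h) (disc 9) := by
  obtain ⟨ε0, hε0, hA⟩ := apriori (N + 2)
  set ε1 := min ε0 (1 / 10000) with hε1
  have h1pos : 0 < ε1 := by positivity
  have h1le : ε1 ≤ 1 / 10000 := min_le_right _ _
  obtain ⟨εc, hεc, hC⟩ := chart (ε1 := ε1 / 8) (by positivity)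
  refine ⟨min εc ε1, lt_min hεc h1pos, fun lmin hlmin κ hκ hκle C0 => ?_⟩
  obtain ⟨h1, hh1, hA⟩ := hA (N := N) (ε := ε1) (κ := κ) (lmin := lmin) (min_le_left _ _)
    h1pos hκ
  by_contra hcon
  push Not at hcon
  choose h hpos hle lam u v z hlge hlle su sv sz bu bv bz hcl hiso using
    fun i : ℕ => hcon (min h1 (1 / (i + 1))) (by positivity)
  choose io P V p0 sio sP sV hp0 hP0 hV0 hdisc hPV using
    fun i => hC (u i) (v i) (z i) (su i) (sv i) (sz i) ((hcl i).mono (min_le_left _ _))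
  choose X Y sX sY hPX hXP hXY hn1 hn2 using
    fun i => inverse (ε := ε1 / 8) (by positivity) (by linarith) (sP i) (sV i) (hP0 i) (hV0 i)
      (hPV i)
  have hl1 : ∀ i, lam i ≤ ε1 := fun i => (hlle i).trans (min_le_right _ _)
  let d : Dat N ε1 κ lmin :=
    { h := h, lam := lam, p0 := p0, u := ⟨u, su⟩, v := ⟨v, sv⟩, z := ⟨z, sz⟩, io := ⟨io, sio⟩,
      P := ⟨P, sP⟩, V := ⟨V, sV⟩, X := ⟨X, sX⟩, Y := ⟨Y, sY⟩
      eps_pos := h1pos
      eps_le := by linarith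
      lmin_pos := hlmin
      kap_pos := hκ
      kap_le := hκle.trans (by have := min_le_right εc ε1; gcongr)
      h_pos := hpos
      lam_ge := hlge
      lam_le := hl1
      iso := hiso
      close := fun i => (hcl i).mono (min_le_right _ _)
      bu := S_of_WB bu
      bv := S_of_WB bv
      bz := S_of_WB bz
      p0_le := hp0
      io_mul := fun i p hp => (hdisc i p hp).1
      io_le := fun i p hp => (hdisc i p hp).2.1
      P_eq := fun i p hp => (hdisc i p hp).2.2.1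
      V_eq := fun i p hp => (hdisc i p hp).2.2.2
      PV_close := fun i p => by
        obtain ⟨a, b, c, e⟩ := hPV i p
        exact ⟨by linarith, by linarith, by linarith, by linarith⟩
      XY_close := fun i p => by
        obtain ⟨a, b, c, e⟩ := hXY i p
        exact ⟨by linarith, by linarith, by linarith, by linarith⟩
      PV_XY := hPX
      XY_PV := hXP
      PV_norm := fun i p => by
        obtain ⟨a, b⟩ := hn1 i p
        have := mul_nonneg h1pos.le (norm_nonneg p)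
        exact ⟨by linarith, by linarith⟩
      XY_norm := fun i p => by
        obtain ⟨a, b⟩ := hn2 i p
        exact ⟨by linarith, by linarith⟩ }
  obtain ⟨hs, s1, s2, s3⟩ := hA d fun i => (hle i).trans (min_le_left _ _)
  have hlim : Tendsto h atTop (𝓝 0) :=
    squeeze_zero (fun i => (hpos i).le) (fun i => (hle i).trans (min_le_right _ _))
      tendsto_one_div_add_atTop_nhds_zero_nat
  have hκ1 : κ ≤ 1 := by
    have h2 : lmin ≤ 1 := by linarith [hlge 0, hl1 0]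
    have h3 : lmin ^ 2 ≤ 1 := pow_le_one₀ hlmin.le h2
    have := d.kap_le
    nlinarith
  have hρ : (2 : ℝ) ≤ 2 ^ (N + 2 + 5) := by
    calc (2 : ℝ) = 2 ^ 1 := by norm_num
      _ ≤ _ := pow_le_pow_right₀ (by norm_num) (by omega)
  exact rigid hN hκ hκ1 hρ h lam hpos hs hlim
    (fun i => ⟨hlmin.trans_le (hlge i), by linarith [hl1 i]⟩) d.u d.v d.z hiso
    (fun i => (d.close i).mono h1le) (d.bu.mono (by norm_num)) (d.bv.mono (by norm_num))
    (d.bz.mono (by norm_num)) s1 s2 s3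

end

end Vale.Agent.P229
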