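import Vale.Agent.P229.Defs2

namespace Vale.Agent.P229

open Set Filter MeasureTheory Topology

noncomputable section

/-! JOB MP: the maximum principle along two vector fields. -/

theorem mp_crit {φ : Pl → ℝ} {r : ℝ} (hr : 0 ≤ r)
    (hd : ∀ p ∈ Metric.closedBall (0 : Pl) r, DifferentiableAt ℝ φ p) :
    ∃ q ∈ Metric.closedBall (0 : Pl) r, (∀ p ∈ Metric.closedBall (0 : Pl) r, φ p ≤ φ q) ∧
      (q ∈ Metric.sphere (0 : Pl) r ∨ ∀ b, dd b φ q = 0) := by
  obtain ⟨q, hq, hm⟩ := (isCompact_closedBall (0 : Pl) r).exists_isMaxOn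
    (Metric.nonempty_closedBall.2 hr) (fun p hp => (hd p hp).continuousAt.continuousWithinAt)
  refine ⟨q, hq, fun p hp => hm hp, ?_⟩
  rcases (Metric.mem_closedBall.1 hq).eq_or_lt with h | h
  · exact Or.inl h
  · refine Or.inr fun b => ?_
    have hl : IsLocalMax φ q :=
      hm.isLocalMax (Metric.closedBall_mem_nhds_of_mem h)
    unfold dd
    rw [hl.fderiv_eq_zero]
    rfl

theorem mp_bound {H b K : ℝ} {f t : Pl → ℝ} (hH : 0 ≤ H) (hK : 0 ≤ K)
    (hd : ∀ p ∈ Metric.closedBall (0 : Pl) H, DifferentiableAt ℝ f p)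
    (he : ∀ p ∈ Metric.closedBall (0 : Pl) H, 0 < t p * d1 f p + d2 f p + K)
    (hb : ∀ p ∈ Metric.sphere (0 : Pl) H, |f p| ≤ b) :
    ∀ p ∈ Metric.closedBall (0 : Pl) H, |f p| ≤ b + 2 * K * H := by
  have hy : ∀ p ∈ Metric.closedBall (0 : Pl) H, |K * p.2| ≤ K * H := by
    intro p hp
    rw [abs_mul, abs_of_nonneg hK]
    exact mul_le_mul_of_nonneg_left
      ((norm_snd_le p).trans (mem_closedBall_zero_iff.1 hp)) hK
  have hs : ∀ s : ℝ, s = 1 ∨ s = -1 → ∀ p ∈ Metric.closedBall (0 : Pl) H,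
      s * f p ≤ b + 2 * K * H := by
    intro s hs p hp
    have hdφ : ∀ p ∈ Metric.closedBall (0 : Pl) H,
        DifferentiableAt ℝ (fun q : Pl => f q + K * q.2) p := fun p hp =>
      (hd p hp).add (by fun_prop)
    obtain ⟨q, hq, hm, hc⟩ := mp_crit (φ := fun q => s * (f q + K * q.2)) hH
      (fun p hp => (hdφ p hp).const_mul s)
    rcases hc with hc | hc
    · have h1 := hm p hp
      have h2 := abs_le.1 (hb q hc)
      have h3 := abs_le.1 (hy p hp)
      have h4 := abs_le.1 (hy q hq)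
      rcases hs with rfl | rfl <;> linarith [h2.1, h2.2, h3.1, h3.2, h4.1, h4.2]
    · exfalso
      have e : ∀ c, dd c f q + K * cond c 1 0 = 0 := by
        intro c
        have h1 := hc c
        rw [dd_const_mul c s (hdφ q hq), dd_add c (hd q hq) (by fun_prop),
          dd_const_mul c K (by fun_prop), dd_snd] at h1
        rcases hs with rfl | rfl <;> linarith
      have e1 := e false
      have e2 := e true
      have h0 := he q hq
      simp only [cond_false, cond_true, mul_zero, add_zero, mul_one] at e1 e2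
      simp only [d1, d2] at h0
      rw [e1] at h0
      linarith
  intro p hp
  have h1 := hs 1 (Or.inl rfl) p hp
  have h2 := hs (-1) (Or.inr rfl) p hp
  exact abs_le.2 ⟨by linarith, by linarith⟩

theorem mp_dd_rr (b : Bool) (p : Pl) : dd b rr p = 2 * cond b p.2 p.1 := by
  have e : rr = fun q : Pl => q.1 * q.1 + q.2 * q.2 := by
    funext q; unfold rr; ring
  rw [e, dd_add b (by fun_prop) (by fun_prop), dd_mul b (by fun_prop) (by fun_prop),
    dd_mul b (by fun_prop) (by fun_prop), dd_fst, dd_snd]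
  cases b <;> simp <;> ring

theorem maxp {H h' T C1 b err γ0 : ℝ} (pp pm tp tm γ : Pl → ℝ) (hh : 0 < h') (hH : h' ≤ H)
    (hb : 0 < b) (herr : 0 < err) (hC : 0 ≤ C1) (hCH : 8 * C1 * H ≤ 1) (hT : 0 ≤ T)
    (dp : ∀ p ∈ Metric.closedBall (0 : Pl) H, DifferentiableAt ℝ pp p)
    (dm : ∀ p ∈ Metric.closedBall (0 : Pl) H, DifferentiableAt ℝ pm p)
    (ht : ∀ p ∈ Metric.closedBall (0 : Pl) H, |tp p| ≤ T)
    (ep : ∀ p ∈ Metric.closedBall (0 : Pl) H,
      γ p - err - C1 * (|pp p| + |pm p|) ≤ tp p * d1 pp p + d2 pp p)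
    (em : ∀ p ∈ Metric.closedBall (0 : Pl) H,
      γ p - err - C1 * (|pp p| + |pm p|) ≤ tm p * d1 pm p + d2 pm p)
    (hγ : ∀ p ∈ Metric.closedBall (0 : Pl) H, 0 ≤ γ p)
    (hγ0 : ∀ p ∈ Metric.closedBall (0 : Pl) h', γ0 ≤ γ p)
    (bp : ∀ p ∈ Metric.sphere (0 : Pl) H, |pp p| ≤ b ∧ |pm p| ≤ b) :
    γ0 ≤ err + (2 * C1 + 6 * (T + 1) / h') * (2 * b + 8 * H * err) := by
  have hH0 : 0 < H := hh.trans_le hH
  obtain ⟨q0, hq0, hm0⟩ := (isCompact_closedBall (0 : Pl) H).exists_isMaxOn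
    (f := fun p => max |pp p| |pm p|) (Metric.nonempty_closedBall.2 hH0.le)
    (fun p hp => ContinuousAt.continuousWithinAt
      (Tendsto.max (dp p hp).continuousAt.abs (dm p hp).continuousAt.abs))
  obtain ⟨S, hS⟩ : ∃ S, S = max |pp q0| |pm q0| := ⟨_, rfl⟩
  have hS0 : 0 ≤ S := hS ▸ le_max_of_le_left (abs_nonneg _)
  have hle : ∀ p ∈ Metric.closedBall (0 : Pl) H, |pp p| ≤ S ∧ |pm p| ≤ S := fun p hp =>
    max_le_iff.1 (hS ▸ hm0 hp)
  have hK : 0 ≤ 2 * err + 2 * C1 * S := by positivity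
  have hlin : ∀ p ∈ Metric.closedBall (0 : Pl) H, C1 * (|pp p| + |pm p|) ≤ 2 * C1 * S := by
    intro p hp
    have := mul_le_mul_of_nonneg_left (add_le_add (hle p hp).1 (hle p hp).2) hC
    linarith
  have b1 := mp_bound (t := tp) hH0.le hK dp
    (fun p hp => by linarith [ep p hp, hγ p hp, hlin p hp]) (fun p hp => (bp p hp).1) q0 hq0
  have b2 := mp_bound (t := tm) hH0.le hK dm
    (fun p hp => by linarith [em p hp, hγ p hp, hlin p hp]) (fun p hp => (bp p hp).2) q0 hq0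
  have b3 : S ≤ b + 2 * (2 * err + 2 * C1 * S) * H := hS ▸ max_le (hS ▸ b1) (hS ▸ b2)
  obtain ⟨S0, hS0d⟩ : ∃ S0, S0 = 2 * b + 8 * H * err := ⟨_, rfl⟩
  have hSS : S ≤ S0 := by
    have := mul_le_mul_of_nonneg_left hCH hS0
    rw [hS0d]; nlinarith
  have hS0p : 0 < S0 := by rw [hS0d]; positivity
  rw [← hS0d]
  have hsub : Metric.closedBall (0 : Pl) h' ⊆ Metric.closedBall 0 H :=
    Metric.closedBall_subset_closedBall hH
  have hdr : ∀ p, DifferentiableAt ℝ rr p := sm_rr.diff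
  obtain ⟨q, hq, hm, hc⟩ := mp_crit (φ := fun p => pp p - 3 * S0 / h' ^ 2 * rr p) hh.le
    (fun p hp => (dp p (hsub hp)).sub ((hdr p).const_mul _))
  have hqH := hsub hq
  rcases hc with hc | hc
  · exfalso
    have h1 := hm 0 (Metric.mem_closedBall_self hh.le)
    have h2 := abs_le.1 (hle 0 (Metric.mem_closedBall_self hH0.le)).1
    have h3 := abs_le.1 (hle q hqH).1
    have h4 : h' ^ 2 ≤ rr q := by
      rw [← mem_sphere_zero_iff_norm.1 hc]; exact norm_sq_le_rr q
    have h5 : 3 * S0 ≤ 3 * S0 / h' ^ 2 * rr q := by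
      rw [div_mul_eq_mul_div, le_div_iff₀ (by positivity)]
      exact mul_le_mul_of_nonneg_left h4 (by positivity)
    have h6 : rr 0 = 0 := by simp [rr]
    simp only [h6, mul_zero, sub_zero] at h1
    linarith [h2.1, h3.2]
  · have e : ∀ c, dd c pp q = 3 * S0 / h' ^ 2 * (2 * cond c q.2 q.1) := by
      intro c
      have h1 := hc c
      rw [dd_sub c (dp q hqH) ((hdr q).const_mul _), dd_const_mul c _ (hdr q), mp_dd_rr] at h1
      linarith
    have h1 := ep q hqH
    have h2 := hγ0 q hq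
    have h3 := hlin q hqH
    have hn := mem_closedBall_zero_iff.1 hq
    have hx : |q.1| ≤ h' := (norm_fst_le q).trans hn
    have hy : |q.2| ≤ h' := (norm_snd_le q).trans hn
    have h4 : tp q * q.1 + q.2 ≤ (T + 1) * h' := by
      have : |tp q * q.1| ≤ T * h' := by
        rw [abs_mul]; exact mul_le_mul (ht q hqH) hx (abs_nonneg _) hT
      linarith [le_abs_self (tp q * q.1), le_abs_self q.2]
    have h5 : tp q * d1 pp q + d2 pp q ≤ 6 * (T + 1) / h' * S0 := by
      simp only [d1, d2, e, cond_false, cond_true]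
      calc _ = 6 * S0 / h' ^ 2 * (tp q * q.1 + q.2) := by ring
        _ ≤ 6 * S0 / h' ^ 2 * ((T + 1) * h') :=
          mul_le_mul_of_nonneg_left h4 (by positivity)
        _ = _ := by field_simp
    have h6 := mul_le_mul_of_nonneg_left hSS hC
    nlinarith

end

end Vale.Agent.P229
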