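import Vale.Agent.P229.Ineq

namespace Vale.Agent.P229

open Set Filter MeasureTheory Topology

noncomputable section

/-! JOB Mult: construction of the multiplier functions. -/

/-- The truncated identity. -/
theorem exists_B {η : ℝ} (hη : 0 < η) : ∃ B B' : ℝ → ℝ, ContDiff ℝ (⊤ : ℕ∞) B ∧
    (∀ t, HasDerivAt B (B' t) t) ∧ (∀ t, BF η t (B t) (B' t)) ∧ ∀ t, |t| ≤ η → B' t = 0 := by
  set g : ℝ → ℝ := fun s => Real.smoothTransition (s ^ 2 / η ^ 2 - 1) with hg
  have hgs : ContDiff ℝ (⊤ : ℕ∞) g := by rw [hg]; fun_prop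
  have hgc : Continuous g := hgs.continuous
  have g0 : ∀ s, 0 ≤ g s := fun s => Real.smoothTransition.nonneg _
  have g1 : ∀ s, g s ≤ 1 := fun s => Real.smoothTransition.le_one _
  have gone : ∀ s, 2 * η ≤ |s| → g s = 1 := fun s hs => by
    apply Real.smoothTransition.one_of_one_le
    have h1 : (2 * η) ^ 2 ≤ s ^ 2 := by
      rw [← sq_abs s]; exact pow_le_pow_left₀ (by positivity) hs 2
    have h2 : 2 ≤ s ^ 2 / η ^ 2 := by
      rw [le_div_iff₀ (by positivity)]; nlinarith [sq_nonneg η]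
    linarith
  have gmono : ∀ s t, 0 ≤ s → s ≤ t → g s ≤ g t := fun s t hs hst => by
    apply Real.smoothTransition.monotone
    have : s ^ 2 ≤ t ^ 2 := pow_le_pow_left₀ hs hst 2
    gcongr
  have geven : ∀ s, g (-s) = g s := fun s => by simp [hg]
  set B : ℝ → ℝ := fun t => ∫ s in (0 : ℝ)..t, g s with hB
  have hd : ∀ t, HasDerivAt B (g t) t := fun t => (hgc.integral_hasStrictDerivAt 0 t).hasDerivAt
  have hodd : ∀ t, B (-t) = -B t := fun t => by
    have := intervalIntegral.integral_comp_neg (a := 0) (b := t) g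
    simp only [geven, neg_zero] at this
    simp only [hB]
    rw [this, intervalIntegral.integral_symm]
  have hpos : ∀ t, 0 ≤ t → 0 ≤ B t ∧ B t ≤ t * g t ∧ t - B t ≤ 2 * η := fun t ht => by
    have p1 : ∀ t, 0 ≤ t → 0 ≤ B t := fun t ht =>
      intervalIntegral.integral_nonneg ht fun s _ => g0 s
    refine ⟨p1 t ht, ?_, ?_⟩
    · have := intervalIntegral.integral_mono_on ht (hgc.intervalIntegrable 0 t)
        (intervalIntegrable_const (c := g t) (μ := volume)) fun s hs => gmono s t hs.1 hs.2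
      simpa using this
    · rcases le_total t (2 * η) with h | h
      · linarith [p1 t ht]
      · have e1 := intervalIntegral.integral_add_adjacent_intervals (μ := volume)
          (hgc.intervalIntegrable 0 (2 * η)) (hgc.intervalIntegrable (2 * η) t)
        have e2 : ∫ s in (2 * η)..t, g s = ∫ s in (2 * η)..t, (1 : ℝ) := by
          apply intervalIntegral.integral_congr
          intro s hs
          rw [uIcc_of_le h] at hs
          exact gone s (hs.1.trans (le_abs_self s))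
        have e3 := p1 (2 * η) (by positivity)
        simp only [intervalIntegral.integral_const, smul_eq_mul, mul_one] at e2
        simp only [hB] at e3 ⊢
        linarith
  refine ⟨B, g, ?_, hd, fun t => ?_, fun t ht => ?_⟩
  · rw [contDiff_infty_iff_deriv]
    refine ⟨fun t => (hd t).differentiableAt, ?_⟩
    have : deriv B = g := funext fun t => (hd t).deriv
    rwa [this]
  · rcases le_total 0 t with ht | ht
    · obtain ⟨a, b, c⟩ := hpos t ht
      have := mul_le_mul_of_nonneg_left (g1 t) ht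
      exact ⟨g0 t, g1 t, gone t, mul_nonneg ht a, by rwa [abs_of_nonneg a, abs_of_nonneg ht],
        by rw [abs_le]; constructor <;> linarith⟩
    · obtain ⟨a, b, c⟩ := hpos (-t) (by linarith)
      rw [hodd] at a b c
      rw [geven] at b
      have := mul_le_mul_of_nonneg_left (g1 t) (show 0 ≤ -t by linarith)
      exact ⟨g0 t, g1 t, gone t, by nlinarith,
        by rwa [abs_of_nonpos (by linarith), abs_of_nonpos ht],
        by rw [abs_le]; constructor <;> linarith⟩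
  · apply Real.smoothTransition.zero_of_nonpos
    have h1 : t ^ 2 ≤ η ^ 2 := by
      rw [← sq_abs t]; exact pow_le_pow_left₀ (abs_nonneg _) ht 2
    have h2 : t ^ 2 / η ^ 2 ≤ 1 := by rw [div_le_one (by positivity)]; exact h1
    linarith

/-- The two cutoffs. -/
theorem mult_cut {σ' σ : ℝ} (h2 : 2 ≤ σ') (h : σ' < σ) : ∃ (ω ρ : Pl → ℝ) (K : ℝ), 1 ≤ K ∧
    Sm ω ∧ Sm ρ ∧ (∀ p, σ ≤ rr p → ω p = 0 ∧ ρ p = 0) ∧ (∀ p, rr p ≤ σ' → ω p = 1) ∧
    ∀ p, rr p ≤ 3 → CF K (rr p) (ω p) (d1 ω p) (d2 ω p) (ρ p) (d1 ρ p) (d2 ρ p) := by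
  set ω : Pl → ℝ := fun p => Real.smoothTransition ((σ - rr p) / (σ - σ')) with hω
  set χ : Pl → ℝ := fun p => Real.smoothTransition (2000 * (rr p - 1) - 1) with hχ
  have sω : Sm ω := by rw [hω]; unfold Sm rr; fun_prop
  have sχ : Sm χ := by rw [hχ]; unfold Sm rr; fun_prop
  have sρ : Sm (fun p => ω p * χ p) := sω.mul sχ
  have hd : 0 < σ - σ' := by linarith
  have w1 : ∀ p, rr p ≤ σ' → ω p = 1 := fun p hp =>
    Real.smoothTransition.one_of_one_le (by rw [le_div_iff₀ hd]; linarith)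
  have w0 : ∀ p, σ ≤ rr p → ω p = 0 := fun p hp =>
    Real.smoothTransition.zero_of_nonpos (div_nonpos_of_nonpos_of_nonneg (by linarith) hd.le)
  have bd : ∀ f : Pl → ℝ, Sm f → ∃ K, ∀ p, rr p ≤ 3 → |f p| ≤ K := fun f hf => by
    obtain ⟨K, hK⟩ := (isCompact_closedBall (0 : Pl) 3).exists_bound_of_continuousOn
      hf.continuous.continuousOn
    exact ⟨K, fun p hp => hK p (disc_subset (σ := 9) le_rfl (show rr p < 9 by linarith))⟩
  obtain ⟨K1, hK1⟩ := bd _ (sω.dd false)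
  obtain ⟨K2, hK2⟩ := bd _ (sω.dd true)
  obtain ⟨K3, hK3⟩ := bd _ (sρ.dd false)
  obtain ⟨K4, hK4⟩ := bd _ (sρ.dd true)
  have a0 : ∀ p, 0 ≤ ω p := fun p => Real.smoothTransition.nonneg _
  have a1 : ∀ p, ω p ≤ 1 := fun p => Real.smoothTransition.le_one _
  have c0 : ∀ p, 0 ≤ χ p := fun p => Real.smoothTransition.nonneg _
  have c1 : ∀ p, χ p ≤ 1 := fun p => Real.smoothTransition.le_one _
  refine ⟨ω, fun p => ω p * χ p, max 1 (max (max K1 K2) (max K3 K4)), le_max_left _ _, sω, sρ,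
    fun p hp => ⟨w0 p hp, by simp [w0 p hp]⟩, w1, fun p hp => ?_⟩
  refine ⟨a0 p, a1 p, fun hs => ?_, (hK1 p hp).trans (by simp), (hK2 p hp).trans (by simp),
    mul_nonneg (a0 p) (c0 p), mul_le_one₀ (a1 p) (c0 p) (c1 p), (hK3 p hp).trans (by simp),
    (hK4 p hp).trans (by simp), fun hs => ?_, fun hs => ?_⟩
  · have e : ∀ b, dd b ω p = 0 := fun b => by
      rw [dd_congr_on (isOpen_disc 2) (g := fun _ => 1)
        (fun q hq => w1 q (le_trans (le_of_lt hq) h2)) b p hs, dd_const]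
    exact ⟨w1 p (by linarith), e false, e true⟩
  · have : χ p = 0 := Real.smoothTransition.zero_of_nonpos (by linarith)
    simp [this]
  · have : χ p = 1 := Real.smoothTransition.one_of_one_le (by linarith)
    simp [this]

theorem mult_dd {B B' : ℝ → ℝ} (hd : ∀ t, HasDerivAt B (B' t) t)
    {ω ρ : Pl → ℝ} (hω : Sm ω) (hρ : Sm ρ) (Aa : ℝ) (p : Pl) (k : Bool) :
    dd k (fun q => ω q ^ 3 * b0 q.1 (B q.1) (B q.2)) p =
        3 * ω p ^ 2 * dd k ω p * b0 p.1 (B p.1) (B p.2) +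
          ω p ^ 3 * cond k (b0V p.1 (B p.1) (B p.2) (B' p.2)) (b0P (B' p.1) (B p.2)) ∧
      dd k (fun q => ω q ^ 3 * c0 (B q.2)) p =
        3 * ω p ^ 2 * dd k ω p * c0 (B p.2) + ω p ^ 3 * cond k (c0V (B p.2) (B' p.2)) 0 ∧
      dd k (fun q => Aa * ρ q ^ 2) p = 2 * Aa * ρ p * dd k ρ p := by
  have f1 : HasFDerivAt (fun q : Pl => q.1) (ContinuousLinearMap.fst ℝ ℝ ℝ) p := hasFDerivAt_fst
  have f2 : HasFDerivAt (fun q : Pl => q.2) (ContinuousLinearMap.snd ℝ ℝ ℝ) p := hasFDerivAt_snd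
  have g1 := (hd p.1).comp_hasFDerivAt p f1
  have g2 := (hd p.2).comp_hasFDerivAt p f2
  have w := (hω.diff p).hasFDerivAt
  have r := (hρ.diff p).hasFDerivAt
  have e1 := ((w.pow 3).mul ((g1.const_mul 50).add (((g2.pow 2).const_mul 12).mul
    (f1.sub g1)))).fderiv
  have e2 := ((w.pow 3).mul (g2.neg.add ((g2.pow 3).const_mul 4))).fderiv
  have e3 := ((r.pow 2).const_mul Aa).fderiv
  refine ⟨?_, ?_, ?_⟩
  · unfold dd
    erw [e1]
    cases k <;> simp [ev, b0, b0P, b0V] <;> ring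
  · unfold dd
    erw [e2]
    cases k <;> simp [ev, c0, c0V] <;> ring
  · unfold dd
    erw [e3]
    simp
    ring

theorem multiplier (M : ℝ) (hM : 7 ≤ M) : ∃ ε > 0, ∀ μ0 > 0, ∃ η0 > 0, ∀ σ' σ : ℝ,
    2 ≤ σ' → σ' < σ → σ ≤ 3 → ∃ k0 > 0, ∃ C, 0 ≤ C ∧ ∀ η, 0 < η → η ≤ η0 →
      ∃ b c al : Pl → ℝ, Sm b ∧ Sm c ∧ Sm al ∧
        (∀ p, p ∉ Gs η σ → b p = 0 ∧ c p = 0 ∧ al p = 0 ∧
          ∀ k, dd k b p = 0 ∧ dd k c p = 0 ∧ dd k al p = 0) ∧
        ∀ p ∈ Gs η σ, ∀ μ m a a1 a2 e1 e2 U U1 U2 f : ℝ,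
          Co ε μ0 M μ m p.1 p.2 a a1 a2 e1 e2 →
          0 ≤ form (b p) (d1 b p) (d2 b p) (c p) (d1 c p) (d2 c p) (al p) (d1 al p) (d2 al p)
              a a1 a2 e1 e2 U U1 U2 f + C * (f ^ 2 + U ^ 2) ∧
          (p ∈ Gs (2 * η) σ' → k0 * (U1 ^ 2 + U2 ^ 2) ≤
            form (b p) (d1 b p) (d2 b p) (c p) (d1 c p) (d2 c p) (al p) (d1 al p) (d2 al p)
              a a1 a2 e1 e2 U U1 U2 f + C * (f ^ 2 + U ^ 2)) := by
  obtain ⟨ε, hε, hI⟩ := ineq M hM
  refine ⟨ε, hε, fun μ0 hμ0 => ?_⟩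
  obtain ⟨η0, hη0, hI⟩ := hI μ0 hμ0
  refine ⟨min η0 (1 / 2), by positivity, fun σ' σ h2 hσ h3 => ?_⟩
  obtain ⟨ω, ρ, K, hK, sω, sρ, hout, hin, hcf⟩ := mult_cut h2 hσ
  obtain ⟨Aa, hAa, k0, hk0, C, hI⟩ := hI K hK
  refine ⟨k0, hk0, max C 0, le_max_right _ _, fun η hη hη1 => ?_⟩
  obtain ⟨B, B', sB, hd, hBF, hB0⟩ := exists_B hη
  refine ⟨fun q => ω q ^ 3 * b0 q.1 (B q.1) (B q.2), fun q => ω q ^ 3 * c0 (B q.2),
    fun q => Aa * ρ q ^ 2, ?_, ?_, ?_, fun p hp => ?_, fun p hp => ?_⟩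
  · unfold Sm b0 at *; fun_prop
  · unfold Sm c0 at *; fun_prop
  · unfold Sm at *; fun_prop
  · simp only [(mult_dd hd sω sρ Aa p _).1, (mult_dd hd sω sρ Aa p _).2.1,
      (mult_dd hd sω sρ Aa p _).2.2]
    by_cases h1 : σ ≤ rr p
    · simp [(hout p h1).1, (hout p h1).2]
    · have hn : ‖p‖ ≤ η := by
        by_contra hc
        exact hp ⟨not_le.1 hc, not_le.1 h1⟩
      have n1 : |p.1| ≤ η := (norm_fst_le p).trans hn
      have n2 : |p.2| ≤ η := (norm_snd_le p).trans hn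
      have z1 := hB0 _ n1
      have z2 := hB0 _ n2
      have y1 : B p.1 = 0 := by simpa [z1] using (hBF p.1).le
      have y2 : B p.2 = 0 := by simpa [z2] using (hBF p.2).le
      have hr : rr p ≤ 1 := by
        have := rr_le_norm_sq p
        have h5 : ‖p‖ ≤ 1 / 2 := hn.trans (hη1.trans (min_le_right _ _))
        nlinarith [norm_nonneg p]
      have x : ρ p = 0 := (hcf p (by linarith)).rho_in (by linarith)
      simp [z1, z2, y1, y2, x, b0, c0, b0P, b0V, c0V]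
  · intro μ m a a1 a2 e1 e2 U U1 U2 f hco
    have hr : rr p ≤ 3 := hp.2.le.trans h3
    have key := hI η p.1 p.2 (B p.1) (B' p.1) (B p.2) (B' p.2) (ω p) (d1 ω p) (d2 ω p) (ρ p)
      (d1 ρ p) (d2 ρ p) μ m a a1 a2 e1 e2 U U1 U2 f hη (hη1.trans (min_le_left _ _)) hr
      (hBF _) (hBF _) (hcf p hr) hco
    simp only [(mult_dd hd sω sρ Aa p _).1, (mult_dd hd sω sρ Aa p _).2.1,
      (mult_dd hd sω sρ Aa p _).2.2, cond_true, cond_false, mul_zero, add_zero]
    have hC : C * (f ^ 2 + U ^ 2) ≤ max C 0 * (f ^ 2 + U ^ 2) :=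
      mul_le_mul_of_nonneg_right (le_max_left _ _) (by positivity)
    have b1 := (hBF p.1).nonneg
    have b2 := (hBF p.2).nonneg
    have w0 := (hcf p hr).om_nonneg
    refine ⟨?_, fun hp' => ?_⟩
    · have : 0 ≤ k0 * (ω p ^ 3 * (B' p.1 + B' p.2)) * (U1 ^ 2 + U2 ^ 2) := by positivity
      linarith
    · have hw : 1 ≤ B' p.1 + B' p.2 := by
        have := hp'.1
        rw [Prod.norm_def, lt_max_iff] at this
        rcases this with h | h
        · linarith [(hBF p.1).eq_one h.le]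
        · linarith [(hBF p.2).eq_one h.le]
      rw [hin p hp'.2.le] at key ⊢
      have : k0 * 1 * (U1 ^ 2 + U2 ^ 2) ≤ k0 * (1 ^ 3 * (B' p.1 + B' p.2)) * (U1 ^ 2 + U2 ^ 2) := by
        gcongr; linarith
      linarith

end

end Vale.Agent.P229
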