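import Vale.Agent.P229.Gauss

namespace Vale.Agent.P229

open Set Filter MeasureTheory Topology

noncomputable section

/-! JOB Norm: rotation, rescaling and choice of frame at a flat point. -/

/-- All words of length exactly `k` are bounded by `C`. -/
def NormWL (k : ℕ) (C : ℝ) (f : Pl → ℝ) : Prop :=
  ∀ l : List Bool, l.length = k → ∀ p, |wd l f p| ≤ C

theorem norm_sm_lin {f g : Pl → ℝ} (hf : Sm f) (hg : Sm g) (α β : ℝ) :
    Sm fun p => α * f p + β * g p := (contDiff_const.mul hf).add (contDiff_const.mul hg)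

theorem norm_dd_lin {f g : Pl → ℝ} (hf : Sm f) (hg : Sm g) (α β : ℝ) (b : Bool) :
    dd b (fun p => α * f p + β * g p) = fun p => α * dd b f p + β * dd b g p := funext fun p => by
  rw [dd_add b ((hf.diff p).const_mul _) ((hg.diff p).const_mul _), dd_const_mul b _ (hf.diff p),
    dd_const_mul b _ (hg.diff p)]

theorem norm_wd_lin {f g : Pl → ℝ} (hf : Sm f) (hg : Sm g) (α β : ℝ) (l : List Bool) :
    wd l (fun p => α * f p + β * g p) = fun p => α * wd l f p + β * wd l g p := by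
  induction l generalizing f g with
  | nil => rfl
  | cons b l ih => rw [wd, norm_dd_lin hf hg, ih (hf.dd b) (hg.dd b)]; rfl

theorem NormWL.lin {k : ℕ} {C C' α β a b : ℝ} {f g : Pl → ℝ} (hf : Sm f) (hg : Sm g)
    (h : NormWL k C f) (h' : NormWL k C' g) (ha : |α| ≤ a) (hb : |β| ≤ b) :
    NormWL k (a * C + b * C') fun p => α * f p + β * g p := fun l hl p => by
  rw [norm_wd_lin hf hg]
  refine (abs_add_le _ _).trans ?_
  rw [abs_mul, abs_mul]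
  exact add_le_add (mul_le_mul ha (h l hl p) (abs_nonneg _) ((abs_nonneg _).trans ha))
    (mul_le_mul hb (h' l hl p) (abs_nonneg _) ((abs_nonneg _).trans hb))

/-- The similarity. -/
def normA (c : Pl) (r cs sn : ℝ) (p : Pl) : Pl :=
  (c.1 + r * (cs * p.1 - sn * p.2), c.2 + r * (sn * p.1 + cs * p.2))

theorem norm_sm_A {f : Pl → ℝ} (hf : Sm f) (c : Pl) (r cs sn : ℝ) :
    Sm fun p => f (normA c r cs sn p) := hf.comp (by unfold normA; fun_prop)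

theorem norm_dd_A {f : Pl → ℝ} (hf : Sm f) (c : Pl) (r cs sn : ℝ) (b : Bool) :
    dd b (fun p => f (normA c r cs sn p)) = fun p =>
      (r * cond b (-sn) cs) * d1 f (normA c r cs sn p) +
        (r * cond b cs sn) * d2 f (normA c r cs sn p) := funext fun p => by
  have key : ∀ x α β : ℝ, dd b (fun q : Pl => x + r * (α * q.1 + β * q.2)) p = r * cond b β α :=
    fun x α β => by
    have h1 : DifferentiableAt ℝ (fun q : Pl => α * q.1 + β * q.2) p := by fun_prop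
    rw [dd_add b (differentiableAt_const _) (h1.const_mul _), dd_const, dd_const_mul b _ h1,
      norm_dd_lin contDiff_fst contDiff_snd]
    beta_reduce
    rw [dd_fst, dd_snd]
    cases b <;> simp
  have e : (fun q : Pl => c.1 + r * (cs * q.1 - sn * q.2)) =
      fun q : Pl => c.1 + r * (cs * q.1 + -sn * q.2) := funext fun q => by ring
  unfold normA
  rw [dd_comp2 b (hf.diff _) (by fun_prop) (by fun_prop), e, key, key]
  ring

theorem NormWL.comp {k : ℕ} {C r cs sn : ℝ} (c : Pl) (hr : 0 < r) (h1 : |cs| ≤ 1) (h2 : |sn| ≤ 1)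
    {f : Pl → ℝ} (hf : Sm f) (h : NormWL k C f) :
    NormWL k ((2 * r) ^ k * C) fun p => f (normA c r cs sn p) := by
  induction k generalizing f C with
  | zero =>
    intro l hl p
    obtain rfl := List.length_eq_zero_iff.mp hl
    rw [pow_zero, one_mul]
    exact h [] rfl _
  | succ k ih =>
    rintro (_ | ⟨b, l⟩) hl p
    · simp at hl
    have hd : ∀ b, NormWL k C (dd b f) := fun b l hl p => h (b :: l) (by simp [hl]) p
    have e : ∀ x : ℝ, |x| ≤ 1 → |r * x| ≤ r := fun x hx => by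
      rw [abs_mul, abs_of_pos hr]; exact mul_le_of_le_one_right hr.le hx
    have := ih (norm_sm_lin (hf.dd false) (hf.dd true) (r * cond b (-sn) cs) (r * cond b cs sn))
      (NormWL.lin (hf.dd false) (hf.dd true) (hd false) (hd true)
        (e _ (by cases b <;> simpa)) (e _ (by cases b <;> simpa))) l (by simpa using hl) p
    rw [wd, norm_dd_A hf]
    exact this.trans_eq (by ring)

theorem norm_mv {f : Pl → ℝ} (hf : Sm f) {s : Set Pl} (hs : Convex ℝ s) {B : ℝ}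
    (h : ∀ b, ∀ p ∈ s, |dd b f p| ≤ B) {p q : Pl} (hp : p ∈ s) (hq : q ∈ s) :
    |f p - f q| ≤ 2 * B * ‖p - q‖ := by
  refine hs.norm_image_sub_le_of_norm_fderiv_le (fun x _ => hf.diff x) (fun x hx => ?_) hq hp
  have hB : 0 ≤ B := (abs_nonneg _).trans (h false x hx)
  refine ContinuousLinearMap.opNorm_le_bound _ (by positivity) fun w => ?_
  rw [fderiv_apply_eq, Real.norm_eq_abs]
  refine (abs_add_le _ _).trans ?_
  rw [abs_mul, abs_mul]
  have h1 := mul_le_mul (norm_fst_le w) (h false x hx) (abs_nonneg _) (norm_nonneg _)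
  have h2 := mul_le_mul (norm_snd_le w) (h true x hx) (abs_nonneg _) (norm_nonneg _)
  rw [Real.norm_eq_abs] at h1 h2
  linarith

theorem norm_angle {L M N : ℝ} (h : L * N = M ^ 2) (ht : L + N ≠ 0) : ∃ cs sn : ℝ,
    cs ^ 2 + sn ^ 2 = 1 ∧ L = (L + N) * cs ^ 2 ∧ M = (L + N) * (cs * sn) ∧ N = (L + N) * sn ^ 2 := by
  have h1 : 0 ≤ L / (L + N) := by
    rw [show L / (L + N) = (L ^ 2 + M ^ 2) / (L + N) ^ 2 by field_simp; linear_combination h]
    positivity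
  have h2 : 0 ≤ N / (L + N) := by
    rw [show N / (L + N) = (N ^ 2 + M ^ 2) / (L + N) ^ 2 by field_simp; linear_combination h]
    positivity
  have h3 : (√(L / (L + N)) * √(N / (L + N))) ^ 2 = (M / (L + N)) ^ 2 := by
    rw [mul_pow, Real.sq_sqrt h1, Real.sq_sqrt h2]; field_simp; linear_combination h
  have h4 : L / (L + N) + N / (L + N) = 1 := by field_simp
  have h5 : L = (L + N) * (L / (L + N)) := by field_simp
  have h6 : N = (L + N) * (N / (L + N)) := by field_simp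
  have h7 : M = (L + N) * (M / (L + N)) := by field_simp
  rcases sq_eq_sq_iff_eq_or_eq_neg.mp h3 with e | e
  · exact ⟨√(L / (L + N)), √(N / (L + N)), by rwa [Real.sq_sqrt h1, Real.sq_sqrt h2],
      by rwa [Real.sq_sqrt h1], by rwa [e], by rwa [Real.sq_sqrt h2]⟩
  · exact ⟨√(L / (L + N)), -√(N / (L + N)), by rwa [neg_sq, Real.sq_sqrt h1, Real.sq_sqrt h2],
      by rwa [Real.sq_sqrt h1], by rwa [mul_neg, e, neg_neg], by rwa [neg_sq, Real.sq_sqrt h2]⟩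

theorem norm_frame {cs sn x1 x2 x3 y1 y2 y3 : ℝ} (hc : cs ^ 2 + sn ^ 2 = 1)
    (hx : x1 ^ 2 + x2 ^ 2 + 1 ^ 2 * x3 ^ 2 = 1) (hxy : x1 * y1 + x2 * y2 + 1 ^ 2 * (x3 * y3) = 0)
    (hy : y1 ^ 2 + y2 ^ 2 + 1 ^ 2 * y3 ^ 2 = 1) (a1 a2 a3 b1 b2 b3 : ℝ) :
    ((cs * x1 + sn * y1) * a1 + (cs * x2 + sn * y2) * a2 + (cs * x3 + sn * y3) * a3) *
      ((cs * x1 + sn * y1) * b1 + (cs * x2 + sn * y2) * b2 + (cs * x3 + sn * y3) * b3) +
    ((cs * y1 - sn * x1) * a1 + (cs * y2 - sn * x2) * a2 + (cs * y3 - sn * x3) * a3) *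
      ((cs * y1 - sn * x1) * b1 + (cs * y2 - sn * x2) * b2 + (cs * y3 - sn * x3) * b3) +
    ((x2 * y3 - x3 * y2) * a1 + (x3 * y1 - x1 * y3) * a2 + (x1 * y2 - y1 * x2) * a3) *
      ((x2 * y3 - x3 * y2) * b1 + (x3 * y1 - x1 * y3) * b2 + (x1 * y2 - y1 * x2) * b3) =
    a1 * b1 + a2 * b2 + a3 * b3 := by
  obtain ⟨e1, e2, e3⟩ := gauss_vec (a1 := a1) (a2 := a2) (a3 := a3) hx hxy hy rfl rfl
  linear_combination (-b1) * e1 - b2 * e2 - b3 * e3 +
    ((a1 * x1 + a2 * x2 + a3 * x3) * (b1 * x1 + b2 * x2 + b3 * x3) +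
      (a1 * y1 + a2 * y2 + a3 * y3) * (b1 * y1 + b2 * y2 + b3 * y3)) * hc

theorem norm_unit {a b c : ℝ} (h : a ^ 2 + b ^ 2 + c ^ 2 = 1) : |a| ≤ 1 ∧ |b| ≤ 1 ∧ |c| ≤ 1 :=
  ⟨(sq_le_one_iff_abs_le_one a).mp (by nlinarith [sq_nonneg b, sq_nonneg c]),
    (sq_le_one_iff_abs_le_one b).mp (by nlinarith [sq_nonneg a, sq_nonneg c]),
    (sq_le_one_iff_abs_le_one c).mp (by nlinarith [sq_nonneg a, sq_nonneg b])⟩

/-- A component of the map. -/
def normC (F1 F2 F3 : Pl → ℝ) (s e1 e2 e3 : ℝ) (p : Pl) : ℝ :=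
  s * (1 * (e1 * F1 p + e2 * F2 p) + e3 * F3 p) + 0 * F1 p

section comp

variable {F1 F2 F3 : Pl → ℝ} (h1 : Sm F1) (h2 : Sm F2) (h3 : Sm F3) (s e1 e2 e3 : ℝ)
include h1 h2 h3

theorem norm_sm_C : Sm (normC F1 F2 F3 s e1 e2 e3) :=
  norm_sm_lin (norm_sm_lin (norm_sm_lin h1 h2 _ _) h3 _ _) h1 _ _

theorem norm_dd_C (b : Bool) : dd b (normC F1 F2 F3 s e1 e2 e3) =
    normC (dd b F1) (dd b F2) (dd b F3) s e1 e2 e3 := by
  unfold normC
  rw [norm_dd_lin (norm_sm_lin (norm_sm_lin h1 h2 _ _) h3 _ _) h1,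
    norm_dd_lin (norm_sm_lin h1 h2 _ _) h3, norm_dd_lin h1 h2]

variable {s e1 e2 e3} in
theorem norm_WL_C {M a : ℝ} (b1 : WB 8 M univ F1) (b2 : WB 8 M univ F2) (b3 : WB 8 M univ F3)
    (he : e1 ^ 2 + e2 ^ 2 + e3 ^ 2 = 1) (hs : |s| ≤ a) {k : ℕ} (hk : k ≤ 8) :
    NormWL k (a * (3 * M)) (normC F1 F2 F3 s e1 e2 e3) := by
  have w : ∀ {F}, WB 8 M univ F → NormWL k M F := fun h l hl p => h l (hl ▸ hk) p trivial
  obtain ⟨a1, a2, a3⟩ := norm_unit he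
  intro l hl p
  exact (NormWL.lin (norm_sm_lin (norm_sm_lin h1 h2 _ _) h3 _ _) h1 (NormWL.lin
    (norm_sm_lin h1 h2 _ _) h3 (NormWL.lin h1 h2 (w b1) (w b2) a1 a2) (w b3) abs_one.le a3) (w b1) hs
    abs_zero.le l hl p).trans_eq (by ring)

theorem norm_d_CA (c : Pl) (r cs sn : ℝ) (b : Bool) (p : Pl) :
    dd b (fun p => normC F1 F2 F3 s e1 e2 e3 (normA c r cs sn p)) p = s * r *
      (e1 * (cond b (-sn) cs * d1 F1 (normA c r cs sn p) + cond b cs sn * d2 F1 (normA c r cs sn p)) +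
      e2 * (cond b (-sn) cs * d1 F2 (normA c r cs sn p) + cond b cs sn * d2 F2 (normA c r cs sn p)) +
      e3 * (cond b (-sn) cs * d1 F3 (normA c r cs sn p) +
        cond b cs sn * d2 F3 (normA c r cs sn p))) := by
  rw [norm_dd_A (norm_sm_C h1 h2 h3 _ _ _ _), d1, d2, norm_dd_C h1 h2 h3, norm_dd_C h1 h2 h3]
  simp only [normC]
  ring

end comp

theorem norm_dd2_A {f : Pl → ℝ} (hf : Sm f) (c : Pl) (r cs sn : ℝ) (b b' : Bool) (p : Pl) :
    dd b (dd b' fun p => f (normA c r cs sn p)) p = r ^ 2 *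
      (cond b (-sn) cs * cond b' (-sn) cs * d1 (d1 f) (normA c r cs sn p) +
      (cond b (-sn) cs * cond b' cs sn + cond b cs sn * cond b' (-sn) cs) *
        d2 (d1 f) (normA c r cs sn p) +
      cond b cs sn * cond b' cs sn * d2 (d2 f) (normA c r cs sn p)) := by
  rw [norm_dd_A hf, norm_dd_lin (norm_sm_A (hf.dd _) _ _ _ _) (norm_sm_A (hf.dd _) _ _ _ _),
    norm_dd_A (hf.dd _), norm_dd_A (hf.dd _), show d1 (d2 f) = d2 (d1 f) from dd_comm hf _ _]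
  ring

/-- The closeness estimates from values at one point and bounds on higher derivatives. -/
theorem norm_close {ε B : ℝ} {u v z : Pl → ℝ} (hu : Sm u) (hv : Sm v) (hz : Sm z) {ξ : Pl}
    (hξ : ‖ξ‖ ≤ 10) (hB : 40 * B ≤ ε) (hB1 : 40 * B ≤ 1) (bu : NormWL 2 B u) (bv : NormWL 2 B v)
    (bz : NormWL 3 B z) (ux : d1 u ξ = 1) (uy : d2 u ξ = 0) (vx : d1 v ξ = 0) (vy : d2 v ξ = 1)
    (z1 : ∀ b, dd b z ξ = 0) (zxx : d1 (d1 z) ξ = 1) (zxy : d2 (d1 z) ξ = 0)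
    (zyy : d2 (d2 z) ξ = 0) : Close ε u (fun p => v p - v 0) z := by
  have hB0 : 0 ≤ B := (abs_nonneg _).trans (bu [false, false] rfl 0)
  have e : ∀ b, dd b (fun p => v p - v 0) = dd b v := fun b => funext fun p => by
    rw [dd_sub b (hv.diff p) (differentiableAt_const _), dd_const, sub_zero]
  have n3 : ∀ p ∈ disc 9, ‖p‖ ≤ 3 := fun p hp =>
    mem_closedBall_zero_iff.mp (disc_subset le_rfl hp)
  have key : ∀ {f : Pl → ℝ}, Sm f → (∀ b p, |dd b f p| ≤ B) → ∀ p, ‖p‖ ≤ 10 →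
      |f p - f ξ| ≤ 40 * B := fun hf h p hp => by
    refine (norm_mv hf convex_univ (fun b p _ => h b p) trivial trivial).trans ?_
    have := norm_sub_le p ξ
    nlinarith
  have k1 : ∀ {f : Pl → ℝ}, Sm f → NormWL 2 B f → ∀ b, ∀ p ∈ disc 9, |dd b f p - dd b f ξ| ≤ ε :=
    fun hf h b p hp => (key (hf.dd b) (fun b' p => h [b, b'] rfl p) p
      ((n3 p hp).trans (by norm_num))).trans hB
  have k2 : ∀ b b' p, ‖p‖ ≤ 10 → |dd b (dd b' z) p - dd b (dd b' z) ξ| ≤ 40 * B :=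
    fun b b' => key ((hz.dd b').dd b) fun b'' p => bz [b', b, b''] rfl p
  have k3 : ∀ b b', ∀ p ∈ disc 9, |dd b (dd b' z) p - dd b (dd b' z) ξ| ≤ ε :=
    fun b b' p hp => (k2 b b' p ((n3 p hp).trans (by norm_num))).trans hB
  have k4 : ∀ b b', |dd b (dd b' z) ξ| ≤ 1 := fun b b' => by
    cases b <;> cases b'
    · exact (congrArg abs zxx).trans_le abs_one.le
    · rw [dd_comm hz]; exact (congrArg abs zxy).trans_le (by simp)
    · exact (congrArg abs zxy).trans_le (by simp)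
    · exact (congrArg abs zyy).trans_le (by simp)
  refine ⟨sub_self _, fun p hp => ux ▸ k1 hu bu false p hp, fun p hp => ?_, fun p hp => ?_,
    fun p hp => ?_, fun b b' p _ => (bu [b', b] rfl p).trans (by linarith), fun b b' p _ => ?_,
    fun p hp => zxx ▸ k3 false false p hp, fun p hp => ?_, fun p hp => ?_, fun b p hp => ?_⟩
  · simpa [uy] using k1 hu bu true p hp
  · simpa [vx, d1, e] using k1 hv bv false p hp
  · simpa [vy, d2, e] using k1 hv bv true p hp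
  · rw [e]; exact (bv [b', b] rfl p).trans (by linarith)
  · simpa [zxy] using k3 true false p hp
  · simpa [zyy] using k3 true true p hp
  · have := norm_mv (hz.dd b) (convex_closedBall (0 : Pl) 10) (B := 2) (fun b' x hx => by
      have h1 := abs_le.mp (k2 b' b x (mem_closedBall_zero_iff.mp hx))
      have h2 := abs_le.mp (k4 b' b)
      exact abs_le.mpr ⟨by linarith, by linarith⟩)
      (mem_closedBall_zero_iff.mpr ((n3 p hp).trans (by norm_num))) (mem_closedBall_zero_iff.mpr hξ)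
    rw [z1, sub_zero] at this
    have h1 := norm_sub_le p ξ
    have h2 := n3 p hp
    linarith

theorem norm_tr {L Mm Nn : ℝ} (h : L * Nn - Mm ^ 2 = 0) {F : Pl → ℝ} {x : ℝ} {q : Pl} (hF : Sm F)
    (hx : |x| ≤ 1) (e : dd false (dd false F) q = L * x ∧ dd true (dd false F) q = Mm * x ∧
      dd true (dd true F) q = Nn * x) (b b' : Bool) : |dd b (dd b' F) q| ≤ |L + Nn| := by
  have a : ∀ y : ℝ, y ^ 2 ≤ (L + Nn) ^ 2 → |y * x| ≤ |L + Nn| := fun y hy => by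
    rw [abs_mul]
    exact (mul_le_of_le_one_right (abs_nonneg _) hx).trans (sq_le_sq.mp hy)
  have := sq_nonneg L
  have := sq_nonneg Mm
  have := sq_nonneg Nn
  have : (L + Nn) ^ 2 = L ^ 2 + 2 * Mm ^ 2 + Nn ^ 2 := by linear_combination 2 * h
  cases b <;> cases b'
  · rw [e.1]; exact a _ (by linarith)
  · rw [dd_comm hF, e.2.1]; exact a _ (by linarith)
  · rw [e.2.1]; exact a _ (by linarith)
  · rw [e.2.2]; exact a _ (by linarith)

/-- Second derivatives at a flat point. -/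
def NormF (F : Pl → ℝ) (q : Pl) (tr cs sn x : ℝ) : Prop :=
  dd false (dd false F) q = tr * cs ^ 2 * x ∧ dd true (dd false F) q = tr * (cs * sn) * x ∧
    dd true (dd true F) q = tr * sn ^ 2 * x

theorem norm_point {M l0 : ℝ} (hl0 : 0 < l0) {F1 F2 F3 ψ : Pl → ℝ} {O : Set Pl} {q : Pl}
    (s1 : Sm F1) (s2 : Sm F2) (s3 : Sm F3) (sψ : Sm ψ) (b1 : WB 8 M univ F1) (b2 : WB 8 M univ F2)
    (b3 : WB 8 M univ F3) (hO : IsOpen O) (hiso : Iso 1 F1 F2 F3 ψ O) (hq : q ∈ O)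
    (hψ : ψ =ᶠ[𝓝 q] (fun _ => 0))
    (hbig : ∃ F ∈ ({F1, F2, F3} : Set (Pl → ℝ)), ∃ b b', l0 ≤ |dd b (dd b' F) q|) :
    ∃ tr cs sn : ℝ, cs ^ 2 + sn ^ 2 = 1 ∧ l0 ≤ |tr| ∧ |tr| ≤ 6 * M ∧
      n1 F2 F3 q ^ 2 + n2 F1 F3 q ^ 2 + Dl F1 F2 q ^ 2 = 1 ∧ NormF F1 q tr cs sn (n1 F2 F3 q) ∧
      NormF F2 q tr cs sn (n2 F1 F3 q) ∧ NormF F3 q tr cs sn (Dl F1 F2 q) := by
  have ψ0 : ψ q = 0 := hψ.eq_of_nhds
  have ψ1 : ∀ b, dd b ψ =ᶠ[𝓝 q] fun _ => 0 := fun b =>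
    hψ.eventuallyEq_nhds.mono fun p hp => (dd_congr b hp).trans (dd_const b 0 p)
  have ψ2 : ∀ b, dd b (dd b ψ) q = 0 := fun b => (dd_congr b (ψ1 b)).trans (dd_const b 0 q)
  have ψ3 : ∀ b, dd b ψ q = 0 := fun b => (ψ1 b).eq_of_nhds
  obtain ⟨g0, g1, g2, g3, g4⟩ := gauss one_ne_zero s1 s2 s3 sψ hO hiso hq
  simp only [GF, ψ0, d1, d2, ψ3, ψ2, mul_zero, Real.exp_zero, one_pow, one_mul,
    zero_mul, add_zero, sub_zero, neg_zero, zero_add] at g0 g1 g2 g3 g4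
  have hn : n1 F2 F3 q ^ 2 + n2 F1 F3 q ^ 2 + Dl F1 F2 q ^ 2 = 1 := by linear_combination g0
  obtain ⟨m1, m2, m3⟩ := norm_unit hn
  have hell : ∀ b b', |ell F1 F2 F3 b b' q| ≤ 3 * M := fun b b' => by
    have w : ∀ {F : Pl → ℝ} {x : ℝ}, WB 8 M univ F → |x| ≤ 1 → |dd b (dd b' F) q * x| ≤ M :=
      fun h hx => by
      rw [abs_mul]
      exact (mul_le_of_le_one_right (abs_nonneg _) hx).trans (h [b', b] (by simp) q trivial)
    have := w b1 m1; have := w b2 m2; have := w b3 m3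
    exact (abs_add_three _ _ _).trans (by linarith)
  have t1 := hell false false
  have t2 := hell true true
  generalize ell F1 F2 F3 false false q = L at *
  generalize ell F1 F2 F3 true false q = Mm at *
  generalize ell F1 F2 F3 true true q = Nn at *
  have htr : l0 ≤ |L + Nn| := by
    obtain ⟨F, rfl | rfl | rfl, b, b', h⟩ := hbig
    exacts [h.trans (norm_tr g4 s1 m1 g1 b b'), h.trans (norm_tr g4 s2 m2 g2 b b'),
      h.trans (norm_tr g4 s3 m3 g3 b b')]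
  obtain ⟨cs, sn, hc, eL, eM, eN⟩ := norm_angle (sub_eq_zero.mp g4) (abs_pos.mp (hl0.trans_le htr))
  refine ⟨L + Nn, cs, sn, hc, htr, (abs_add_le _ _).trans (by linarith), hn, ?_⟩
  unfold NormF
  rw [← eL, ← eM, ← eN]
  exact ⟨g1, g2, g3⟩

theorem norm_xi {r cs sn : ℝ} {c q : Pl} (hr : 0 < r) (hc : cs ^ 2 + sn ^ 2 = 1)
    (hqc : ‖q - c‖ ≤ 5 * r) : ∃ ξ : Pl, ‖ξ‖ ≤ 10 ∧ normA c r cs sn ξ = q := by
  obtain ⟨c1, c2, -⟩ := norm_unit (show cs ^ 2 + sn ^ 2 + 0 ^ 2 = 1 by linarith)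
  have w1 : |(q - c).1| ≤ 5 * r := (norm_fst_le (q - c)).trans hqc
  have w2 : |(q - c).2| ≤ 5 * r := (norm_snd_le (q - c)).trans hqc
  have w : ∀ x y : ℝ, |x| ≤ 1 → |y| ≤ 1 → ‖(x * (q - c).1 + y * (q - c).2) / r‖ ≤ 10 :=
    fun x y hx hy => by
    rw [Real.norm_eq_abs, abs_div, abs_of_pos hr, div_le_iff₀ hr]
    refine (abs_add_le _ _).trans ?_
    rw [abs_mul, abs_mul]
    have := mul_le_of_le_one_left (abs_nonneg (q - c).1) hx
    have := mul_le_of_le_one_left (abs_nonneg (q - c).2) hy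
    linarith
  refine ⟨((cs * (q - c).1 + sn * (q - c).2) / r, (-sn * (q - c).1 + cs * (q - c).2) / r),
    max_le (w _ _ c1 c2) (w _ _ (by simpa) c1), Prod.ext ?_ ?_⟩
  · simp only [normA, Prod.fst_sub, Prod.snd_sub]
    field_simp
    linear_combination (q.1 - c.1) * hc
  · simp only [normA, Prod.fst_sub, Prod.snd_sub]
    field_simp
    linear_combination (q.2 - c.2) * hc

theorem norm_z2 {F1 F2 F3 : Pl → ℝ} (s1 : Sm F1) (s2 : Sm F2) (s3 : Sm F3) {c q ξ : Pl}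
    {r cs sn tr x1 x2 x3 : ℝ} (hr : r ≠ 0) (ht : tr ≠ 0) (hc : cs ^ 2 + sn ^ 2 = 1)
    (hn : x1 ^ 2 + x2 ^ 2 + x3 ^ 2 = 1) (eξ : normA c r cs sn ξ = q) (g1 : NormF F1 q tr cs sn x1)
    (g2 : NormF F2 q tr cs sn x2) (g3 : NormF F3 q tr cs sn x3) (b b' : Bool) :
    dd b (dd b' fun p => normC F1 F2 F3 (1 / (r ^ 2 * tr)) x1 x2 x3 (normA c r cs sn p)) ξ =
      cond b 0 1 * cond b' 0 1 := by
  have e : r ^ 2 * (1 / (r ^ 2 * tr)) * tr = 1 := by field_simp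
  rw [norm_dd2_A (norm_sm_C s1 s2 s3 _ _ _ _), eξ]
  simp only [d1, d2, norm_dd_C s1 s2 s3, norm_dd_C (s1.dd _) (s2.dd _) (s3.dd _), normC,
    g1.1, g1.2.1, g1.2.2, g2.1, g2.2.1, g2.2.2, g3.1, g3.2.1, g3.2.2]
  generalize 1 / (r ^ 2 * tr) = σ at *
  cases b <;> cases b' <;> simp only [cond_true, cond_false]
  · linear_combination (cs ^ 2 + sn ^ 2) ^ 2 * (x1 ^ 2 + x2 ^ 2 + x3 ^ 2) * e +
      (cs ^ 2 + sn ^ 2) ^ 2 * hn + (cs ^ 2 + sn ^ 2 + 1) * hc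
  all_goals ring

theorem norm_iso {cs sn x1 x2 x3 y1 y2 y3 a1 a2 a3 a4 a5 a6 E lam σ : ℝ} (hc : cs ^ 2 + sn ^ 2 = 1)
    (hx : x1 ^ 2 + x2 ^ 2 + 1 ^ 2 * x3 ^ 2 = 1) (hxy : x1 * y1 + x2 * y2 + 1 ^ 2 * (x3 * y3) = 0)
    (hy : y1 ^ 2 + y2 ^ 2 + 1 ^ 2 * y3 ^ 2 = 1) (j1 : a1 ^ 2 + a2 ^ 2 + 1 ^ 2 * a3 ^ 2 = E)
    (j2 : a1 * a4 + a2 * a5 + 1 ^ 2 * (a3 * a6) = 0) (j3 : a4 ^ 2 + a5 ^ 2 + 1 ^ 2 * a6 ^ 2 = E)
    (hl : lam ^ 2 * σ ^ 2 = 1) {U V Z : ℝ → ℝ → ℝ}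
    (hU : ∀ α β, U α β = 1 * ((cs * x1 + sn * y1) * (α * a1 + β * a4) +
      (cs * x2 + sn * y2) * (α * a2 + β * a5) + (cs * x3 + sn * y3) * (α * a3 + β * a6)))
    (hV : ∀ α β, V α β = 1 * ((cs * y1 - sn * x1) * (α * a1 + β * a4) +
      (cs * y2 - sn * x2) * (α * a2 + β * a5) + (cs * y3 - sn * x3) * (α * a3 + β * a6)))
    (hZ : ∀ α β, Z α β = σ * ((x2 * y3 - x3 * y2) * (α * a1 + β * a4) +
      (x3 * y1 - x1 * y3) * (α * a2 + β * a5) + (x1 * y2 - y1 * x2) * (α * a3 + β * a6))) :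
    U cs sn ^ 2 + V cs sn ^ 2 + lam ^ 2 * Z cs sn ^ 2 = E ∧
    U cs sn * U (-sn) cs + V cs sn * V (-sn) cs + lam ^ 2 * (Z cs sn * Z (-sn) cs) = 0 ∧
    U (-sn) cs ^ 2 + V (-sn) cs ^ 2 + lam ^ 2 * Z (-sn) cs ^ 2 = E := by
  have key : ∀ α β γ δ, U α β * U γ δ + V α β * V γ δ + lam ^ 2 * (Z α β * Z γ δ) =
      (α * γ + β * δ) * E := fun α β γ δ => by
    have := norm_frame hc hx hxy hy (α * a1 + β * a4) (α * a2 + β * a5) (α * a3 + β * a6)
      (γ * a1 + δ * a4) (γ * a2 + δ * a5) (γ * a3 + δ * a6)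
    rw [hU, hU, hV, hV, hZ, hZ, one_mul, one_mul, one_mul, one_mul]
    generalize (x2 * y3 - x3 * y2) * (α * a1 + β * a4) + (x3 * y1 - x1 * y3) * (α * a2 + β * a5) +
      (x1 * y2 - y1 * x2) * (α * a3 + β * a6) = s at *
    generalize (x2 * y3 - x3 * y2) * (γ * a1 + δ * a4) + (x3 * y1 - x1 * y3) * (γ * a2 + δ * a5) +
      (x1 * y2 - y1 * x2) * (γ * a3 + δ * a6) = t at *
    generalize ((cs * x1 + sn * y1) * (α * a1 + β * a4) + (cs * x2 + sn * y2) * (α * a2 + β * a5) +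
      (cs * x3 + sn * y3) * (α * a3 + β * a6)) * _ = A at *
    generalize ((cs * y1 - sn * x1) * (α * a1 + β * a4) + (cs * y2 - sn * x2) * (α * a2 + β * a5) +
      (cs * y3 - sn * x3) * (α * a3 + β * a6)) * _ = B at *
    linear_combination this + s * t * hl + α * γ * j1 + (α * δ + β * γ) * j2 + β * δ * j3
  exact ⟨by linear_combination key cs sn cs sn + E * hc, by linear_combination key cs sn (-sn) cs,
    by linear_combination key (-sn) cs (-sn) cs + E * hc⟩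

theorem norm_r0 {ε M l0 : ℝ} (hε : 0 < ε) (hl0 : 0 < l0) : ∃ r0 > 0, ∀ r, 0 < r → r ≤ r0 → 0 ≤ M →
    40 * (12 * (r * M) + 24 * (r * M * (1 / l0))) ≤ min ε 1 ∧ 2 * r ≤ 1 := by
  have hK0 : 0 < 1000 * (|M| + 1) * (1 + 1 / l0) := by positivity
  refine ⟨min ε 1 / (1000 * (|M| + 1) * (1 + 1 / l0)), by positivity, fun r hr hr0 hM => ?_⟩
  rw [le_div_iff₀ hK0, abs_of_nonneg hM] at hr0
  have p1 : 0 ≤ r * M := by positivity
  have p2 : 0 ≤ r * M * (1 / l0) := by positivity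
  have p3 : 0 ≤ r * (1 / l0) := by positivity
  have := min_le_right ε 1
  constructor <;> linarith

theorem normalize {ε M l0 : ℝ} (hε : 0 < ε) (hl0 : 0 < l0) : ∃ r0 > 0, ∀ r, 0 < r → r ≤ r0 →
    ∃ C0, ∀ (F1 F2 F3 ψ : Pl → ℝ) (O : Set Pl) (c q : Pl) (φ : ℝ → ℝ),
      Sm F1 → Sm F2 → Sm F3 → Sm ψ → WB 8 M univ F1 → WB 8 M univ F2 → WB 8 M univ F3 →
      IsOpen O → Iso 1 F1 F2 F3 ψ O → q ∈ O → ψ =ᶠ[𝓝 q] (fun _ => 0) → ‖q - c‖ ≤ 5 * r →
      (∃ F ∈ ({F1, F2, F3} : Set (Pl → ℝ)), ∃ b b', l0 ≤ |dd b (dd b' F) q|) →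
      (∀ p, rr (p - c) < 9 * r ^ 2 → p ∈ O ∧ ψ p = φ (rr (p - c) / r ^ 2)) →
      ∃ (lam : ℝ) (u v z : Pl → ℝ), r * l0 ≤ lam ∧ lam ≤ ε ∧ Sm u ∧ Sm v ∧ Sm z ∧
        WB 8 C0 (disc 9) u ∧ WB 8 C0 (disc 9) v ∧ WB 8 C0 (disc 9) z ∧ Close ε u v z ∧
        Iso lam u v z (fun p => φ (rr p)) (disc 9) := by
  obtain ⟨r0, h0, hr0⟩ := norm_r0 (M := M) hε hl0
  refine ⟨r0, h0, fun r hr hr' => ⟨2 * (1 / r * (3 * M)) + 1 / (r ^ 2 * l0) * (3 * M), ?_⟩⟩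
  intro F1 F2 F3 ψ O c q φ s1 s2 s3 sψ b1 b2 b3 hO hiso hq hψ hqc hbig hdisc
  have hM : 0 ≤ M := (abs_nonneg _).trans (b1 [] (by simp) 0 trivial)
  obtain ⟨hB, r1⟩ := hr0 r hr hr' hM
  have p1 : 0 ≤ r * M := by positivity
  have p2 : 0 ≤ r * M * (1 / l0) := by positivity
  obtain ⟨tr, cs, sn, hc, htr, t3, hn, g1, g2, g3⟩ :=
    norm_point hl0 s1 s2 s3 sψ b1 b2 b3 hO hiso hq hψ hbig
  obtain ⟨i1, i2, i3⟩ := hiso q hq
  rw [hψ.eq_of_nhds, mul_zero, Real.exp_zero] at i1 i3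
  have tr0 : tr ≠ 0 := abs_pos.mp (hl0.trans_le htr)
  obtain ⟨c1, c2, -⟩ := norm_unit (show cs ^ 2 + sn ^ 2 + 0 ^ 2 = 1 by linarith)
  obtain ⟨ξ, hξ, eξ⟩ := norm_xi hr hc hqc
  have hr1 : |1 / r| ≤ 1 / r := (abs_of_pos (by positivity)).le
  have hr2 : |1 / (r ^ 2 * tr)| ≤ 1 / (r ^ 2 * l0) := by
    rw [abs_div, abs_one, abs_mul, abs_of_pos (by positivity : 0 < r ^ 2)]
    gcongr
  have u1 : (cs * d1 F1 q + sn * d2 F1 q) ^ 2 + (cs * d1 F2 q + sn * d2 F2 q) ^ 2 +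
      (cs * d1 F3 q + sn * d2 F3 q) ^ 2 = 1 := by
    linear_combination cs ^ 2 * i1 + 2 * cs * sn * i2 + sn ^ 2 * i3 + hc
  have u2 : (cs * d2 F1 q - sn * d1 F1 q) ^ 2 + (cs * d2 F2 q - sn * d1 F2 q) ^ 2 +
      (cs * d2 F3 q - sn * d1 F3 q) ^ 2 = 1 := by
    linear_combination sn ^ 2 * i1 - 2 * cs * sn * i2 + cs ^ 2 * i3 + hc
  have wu := fun k hk => NormWL.comp c hr c1 c2 (norm_sm_C s1 s2 s3 _ _ _ _)
    (norm_WL_C s1 s2 s3 b1 b2 b3 u1 hr1 (k := k) hk)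
  have wv := fun k hk => NormWL.comp c hr c1 c2 (norm_sm_C s1 s2 s3 _ _ _ _)
    (norm_WL_C s1 s2 s3 b1 b2 b3 u2 hr1 (k := k) hk)
  have wz := fun k hk => NormWL.comp c hr c1 c2 (norm_sm_C s1 s2 s3 _ _ _ _)
    (norm_WL_C s1 s2 s3 b1 b2 b3 hn hr2 (k := k) hk)
  have du := norm_d_CA s1 s2 s3 (1 / r) (cs * d1 F1 q + sn * d2 F1 q) (cs * d1 F2 q + sn * d2 F2 q)
    (cs * d1 F3 q + sn * d2 F3 q) c r cs sn
  have dv := norm_d_CA s1 s2 s3 (1 / r) (cs * d2 F1 q - sn * d1 F1 q) (cs * d2 F2 q - sn * d1 F2 q)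
    (cs * d2 F3 q - sn * d1 F3 q) c r cs sn
  have dz := norm_d_CA s1 s2 s3 (1 / (r ^ 2 * tr)) (n1 F2 F3 q) (n2 F1 F3 q) (Dl F1 F2 q) c r cs sn
  have d2z := norm_z2 s1 s2 s3 hr.ne' tr0 hc hn eξ g1 g2 g3
  have su := norm_sm_A (norm_sm_C s1 s2 s3 (1 / r) (cs * d1 F1 q + sn * d2 F1 q)
    (cs * d1 F2 q + sn * d2 F2 q) (cs * d1 F3 q + sn * d2 F3 q)) c r cs sn
  have sv := norm_sm_A (norm_sm_C s1 s2 s3 (1 / r) (cs * d2 F1 q - sn * d1 F1 q)
    (cs * d2 F2 q - sn * d1 F2 q) (cs * d2 F3 q - sn * d1 F3 q)) c r cs sn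
  have sz := norm_sm_A (norm_sm_C s1 s2 s3 (1 / (r ^ 2 * tr)) (n1 F2 F3 q) (n2 F1 F3 q)
    (Dl F1 F2 q)) c r cs sn
  rw [one_div_mul_cancel hr.ne'] at du dv
  generalize (fun p => normC F1 F2 F3 (1 / r) (cs * d1 F1 q + sn * d2 F1 q)
    (cs * d1 F2 q + sn * d2 F2 q) (cs * d1 F3 q + sn * d2 F3 q) (normA c r cs sn p)) = u
    at wu du su
  generalize (fun p => normC F1 F2 F3 (1 / r) (cs * d2 F1 q - sn * d1 F1 q)
    (cs * d2 F2 q - sn * d1 F2 q) (cs * d2 F3 q - sn * d1 F3 q) (normA c r cs sn p)) = v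
    at wv dv sv
  generalize (fun p => normC F1 F2 F3 (1 / (r ^ 2 * tr)) (n1 F2 F3 q) (n2 F1 F3 q)
    (Dl F1 F2 q) (normA c r cs sn p)) = z at wz dz sz d2z
  have e : ∀ b, dd b (fun p => v p - v 0) = dd b v := fun b => funext fun p => by
    rw [dd_sub b (sv.diff p) (differentiableAt_const _), dd_const, sub_zero]
  have q1 : 0 ≤ 1 / r * (3 * M) := by positivity
  have q2 : 0 ≤ 1 / (r ^ 2 * l0) * (3 * M) := by positivity
  have wb : ∀ {f : Pl → ℝ} {C : ℝ}, 0 ≤ C → (∀ k ≤ 8, NormWL k ((2 * r) ^ k * C) f) →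
      ∀ l : List Bool, l.length ≤ 8 → ∀ p, |wd l f p| ≤ C := fun hC h l hl p =>
    (h _ hl l rfl p).trans (mul_le_of_le_one_left hC (pow_le_one₀ (by positivity) r1))
  have a2 : (2 * r) ^ 2 * (1 / r * (3 * M)) ≤ 12 * (r * M) + 24 * (r * M * (1 / l0)) := by
    rw [show (2 * r) ^ 2 * (1 / r * (3 * M)) = 12 * (r * M) by field_simp; ring]; linarith
  have a3 : (2 * r) ^ 3 * (1 / (r ^ 2 * l0) * (3 * M)) ≤ 12 * (r * M) + 24 * (r * M * (1 / l0)) := by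
    rw [show (2 * r) ^ 3 * (1 / (r ^ 2 * l0) * (3 * M)) = 24 * (r * M * (1 / l0)) by
      field_simp; ring]
    linarith
  refine ⟨r * |tr|, u, fun p => v p - v 0, z, by gcongr, ?_, su, sv.sub contDiff_const, sz,
    fun l hl p _ => (wb q1 wu l hl p).trans (by linarith), fun l hl p _ => ?_,
    fun l hl p _ => (wb q2 wz l hl p).trans (by linarith),
    norm_close su sv sz hξ (hB.trans (min_le_left _ _)) (hB.trans (min_le_right _ _))
      (fun l hl p => (wu 2 (by norm_num) l hl p).trans a2)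
      (fun l hl p => (wv 2 (by norm_num) l hl p).trans a2)
      (fun l hl p => (wz 3 (by norm_num) l hl p).trans a3) ?_ ?_ ?_ ?_ (fun b => ?_)
      ((d2z _ _).trans (by simp)) ((d2z _ _).trans (by simp)) ((d2z _ _).trans (by simp)),
    fun p hp => ?_⟩
  · have := mul_le_mul_of_nonneg_left t3 hr.le
    have := min_le_left ε 1
    linarith
  · cases l with
    | nil =>
      have h1 : |v p| ≤ _ := wb q1 wv [] hl p
      have h2 : |v 0| ≤ _ := wb q1 wv [] hl 0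
      exact (abs_sub _ _).trans (by linarith)
    | cons b l => rw [wd, e]; exact (wb q1 wv (b :: l) hl p).trans (by linarith)
  · rw [d1, du, eξ, cond_false, cond_false]; linear_combination u1
  · rw [d2, du, eξ, cond_true, cond_true]
    linear_combination (-cs * sn) * i1 + (cs ^ 2 - sn ^ 2) * i2 + cs * sn * i3
  · rw [d1, dv, eξ, cond_false, cond_false]
    linear_combination (-cs * sn) * i1 + (cs ^ 2 - sn ^ 2) * i2 + cs * sn * i3
  · rw [d2, dv, eξ, cond_true, cond_true]; linear_combination u2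
  · rw [dz, eξ]; unfold n1 n2 Dl; ring
  · have hrr : rr (normA c r cs sn p - c) = r ^ 2 * rr p := by
      simp only [normA, rr, Prod.fst_sub, Prod.snd_sub]
      linear_combination r ^ 2 * (p.1 ^ 2 + p.2 ^ 2) * hc
    obtain ⟨hO', hφ⟩ := hdisc (normA c r cs sn p) (by
      rw [hrr, mul_comm]; exact mul_lt_mul_of_pos_right hp (by positivity))
    rw [hrr, mul_div_cancel_left₀ _ (by positivity)] at hφ
    obtain ⟨j1, j2, j3⟩ := hiso _ hO'
    rw [hφ] at j1 j3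
    have hlam : (r * |tr|) ^ 2 * (1 / (r ^ 2 * tr) * r) ^ 2 = 1 := by
      rw [mul_pow, sq_abs]; field_simp
    rw [d1, d1, d1, d2, d2, d2, e, e, du, du, dv, dv, dz, dz]
    exact norm_iso hc i1 i2 i3 j1 j2 j3 hlam (fun _ _ => rfl) (fun _ _ => rfl) fun _ _ => rfl

end

end Vale.Agent.P229
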