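import Vale.Agent.P229.Defs

namespace Vale.Agent.P229

open Set Filter MeasureTheory Topology

noncomputable section

/-! Auxiliary facts for the job Patch. -/

/-- smooth with all derivatives up to order `n` bounded by `δ` -/
def PSm (n : ℕ) (δ : ℝ) (f : Pl → ℝ) : Prop :=
  Sm f ∧ ∀ k ≤ n, ∀ p, ‖iteratedFDeriv ℝ k f p‖ ≤ δ

theorem patch_cd {f : Pl → ℝ} (hf : Sm f) (k : ℕ) : ContDiff ℝ k f :=
  hf.of_le (by exact_mod_cast le_top)

theorem PSm.mono {n : ℕ} {δ δ' : ℝ} {f : Pl → ℝ} (h : PSm n δ f) (hδ : δ ≤ δ') : PSm n δ' f :=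
  ⟨h.1, fun k hk p => (h.2 k hk p).trans hδ⟩

theorem PSm.add {n : ℕ} {δ δ' : ℝ} {f g : Pl → ℝ} (hf : PSm n δ f) (hg : PSm n δ' g) :
    PSm n (δ + δ') fun p => f p + g p := by
  refine ⟨hf.1.add hg.1, fun k hk p => ?_⟩
  rw [fun_iteratedFDeriv_add_apply (patch_cd hf.1 k).contDiffAt (patch_cd hg.1 k).contDiffAt]
  exact (norm_add_le _ _).trans (add_le_add (hf.2 k hk p) (hg.2 k hk p))

theorem PSm.mul {n : ℕ} {δ : ℝ} {f : Pl → ℝ} (hf : PSm n δ f) (a : ℝ) :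
    PSm n (|a| * δ) fun p => a * f p := by
  refine ⟨contDiff_const.mul hf.1, fun k hk p => ?_⟩
  have := iteratedFDeriv_const_smul_apply' (a := a) (x := p) (patch_cd hf.1 k).contDiffAt
  simp only [smul_eq_mul] at this
  rw [this, norm_smul, Real.norm_eq_abs]
  exact mul_le_mul_of_nonneg_left (hf.2 k hk p) (abs_nonneg a)

theorem PSm.sum {ι : Type} {n : ℕ} {δ : ℝ} {f : ι → Pl → ℝ} (T : Finset ι)
    (hf : ∀ e ∈ T, PSm n δ (f e)) : PSm n (T.card * δ) fun p => ∑ e ∈ T, f e p := by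
  refine ⟨ContDiff.sum fun e he => (hf e he).1, fun k hk p => ?_⟩
  rw [iteratedFDeriv_fun_sum_apply fun e he => (patch_cd (hf e he).1 k).contDiffAt]
  refine (norm_sum_le _ _).trans ?_
  rw [← nsmul_eq_mul]
  exact Finset.sum_le_card_nsmul _ _ _ fun e he => (hf e he).2 k hk p

theorem patch_bound {f : Pl → ℝ} (hf : Sm f) (c : Pl) (ρ : ℝ) (h : ∀ p, ρ ≤ ‖p - c‖ → f p = 0)
    (n : ℕ) : ∃ C, 0 < C ∧ PSm n C f := by
  have hc : HasCompactSupport f := HasCompactSupport.intro (isCompact_closedBall c ρ) fun p hp =>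
    h p (by rw [Metric.mem_closedBall, dist_eq_norm, not_le] at hp; exact hp.le)
  have : ∀ k : ℕ, ∃ C, ∀ p, ‖iteratedFDeriv ℝ k f p‖ ≤ C := fun k =>
    (hc.iteratedFDeriv k).exists_bound_of_continuous
      (hf.continuous_iteratedFDeriv (by exact_mod_cast le_top))
  choose C hC using this
  have h0 : ∀ k, 0 ≤ C k := fun k => (norm_nonneg _).trans (hC k 0)
  refine ⟨∑ k ∈ Finset.range (n + 1), C k + 1,
    add_pos_of_nonneg_of_pos (Finset.sum_nonneg fun k _ => h0 k) one_pos, hf, fun k hk p => ?_⟩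
  have := Finset.single_le_sum (f := C) (fun k _ => h0 k) (Finset.mem_range.2 (Nat.lt_succ_of_le hk))
  linarith [hC k p]

theorem patch_small {C δ b : ℝ} (hC : 0 < C) (hδ : 0 < δ) (hb : 0 < b) :
    ∃ a, 0 < a ∧ a ≤ b ∧ a * C ≤ δ :=
  ⟨min b (δ / C), lt_min hb (div_pos hδ hC), min_le_left _ _,
    (le_div_iff₀ hC).1 (min_le_right _ _)⟩

theorem PSm.scale {n : ℕ} {C : ℝ} {g : Pl → ℝ} (hg : PSm n C g) {h : ℝ} (h0 : 0 < h) (h1 : h ≤ 1)
    (e : Pl) : PSm n (h * C) fun p => h ^ (n + 3) * g (h⁻¹ • (p - e)) := by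
  have hs : Sm fun p => g (h⁻¹ • (p - e)) :=
    hg.1.comp ((contDiff_id.sub contDiff_const).const_smul h⁻¹)
  refine ⟨contDiff_const.mul hs, fun k hk p => ?_⟩
  have e1 := iteratedFDeriv_const_smul_apply' (a := h ^ (n + 3)) (x := p)
    (patch_cd hs k).contDiffAt
  simp only [smul_eq_mul] at e1
  rw [e1, iteratedFDeriv_comp_sub (f := fun z => g (h⁻¹ • z)),
    iteratedFDeriv_comp_const_smul _ (patch_cd hg.1 k), norm_smul, norm_smul, Real.norm_eq_abs,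
    Real.norm_eq_abs, abs_of_pos (by positivity), abs_of_pos (by positivity), ← mul_assoc]
  refine mul_le_mul ?_ (hg.2 k hk _) (norm_nonneg _) h0.le
  obtain ⟨j, rfl⟩ := Nat.exists_eq_add_of_le hk
  have : h ^ (k + j + 3) * h⁻¹ ^ k = h * h ^ (j + 2) := by
    rw [inv_pow]; field_simp; ring
  rw [this]
  exact mul_le_of_le_one_right h0.le (pow_le_one₀ h0.le h1)

theorem patch_beta_zero {t : ℝ} (h : 1 ≤ t) : beta0 t = 0 :=
  Real.smoothTransition.zero_of_nonpos (by linarith)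

theorem patch_beta_one {t : ℝ} (h : t ≤ 1 / 4) : beta0 t = 1 :=
  Real.smoothTransition.one_of_one_le (by linarith)

theorem patch_rr_ge {p : Pl} {ρ t : ℝ} (hρ : 0 < ρ) (ht : 0 ≤ t) (h : t * ρ ≤ ‖p‖) :
    t ^ 2 ≤ rr p / ρ ^ 2 := by
  rw [le_div_iff₀ (by positivity), ← mul_pow]
  exact (pow_le_pow_left₀ (by positivity) h 2).trans (norm_sq_le_rr p)

theorem patch_idx {r x : ℝ} (hr : 0 < r) (m : ℕ) (hx : |x| ≤ 20 * m * r) :
    ∃ i ∈ Finset.Icc (-2 * (m : ℤ) - 1) (2 * m), |x - 10 * r * (i + 1 / 2)| ≤ 5 * r ∧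
      (|x| = 20 * m * r → i = -2 * (m : ℤ) - 1 ∨ i = 2 * m) := by
  obtain ⟨h1, h2⟩ := abs_le.1 hx
  by_cases h : x = -(20 * m * r)
  · refine ⟨-2 * m - 1, Finset.mem_Icc.2 ⟨le_rfl, by omega⟩, ?_, fun _ => Or.inl rfl⟩
    rw [h, abs_le]; push_cast; constructor <;> nlinarith
  · have h3 := Int.floor_le (x / (10 * r))
    have h4 := Int.lt_floor_add_one (x / (10 * r))
    rw [le_div_iff₀ (by positivity)] at h3
    rw [div_lt_iff₀ (by positivity)] at h4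
    refine ⟨⌊x / (10 * r)⌋, Finset.mem_Icc.2 ⟨?_, ?_⟩, ?_, fun h5 => Or.inr ?_⟩
    · rw [Int.le_floor, le_div_iff₀ (by positivity)]; push_cast; nlinarith
    · rw [← Int.lt_add_one_iff, Int.floor_lt, div_lt_iff₀ (by positivity)]; push_cast; nlinarith
    · rw [abs_le]; constructor <;> nlinarith
    · have h6 : x = 20 * m * r := by
        rcases abs_eq (by positivity) |>.1 h5 with h7 | h7
        · exact h7
        · exact absurd h7 h
      rw [Int.floor_eq_iff, le_div_iff₀ (by positivity), div_lt_iff₀ (by positivity), h6]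
      push_cast; constructor <;> nlinarith

theorem patch_sep {r : ℝ} (hr : 0 < r) {i j : ℤ} (h : i ≠ j) :
    10 * r ≤ |10 * r * (i + 1 / 2) - 10 * r * (j + 1 / 2)| := by
  have h1 : (1 : ℝ) ≤ |(i : ℝ) - j| := by exact_mod_cast Int.one_le_abs (sub_ne_zero.2 h)
  rw [show 10 * r * (i + 1 / 2) - 10 * r * (j + 1 / 2) = 10 * r * ((i : ℝ) - j) by ring, abs_mul,
    abs_of_pos (by positivity : (0 : ℝ) < 10 * r)]
  nlinarith

theorem patch_abs {r : ℝ} (hr : 0 < r) {m : ℕ} {i : ℤ} (h : i ∈ Finset.Icc (-2 * (m : ℤ) - 1) (2 * m)) :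
    |10 * r * (i + 1 / 2)| ≤ 20 * m * r + 5 * r ∧
      ((i = -2 * (m : ℤ) - 1 ∨ i = 2 * m) → |10 * r * (i + 1 / 2)| = 20 * m * r + 5 * r) := by
  obtain ⟨h1, h2⟩ := Finset.mem_Icc.1 h
  have h1' : -2 * (m : ℝ) - 1 ≤ i := by exact_mod_cast h1
  have h2' : (i : ℝ) ≤ 2 * m := by exact_mod_cast h2
  have hm : (0 : ℝ) ≤ m := Nat.cast_nonneg m
  refine ⟨abs_le.2 ⟨by nlinarith, by nlinarith⟩, ?_⟩
  rintro (rfl | rfl)
  · push_cast; rw [abs_of_nonpos (by nlinarith)]; ring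
  · push_cast; rw [abs_of_nonneg (by positivity)]; ring

/-- the ring of cells around the square -/
theorem patch_cells (c : Pl) {r : ℝ} (hr : 0 < r) (m : ℕ) : ∃ T : Finset Pl,
    (∀ e ∈ T, ‖e - c‖ = 20 * m * r + 5 * r) ∧ (∀ e ∈ T, ∀ e' ∈ T, e ≠ e' → 10 * r ≤ ‖e - e'‖) ∧
    ∀ q, ‖q - c‖ = 20 * m * r → ∃ e ∈ T, ‖q - e‖ ≤ 5 * r := by
  classical
  refine ⟨((Finset.Icc (-2 * (m : ℤ) - 1) (2 * m) ×ˢ Finset.Icc (-2 * (m : ℤ) - 1) (2 * m)).filter
    fun t : ℤ × ℤ => (t.1 = -2 * (m : ℤ) - 1 ∨ t.1 = 2 * (m : ℤ)) ∨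
      (t.2 = -2 * (m : ℤ) - 1 ∨ t.2 = 2 * (m : ℤ))).image
    fun t : ℤ × ℤ => c + (10 * r * (t.1 + 1 / 2), 10 * r * (t.2 + 1 / 2)), ?_, ?_, ?_⟩
  · intro e he
    obtain ⟨t, ht, rfl⟩ := Finset.mem_image.1 he
    obtain ⟨h1, h2⟩ := Finset.mem_filter.1 ht
    obtain ⟨h3, h4⟩ := Finset.mem_product.1 h1
    have a1 := patch_abs hr h3
    have a2 := patch_abs hr h4
    rw [add_sub_cancel_left, Prod.norm_def, Real.norm_eq_abs, Real.norm_eq_abs]
    rcases h2 with h | h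
    · rw [a1.2 h]; exact max_eq_left a2.1
    · rw [a2.2 h]; exact max_eq_right a1.1
  · intro e he e' he' hne
    obtain ⟨t, -, rfl⟩ := Finset.mem_image.1 he
    obtain ⟨t', -, rfl⟩ := Finset.mem_image.1 he'
    rw [add_sub_add_left_eq_sub, Prod.norm_def, Real.norm_eq_abs, Real.norm_eq_abs]
    by_cases h : t.1 = t'.1
    · have h' : t.2 ≠ t'.2 := fun h' => hne (by rw [h, h'])
      exact (patch_sep hr h').trans (le_max_right _ _)
    · exact (patch_sep hr h).trans (le_max_left _ _)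
  · intro q hq
    have hq' := hq
    rw [Prod.norm_def, Real.norm_eq_abs, Real.norm_eq_abs] at hq'
    obtain ⟨i, hi, i1, i2⟩ := patch_idx (x := (q - c).1) hr m (hq' ▸ le_max_left _ _)
    obtain ⟨j, hj, j1, j2⟩ := patch_idx (x := (q - c).2) hr m (hq' ▸ le_max_right _ _)
    refine ⟨_, Finset.mem_image.2 ⟨(i, j), Finset.mem_filter.2
      ⟨Finset.mem_product.2 ⟨hi, hj⟩, ?_⟩, rfl⟩, ?_⟩
    · rcases max_choice |(q - c).1| |(q - c).2| with h | h
      · exact Or.inl (i2 (h ▸ hq'))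
      · exact Or.inr (j2 (h ▸ hq'))
    · rw [← sub_sub, Prod.norm_def, Real.norm_eq_abs, Real.norm_eq_abs]
      exact max_le i1 j1

end

end Vale.Agent.P229
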