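import Vale.Agent.P229.Defs2

namespace Vale.Agent.P229

open Set Filter MeasureTheory Topology

noncomputable section

/-! JOB Short: a short chord forces a large second derivative on the boundary of the square. -/

theorem short_up {g g' : ℝ → ℝ} (hg : ∀ t, HasDerivAt g (g' t) t) {x y M : ℝ} (hxy : x ≤ y)
    (h : ∀ t ∈ Icc x y, g' t ≤ M) : g y - g x ≤ M * (y - x) :=
  (convex_Icc x y).image_sub_le_mul_sub_of_deriv_le
    (fun t _ => (hg t).continuousAt.continuousWithinAt)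
    (fun t _ => (hg t).differentiableAt.differentiableWithinAt)
    (fun t ht => by rw [(hg t).deriv]; exact h t (interior_subset ht)) x (left_mem_Icc.2 hxy) y
    (right_mem_Icc.2 hxy) hxy

theorem short_near {g g' : ℝ → ℝ} (hg : ∀ t, HasDerivAt g (g' t) t) {x y m M : ℝ} (hxy : x ≤ y)
    (h : ∀ t ∈ Icc x y, |g' t - m| ≤ M) : |g y - g x - m * (y - x)| ≤ M * (y - x) := by
  have h1 := short_up hg hxy (M := m + M) fun t ht => by linarith [(abs_le.1 (h t ht)).2]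
  have h2 := short_up (fun t => (hg t).fun_neg) hxy (M := M - m) fun t ht => by
    linarith [(abs_le.1 (h t ht)).1]
  exact abs_le.2 ⟨by linarith, by linarith⟩

theorem short_der1 {f : Pl → ℝ} (hf : Sm f) (y x : ℝ) :
    HasDerivAt (fun x => f (x, y)) (d1 f (x, y)) x :=
  (hf.diff (x, y)).hasFDerivAt.comp_hasDerivAt x ((hasDerivAt_id x).prodMk (hasDerivAt_const x y))

theorem short_der2 {f : Pl → ℝ} (hf : Sm f) (x y : ℝ) :
    HasDerivAt (fun y => f (x, y)) (d2 f (x, y)) y :=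
  (hf.diff (x, y)).hasFDerivAt.comp_hasDerivAt y ((hasDerivAt_const y x).prodMk (hasDerivAt_id y))

theorem short_comb {F1 F2 F3 : Pl → ℝ} (h1 : Sm F1) (h2 : Sm F2) (h3 : Sm F3) (e1 e2 e3 : ℝ)
    (b : Bool) : dd b (fun p => e1 * F1 p + e2 * F2 p + e3 * F3 p) =
      fun p => e1 * dd b F1 p + e2 * dd b F2 p + e3 * dd b F3 p := by
  funext p
  have a1 := (h1.diff p).const_mul e1
  have a2 := (h2.diff p).const_mul e2
  rw [dd_add b (a1.fun_add a2) ((h3.diff p).const_mul e3), dd_add b a1 a2,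
    dd_const_mul b _ (h1.diff p), dd_const_mul b _ (h2.diff p), dd_const_mul b _ (h3.diff p)]

/-- lower bound along three sides of a rectangle -/
theorem short_path {φ : Pl → ℝ} (hφ : Sm φ) {R m x y : ℝ} (hR : 0 < R)
    (hv : ∀ b b', ∀ t ∈ Icc y (y + 2 * R), |dd b (dd b' φ) (x, t)| ≤ m ∧
      |dd b (dd b' φ) (x + 4 * R, t)| ≤ m)
    (hh : ∀ b b', ∀ t ∈ Icc x (x + 4 * R), |dd b (dd b' φ) (t, y + 2 * R)| ≤ m)
    (a1 : d1 φ (x, y) = 1) (a2 : d2 φ (x, y) = 0) :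
    4 * R - 44 * R ^ 2 * m ≤ φ (x + 4 * R, y) - φ (x, y) := by
  have hm : 0 ≤ m := (abs_nonneg _).trans (hh true true x ⟨le_rfl, by linarith⟩)
  have hy : y ≤ y + 2 * R := by linarith
  have V : ∀ b x', x' = x ∨ x' = x + 4 * R → ∀ s t, y ≤ s → s ≤ t → t ≤ y + 2 * R →
      |dd b φ (x', t) - dd b φ (x', s)| ≤ m * (2 * R) := by
    intro b x' hx s t h1 h2 h3
    have := short_near (short_der2 (hφ.dd b) x') h2 (m := 0) (M := m) fun r hr => by
      have := hv true b r ⟨h1.trans hr.1, hr.2.trans h3⟩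
      rcases hx with rfl | rfl
      · simpa using this.1
      · simpa using this.2
    rw [zero_mul, sub_zero] at this
    exact this.trans (by gcongr; linarith)
  have H : ∀ b, ∀ t ∈ Icc x (x + 4 * R),
      |dd b φ (t, y + 2 * R) - dd b φ (x, y + 2 * R)| ≤ m * (4 * R) := by
    intro b t ht
    have := short_near (short_der1 (hφ.dd b) (y + 2 * R)) ht.1 (m := 0) (M := m) fun r hr => by
      simpa using hh false b r ⟨hr.1, hr.2.trans ht.2⟩
    rw [zero_mul, sub_zero] at this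
    exact this.trans (by gcongr; linarith [ht.2])
  have c1 := abs_le.1 (V false x (Or.inl rfl) y _ le_rfl hy le_rfl)
  have c2 := abs_le.1 (V true x (Or.inl rfl) y _ le_rfl hy le_rfl)
  have c3 := abs_le.1 (H true (x + 4 * R) ⟨by linarith, le_rfl⟩)
  have s1 := abs_le.1 (short_near (short_der2 hφ x) hy (m := 0) (M := m * (2 * R)) fun t ht => by
    have := V true x (Or.inl rfl) y t le_rfl ht.1 ht.2
    rwa [show dd true φ (x, y) = 0 from a2] at this)
  have s2 := abs_le.1 (short_near (short_der1 hφ (y + 2 * R)) (show x ≤ x + 4 * R by linarith)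
    (m := 1) (M := m * (6 * R)) fun t ht => by
      have := abs_le.1 (H false t ht)
      exact abs_le.2 ⟨by linarith [this.1, c1.1], by linarith [this.2, c1.2]⟩)
  have s3 := abs_le.1 (short_near (short_der2 hφ (x + 4 * R)) hy (m := 0) (M := m * (8 * R))
    fun t ht => by
      have := abs_le.1 (V true _ (Or.inr rfl) t _ ht.1 ht.2 le_rfl)
      exact abs_le.2 ⟨by linarith [this.2, c2.1, c3.1], by linarith [this.1, c2.2, c3.2]⟩)
  linarith [s1.1, s2.1, s3.2]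

theorem shortcut {R a : ℝ} (hR : 0 < R) (ha : 0 < a) (ha1 : a ≤ 1) (c : Pl)
    {F1 F2 F3 ψ : Pl → ℝ} (h1 : Sm F1) (h2 : Sm F2) (h3 : Sm F3) {O : Set Pl}
    (hiso : Iso 1 F1 F2 F3 ψ O) (hO : ∀ t, |t| ≤ 2 * R → (c.1 + t, c.2) ∈ O)
    (hA : ψ (c.1 - 2 * R, c.2) = 0) (hn : ∀ t, |t| ≤ 2 * R → ψ (c.1 + t, c.2) ≤ 0)
    (hm : ∀ t, |t| ≤ R / 2 → ψ (c.1 + t, c.2) ≤ -a) :
    ∃ p ∈ Metric.sphere c (2 * R), ∃ F ∈ ({F1, F2, F3} : Set (Pl → ℝ)), ∃ b b',
      a / (400 * R) ≤ |dd b (dd b' F) p| := by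
  by_contra! hc
  have hA' := hiso _ (hO (-(2 * R)) (by rw [abs_neg, abs_of_pos (by linarith)]))
  rw [← sub_eq_add_neg, hA, mul_zero, Real.exp_zero] at hA'
  obtain ⟨i1, i2, -⟩ := hA'
  obtain ⟨e1, he1⟩ : ∃ e, e = d1 F1 (c.1 - 2 * R, c.2) := ⟨_, rfl⟩
  obtain ⟨e2, he2⟩ : ∃ e, e = d1 F2 (c.1 - 2 * R, c.2) := ⟨_, rfl⟩
  obtain ⟨e3, he3⟩ : ∃ e, e = d1 F3 (c.1 - 2 * R, c.2) := ⟨_, rfl⟩
  rw [← he1, ← he2, ← he3] at i1 i2
  have sφ : Sm fun p => e1 * F1 p + e2 * F2 p + e3 * F3 p := by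
    unfold Sm at *
    fun_prop
  have dφ := short_comb h1 h2 h3 e1 e2 e3
  have hb : ∀ p ∈ Metric.sphere c (2 * R), ∀ b b',
      |dd b (dd b' fun p => e1 * F1 p + e2 * F2 p + e3 * F3 p) p| ≤ 3 * (a / (400 * R)) := by
    intro p hp b b'
    rw [dφ, short_comb (h1.dd _) (h2.dd _) (h3.dd _)]
    have k : ∀ e x : ℝ, e ^ 2 ≤ 1 → |x| < a / (400 * R) → |e * x| ≤ a / (400 * R) := by
      intro e x he hx
      rw [abs_mul]
      exact (mul_le_of_le_one_left (abs_nonneg _) ((sq_le_one_iff_abs_le_one e).1 he)).trans hx.le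
    have k1 := k e1 _ (by nlinarith) (hc p hp F1 (by simp) b b')
    have k2 := k e2 _ (by nlinarith) (hc p hp F2 (by simp) b b')
    have k3 := k e3 _ (by nlinarith) (hc p hp F3 (by simp) b b')
    exact (abs_add_three _ _ _).trans (by linarith)
  have sph : ∀ x y : ℝ, max |x - c.1| |y - c.2| = 2 * R → (x, y) ∈ Metric.sphere c (2 * R) :=
    fun x y h => by rw [Metric.mem_sphere, Prod.dist_eq, Real.dist_eq, Real.dist_eq, h]
  have low := short_path sφ hR (x := c.1 - 2 * R) (y := c.2) (m := 3 * (a / (400 * R)))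
    (fun b b' t ht => by
      have : |t - c.2| ≤ 2 * R := abs_le.2 ⟨by linarith [ht.1], by linarith [ht.2]⟩
      refine ⟨hb _ (sph _ _ ?_) b b', hb _ (sph _ _ ?_) b b'⟩
      · rw [abs_of_neg (by linarith), max_eq_left (by linarith)]; ring
      · rw [abs_of_pos (by linarith), max_eq_left (by linarith)]; ring)
    (fun b b' t ht => by
      have : |t - c.1| ≤ 2 * R := abs_le.2 ⟨by linarith [ht.1], by linarith [ht.2]⟩
      refine hb _ (sph _ _ ?_) b b'
      rw [abs_of_pos (a := c.2 + 2 * R - c.2) (by linarith), max_eq_right (by linarith)]; ring)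
    (by rw [d1, dφ]; simp only [← he1, ← he2, ← he3]; linarith)
    (by rw [d2, dφ]; simp only; linarith)
  have ch : ∀ x ∈ Icc (c.1 - 2 * R) (c.1 + 2 * R), ∀ r, ψ (c.1 + (x - c.1), c.2) ≤ r →
      d1 (fun p => e1 * F1 p + e2 * F2 p + e3 * F3 p) (x, c.2) ≤ Real.exp r := by
    intro x hx r hr
    have j := (hiso _ (hO (x - c.1) (abs_le.2 ⟨by linarith [hx.1], by linarith [hx.2]⟩))).1
    have j2 := Real.exp_le_exp.2 (show 2 * ψ (c.1 + (x - c.1), c.2) ≤ r + r by linarith)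
    rw [← j, Real.exp_add, add_sub_cancel] at j2
    rw [d1, dφ]
    refine abs_le_of_sq_le_sq' ?_ (Real.exp_pos r).le |>.2
    simp only [d1] at j2 ⊢
    generalize dd false F1 (x, c.2) = u1 at *
    generalize dd false F2 (x, c.2) = u2 at *
    generalize dd false F3 (x, c.2) = u3 at *
    have : (e1 * u1 + e2 * u2 + e3 * u3) ^ 2 ≤
        (e1 ^ 2 + e2 ^ 2 + e3 ^ 2) * (u1 ^ 2 + u2 ^ 2 + u3 ^ 2) := by
      nlinarith [sq_nonneg (e1 * u2 - e2 * u1), sq_nonneg (e1 * u3 - e3 * u1),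
        sq_nonneg (e2 * u3 - e3 * u2)]
    rw [show e1 ^ 2 + e2 ^ 2 + e3 ^ 2 = 1 by linarith] at this
    linarith
  have n0 : ∀ x ∈ Icc (c.1 - 2 * R) (c.1 + 2 * R),
      d1 (fun p => e1 * F1 p + e2 * F2 p + e3 * F3 p) (x, c.2) ≤ 1 := fun x hx => by
    simpa using ch x hx 0 (hn _ (abs_le.2 ⟨by linarith [hx.1], by linarith [hx.2]⟩))
  have u1 := short_up (short_der1 sφ c.2) (show c.1 - 2 * R ≤ c.1 - R / 2 by linarith)
    fun t ht => n0 t ⟨ht.1, by linarith [ht.2]⟩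
  have u2 := short_up (short_der1 sφ c.2) (show c.1 - R / 2 ≤ c.1 + R / 2 by linarith)
    fun t ht => ch t ⟨by linarith [ht.1], by linarith [ht.2]⟩ _
      (hm _ (abs_le.2 ⟨by linarith [ht.1], by linarith [ht.2]⟩))
  have u3 := short_up (short_der1 sφ c.2) (show c.1 + R / 2 ≤ c.1 - 2 * R + 4 * R by linarith)
    fun t ht => n0 t ⟨by linarith [ht.1], by linarith [ht.2]⟩
  have ex : Real.exp (-a) ≤ 1 - a / 2 := by
    rw [Real.exp_neg, inv_le_iff_one_le_mul₀ (Real.exp_pos a)]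
    nlinarith [Real.add_one_le_exp a]
  have e : R ^ 2 * (a / (400 * R)) = R * a / 400 := by field_simp
  nlinarith [mul_pos hR ha, mul_le_mul_of_nonneg_right ex hR.le]

end

end Vale.Agent.P229
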