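import Vale.Agent.P229.Key
import Vale.Agent.P229.Short
import Vale.Agent.P229.Norm
import Vale.Agent.P229.PatchA

namespace Vale.Agent.P229

open Set Filter MeasureTheory Topology

noncomputable section

/-! JOB Patch: one small patch of the metric excluding all immersions with a given bound. -/

/-- the profile of a cell -/
def patchCell (s : ℝ) : ℝ := Real.smoothTransition ((16 - s) / 7) * (s / 4 - s ^ 2 / 16)

theorem patchCell_zero {s : ℝ} (h : 16 ≤ s) : patchCell s = 0 := by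
  rw [patchCell, Real.smoothTransition.zero_of_nonpos (by linarith), zero_mul]

theorem patchCell_in {s : ℝ} (h : s ≤ 9) : patchCell s = s / 4 - s ^ 2 / 16 := by
  rw [patchCell, Real.smoothTransition.one_of_one_le (by linarith), one_mul]

theorem patch_rr_smul (t : ℝ) (p : Pl) : rr (t • p) = t ^ 2 * rr p := by
  simp only [rr, Prod.smul_fst, Prod.smul_snd, smul_eq_mul]; ring

theorem patch (c : Pl) {R δ : ℝ} (hR : 0 < R) (hδ : 0 < δ) (n : ℕ) (M : ℝ) :
    ∃ ψ : Pl → ℝ, Sm ψ ∧ (∀ p, 3 * R ≤ ‖p - c‖ → ψ p = 0) ∧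
      (∀ k ≤ n, ∀ p, ‖iteratedFDeriv ℝ k ψ p‖ ≤ δ) ∧
      ∀ F1 F2 F3 : Pl → ℝ, Sm F1 → Sm F2 → Sm F3 →
        WB 8 M univ F1 → WB 8 M univ F2 → WB 8 M univ F3 →
        ¬ Iso 1 F1 F2 F3 ψ (Metric.ball c (4 * R)) := by
  obtain ⟨ε, hε, hkey⟩ := key (N := n + 3) (by omega)
  have hδ3 : 0 < δ / 3 := by positivity
  have bz : ∀ p, R ≤ ‖p - c‖ → beta0 (rr (p - c) / R ^ 2) = 0 := fun p hp =>
    patch_beta_zero (by simpa using patch_rr_ge hR zero_le_one (by rwa [one_mul]))
  obtain ⟨C1, hC1, b1⟩ := patch_bound (f := fun p => beta0 (rr (p - c) / R ^ 2))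
    (by unfold Sm beta0 rr; fun_prop) c R bz n
  obtain ⟨a, ha, ha1, haC⟩ := patch_small hC1 hδ3 one_pos
  have hl0 : 0 < a / (400 * R) := by positivity
  obtain ⟨r0, hr0, hnorm⟩ := normalize (M := M) hε hl0
  obtain ⟨m, hm⟩ := exists_nat_gt (R / (10 * r0))
  have hm0 : (0 : ℝ) < m := lt_trans (by positivity) hm
  have hm1 : (1 : ℝ) ≤ m := by exact_mod_cast (Nat.cast_pos.1 hm0 : 0 < m)
  obtain ⟨r, hr, hrR⟩ : ∃ r, 0 < r ∧ R = 10 * m * r :=
    ⟨R / (10 * m), by positivity, by field_simp⟩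
  have hrr : r ≤ r0 := by
    rw [div_lt_iff₀ (by positivity), hrR] at hm
    have h2 : (10 * m : ℝ) * r < (10 * m) * r0 := by linarith
    exact (lt_of_mul_lt_mul_left h2 (by positivity)).le
  have hr10 : 10 * r ≤ R := by
    have := mul_le_mul_of_nonneg_right hm1 hr.le
    linarith
  obtain ⟨C0, hnorm⟩ := hnorm r hr hrr
  obtain ⟨T, t1, t2, t3⟩ := patch_cells c hr m
  have e20 : 20 * m * r = 2 * R := by rw [hrR]; ring
  rw [e20] at t1 t3
  have cz : ∀ e p : Pl, 4 * r ≤ ‖p - e‖ → patchCell (rr (p - e) / r ^ 2) = 0 := fun e p hp =>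
    patchCell_zero (by have := patch_rr_ge hr (by norm_num : (0 : ℝ) ≤ 4) hp; linarith)
  have far : ∀ e ∈ T, ∀ p : Pl, (‖p - c‖ ≤ 2 * R + r ∨ 3 * R ≤ ‖p - c‖) → 4 * r ≤ ‖p - e‖ := by
    intro e he p hp
    have h1 := t1 e he
    have h2 := norm_sub_le_norm_sub_add_norm_sub p e c
    have h3 := norm_sub_le_norm_sub_add_norm_sub e p c
    rw [norm_sub_rev e p] at h3
    rcases hp with hp | hp <;> linarith
  obtain ⟨C2, hC2, b2⟩ := patch_bound (f := fun p => ∑ e ∈ T, patchCell (rr (p - e) / r ^ 2))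
    (ContDiff.sum fun e _ => by unfold patchCell rr; fun_prop) c (3 * R)
    (fun p hp => Finset.sum_eq_zero fun e he => cz e p (far e he p (Or.inr hp))) n
  obtain ⟨κ, hκ, hκ1, hκC⟩ := patch_small hC2 hδ3
    (show 0 < ε * (r * (a / (400 * R))) ^ 2 by positivity)
  obtain ⟨h0, hh0, hkey⟩ := hkey (r * (a / (400 * R))) (by positivity) κ hκ hκ1 C0
  obtain ⟨C3, hC3, b3⟩ := patch_bound (f := fun p => beta0 (rr p / r ^ 2))
    (by unfold Sm beta0 rr; fun_prop) 0 r (fun p hp =>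
      patch_beta_zero (by simpa using patch_rr_ge hr zero_le_one (by simpa using hp))) n
  obtain ⟨h, hh, hh1, hhC⟩ := patch_small (show 0 < (T.card + 1) * C3 by positivity) hδ3
    (lt_min hh0 one_pos)
  have hh2 : h ≤ 1 := hh1.trans (min_le_right _ _)
  have es : ∀ p : Pl, rr (h⁻¹ • p) / r ^ 2 = rr p / r ^ 2 / h ^ 2 := fun p => by
    rw [patch_rr_smul]; field_simp
  have b4 := PSm.sum T fun e _ => b3.scale hh hh2 e
  simp only [es] at b4
  have dz : ∀ e p : Pl, 4 * r ≤ ‖p - e‖ → beta0 (rr (p - e) / r ^ 2 / h ^ 2) = 0 := fun e p hp => by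
    refine patch_beta_zero ?_
    have := patch_rr_ge hr (by norm_num : (0 : ℝ) ≤ 4) hp
    rw [le_div_iff₀ (by positivity)]
    have h3 : h ^ 2 ≤ 1 := pow_le_one₀ hh.le hh2
    linarith
  have b5 := ((b1.mul (-a)).add (b2.mul κ)).add b4
  obtain ⟨ψ, hψ⟩ : ∃ ψ : Pl → ℝ, ψ = fun p => -a * beta0 (rr (p - c) / R ^ 2) +
    κ * ∑ e ∈ T, patchCell (rr (p - e) / r ^ 2) +
    ∑ e ∈ T, h ^ (n + 3) * beta0 (rr (p - e) / r ^ 2 / h ^ 2) := ⟨_, rfl⟩
  rw [← hψ] at b5
  have out : ∀ p : Pl, (‖p - c‖ ≤ 2 * R + r ∨ 3 * R ≤ ‖p - c‖) →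
      ψ p = -a * beta0 (rr (p - c) / R ^ 2) := by
    intro p hp
    rw [hψ]
    simp only
    rw [Finset.sum_eq_zero fun e he => cz e p (far e he p hp),
      Finset.sum_eq_zero fun e he => by rw [dz e p (far e he p hp), mul_zero]]
    ring
  refine ⟨ψ, b5.1, fun p hp => ?_, (b5.mono ?_).2, fun F1 F2 F3 s1 s2 s3 w1 w2 w3 hiso => ?_⟩
  · rw [out p (Or.inr hp), bz p (by linarith), mul_zero]
  · rw [abs_neg, abs_of_pos ha, abs_of_pos hκ]
    have : 0 ≤ h * C3 := by positivity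
    linarith
  have nt : ∀ t : ℝ, ‖((c.1 + t, c.2) : Pl) - c‖ = |t| := fun t => by
    rw [Prod.norm_def]; simp
  obtain ⟨q, hq, hF⟩ := shortcut hR ha ha1 c s1 s2 s3 hiso
    (fun t ht => by rw [mem_ball_iff_norm, nt]; linarith)
    (by
      have := nt (-(2 * R))
      rw [abs_neg, abs_of_pos (by positivity), ← sub_eq_add_neg] at this
      rw [out _ (Or.inl (by linarith)), bz _ (by linarith), mul_zero])
    (fun t ht => by
      rw [out _ (Or.inl (by rw [nt]; linarith))]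
      exact mul_nonpos_of_nonpos_of_nonneg (by linarith) (Real.smoothTransition.nonneg _))
    (fun t ht => by
      rw [out _ (Or.inl (by rw [nt]; linarith)), patch_beta_one, mul_one]
      have h1 : t ^ 2 ≤ (R / 2) ^ 2 := by
        rw [← sq_abs]; exact pow_le_pow_left₀ (abs_nonneg _) ht 2
      rw [div_le_iff₀ (by positivity)]
      simp only [rr, Prod.fst_sub, Prod.snd_sub, add_sub_cancel_left, sub_self]
      linarith)
  rw [mem_sphere_iff_norm] at hq
  obtain ⟨e, he, hqe⟩ := t3 q hq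
  obtain ⟨lam, u, v, z, l1, l2, su, sv, sz, wu, wv, wz, hcl, hi⟩ := hnorm F1 F2 F3 ψ _ e q
    (fun s => κ * (s / 4 - s ^ 2 / 16) + h ^ (n + 3) * beta0 (s / h ^ 2)) s1 s2 s3 b5.1 w1 w2 w3
    Metric.isOpen_ball hiso (by rw [mem_ball_iff_norm]; linarith) (by
      have hc : Continuous fun p : Pl => ‖p - c‖ := (continuous_id.sub continuous_const).norm
      have ho : IsOpen {p : Pl | R < ‖p - c‖ ∧ ‖p - c‖ < 2 * R + r} :=
        (isOpen_lt continuous_const hc).inter (isOpen_lt hc continuous_const)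
      refine Filter.eventually_of_mem (ho.mem_nhds ⟨by linarith, by linarith⟩) fun p hp => ?_
      rw [out p (Or.inl hp.2.le), bz p hp.1.le, mul_zero]) hqe hF (by
      intro p hp
      have h1 : ‖p - e‖ < 3 * r := by
        have := norm_sq_le_rr (p - e)
        exact lt_of_pow_lt_pow_left₀ 2 (by positivity) (by linarith)
      have h2 := t1 e he
      have h3 := norm_sub_le_norm_sub_add_norm_sub p e c
      have h4 := norm_sub_le_norm_sub_add_norm_sub e p c
      rw [norm_sub_rev e p] at h4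
      have h5 : ∀ e' ∈ T, e' ≠ e → 4 * r ≤ ‖p - e'‖ := fun e' he' hne => by
        have h6 := t2 e' he' e he hne
        have h7 := norm_sub_le_norm_sub_add_norm_sub e' p e
        rw [norm_sub_rev e' p] at h7
        linarith
      refine ⟨by rw [mem_ball_iff_norm]; linarith, ?_⟩
      rw [hψ]
      simp only
      rw [Finset.sum_eq_single_of_mem e he fun e' he' hne => cz e' p (h5 e' he' hne),
        Finset.sum_eq_single_of_mem e he fun e' he' hne => by
          rw [dz e' p (h5 e' he' hne), mul_zero],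
        bz p (by linarith), patchCell_in ((div_le_iff₀ (by positivity)).2 hp.le)]
      ring)
  exact hkey h hh (hh1.trans (min_le_left _ _)) lam u v z l1 l2 su sv sz wu wv wz hcl hi

end

end Vale.Agent.P229
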