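import Vale.Agent.P229.Gauss
import Vale.Agent.P229.ClsS

namespace Vale.Agent.P229

open Set Filter MeasureTheory Topology

noncomputable section

/-! JOB Sys: the closed first order system in the hodograph plane. -/

theorem sys_alg {E e io Δ L M f1 f2 a1 a2 n ph lam X Y T : ℝ} (hE : e * E = 1) (hio : io * Δ = 1)
    (hph : ph = -n * io) (g1 : E ^ 2 * f1 = E ^ 2 * a1 + L * (lam ^ 2 * n))
    (g2 : E ^ 2 * f2 = E ^ 2 * a2 + M * (lam ^ 2 * n)) (hT : T = io * (L * X + M * Y)) :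
    f1 * X + f2 * Y - (a1 * X + a2 * Y - lam ^ 2 * ph * (Δ ^ 2 * e ^ 2) * T) = 0 := by
  have h1 : f1 = a1 + e ^ 2 * (L * (lam ^ 2 * n)) := by
    linear_combination e ^ 2 * g1 - (f1 - a1) * (e * E + 1) * hE
  have h2 : f2 = a2 + e ^ 2 * (M * (lam ^ 2 * n)) := by
    linear_combination e ^ 2 * g2 - (f2 - a2) * (e * E + 1) * hE
  rw [h1, h2, hph, hT]
  linear_combination (-(lam ^ 2 * n * e ^ 2 * (L * X + M * Y) * (io * Δ + 1))) * hio

namespace Dat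

variable {N : ℕ} {ε κ lmin : ℝ} (d : Dat N ε κ lmin)

theorem map_mem {i : ℕ} {p : Pl} (hp : p ∈ d.G0 i) :
    (d.X.1 i p, d.Y.1 i p) ∈ disc 4 ∧ d.h i ^ 2 < rr (d.X.1 i p, d.Y.1 i p) := by
  obtain ⟨h1, h2⟩ : 2 * d.h i < ‖p‖ ∧ rr p < 3 := hp
  obtain ⟨h3, h4⟩ := d.XY_norm i p
  have h5 := d.h_pos i
  have h6 : ε * ‖p‖ ≤ 1 / 100 * ‖p‖ := mul_le_mul_of_nonneg_right d.eps_le (norm_nonneg p)
  have h7 : ‖(d.X.1 i p, d.Y.1 i p) - p‖ ≤ 1 / 100 * ‖p‖ :=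
    max_le (h3.trans h6) (h4.trans h6)
  have h8 := norm_sq_le_rr p
  constructor
  · have a1 : |p.1| ≤ ‖p‖ := norm_fst_le p
    have a2 : |p.2| ≤ ‖p‖ := norm_snd_le p
    have a3 := abs_le.mp (h3.trans h6)
    have a4 := abs_le.mp (h4.trans h6)
    have a5 := abs_le.mp a1
    have a6 := abs_le.mp a2
    change d.X.1 i p ^ 2 + d.Y.1 i p ^ 2 < 4
    unfold rr at h2 h8
    generalize d.X.1 i p = x at *
    generalize d.Y.1 i p = y at *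
    generalize ‖p‖ = r at *
    have b1 : (x - p.1) * (x + p.1) ≤ 1 / 100 * r * (3 * r) :=
      (le_abs_self _).trans (by
        rw [abs_mul]
        exact mul_le_mul (abs_le.mpr a3) (abs_le.mpr ⟨by linarith, by linarith⟩) (abs_nonneg _)
          (by linarith))
    have b2 : (y - p.2) * (y + p.2) ≤ 1 / 100 * r * (3 * r) :=
      (le_abs_self _).trans (by
        rw [abs_mul]
        exact mul_le_mul (abs_le.mpr a4) (abs_le.mpr ⟨by linarith, by linarith⟩) (abs_nonneg _)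
          (by linarith))
    nlinarith
  · have a1 := norm_sub_norm_le p (d.X.1 i p, d.Y.1 i p)
    rw [norm_sub_rev] at a1
    exact (pow_lt_pow_left₀ (by linarith) h5.le two_ne_zero).trans_le (norm_sq_le_rr _)

/-- The point in the original plane. -/
def sysq (i : ℕ) (p : Pl) : Pl := (d.X.1 i p, d.Y.1 i p)

/-- The second slope. -/
def sysQ : Rg := -(D1 d.z * D2 d.u - D1 d.u * D2 d.z) * d.io

variable {i : ℕ} {p : Pl}

theorem sys_Dc (b : Bool) (f : Rg) (i : ℕ) (p : Pl) : (D b (d.c f)).1 i p =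
    d1 (f.1 i) (d.sysq i p) * (D b d.X).1 i p + d2 (f.1 i) (d.sysq i p) * (D b d.Y).1 i p :=
  dd_comp2 b ((f.sm i).diff _) ((d.X.sm i).diff p) ((d.Y.sm i).diff p)

theorem sys_cX (b : Bool) (i : ℕ) (p : Pl) : (D b cX).1 i p =
    d1 (d.P.1 i) (d.sysq i p) * (D b d.X).1 i p + d2 (d.P.1 i) (d.sysq i p) * (D b d.Y).1 i p := by
  rw [show cX = d.c d.P from Rg.ext' fun i p => (d.PV_XY i p).1.symm, sys_Dc]

theorem sys_cY (hp : p ∈ d.G0 i) (b : Bool) : (D b cY).1 i p =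
    d1 (d.v.1 i) (d.sysq i p) * (D b d.X).1 i p + d2 (d.v.1 i) (d.sysq i p) * (D b d.Y).1 i p := by
  have h := fun b => dd_congr_on (isOpen_disc 4) (d.V_eq i) b (d.sysq i p) (d.map_mem hp).1
  rw [show cY = d.c d.V from Rg.ext' fun i p => (d.PV_XY i p).2.symm, sys_Dc, d1, d2, h, h]

theorem sys_lam (i : ℕ) : d.lam i ≠ 0 := (d.lmin_pos.trans_le (d.lam_ge i)).ne'

theorem sys_gauss (hp : p ∈ d.G0 i) :
    Dl (d.u.1 i) (d.v.1 i) (d.sysq i p) ^ 2 + d.lam i ^ 2 * (n1 (d.v.1 i) (d.z.1 i) (d.sysq i p) ^ 2 +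
      n2 (d.u.1 i) (d.z.1 i) (d.sysq i p) ^ 2) = Real.exp (2 * psi0 κ (d.sysq i p)) ^ 2 ∧
    GF (d.u.1 i) (d.v.1 i) (d.z.1 i) (psi0 κ) (d.u.1 i)
      (d.lam i ^ 2 * n1 (d.v.1 i) (d.z.1 i) (d.sysq i p)) (d.sysq i p) ∧
    GF (d.u.1 i) (d.v.1 i) (d.z.1 i) (psi0 κ) (d.v.1 i)
      (d.lam i ^ 2 * n2 (d.u.1 i) (d.z.1 i) (d.sysq i p)) (d.sysq i p) ∧
    d.lam i ^ 2 * (ell (d.u.1 i) (d.v.1 i) (d.z.1 i) false false (d.sysq i p) *
      ell (d.u.1 i) (d.v.1 i) (d.z.1 i) true true (d.sysq i p) -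
      ell (d.u.1 i) (d.v.1 i) (d.z.1 i) true false (d.sysq i p) ^ 2) =
      -(κ * (1 - rr (d.sysq i p))) * Real.exp (2 * psi0 κ (d.sysq i p)) ^ 3 := by
  have := gauss (d.sys_lam i) (d.u.sm i) (d.v.sm i) (d.z.sm i) (sm_psi0 κ)
    (O := disc 4 ∩ {q | d.h i ^ 2 < rr q})
    ((isOpen_disc 4).inter (isOpen_lt continuous_const sm_rr.continuous)) (fun q hq => by
      rw [← psi_out N κ (d.h_pos i) (le_of_lt hq.2)]
      exact d.iso i q (lt_trans (show rr q < 4 from hq.1) (by norm_num))) (p := d.sysq i p) (d.map_mem hp)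
  rw [lap_psi0] at this
  exact ⟨this.1, this.2.1, this.2.2.1, this.2.2.2.2⟩

theorem sys_io (hp : p ∈ d.G0 i) :
    d.io.1 i (d.sysq i p) * Dl (d.u.1 i) (d.v.1 i) (d.sysq i p) = 1 :=
  d.io_mul i _ (d.map_mem hp).1

theorem sys_Pp (hp : p ∈ d.G0 i) :
    d.Pp.1 i p = -n1 (d.v.1 i) (d.z.1 i) (d.sysq i p) * d.io.1 i (d.sysq i p) := by
  rw [← d.P_eq i (d.sysq i p) (d.map_mem hp).1, sysq, (d.PV_XY i p).1]; rfl

theorem sys_Qq (i : ℕ) (p : Pl) :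
    d.Q.1 i p = -n2 (d.u.1 i) (d.z.1 i) (d.sysq i p) * d.io.1 i (d.sysq i p) := rfl

theorem sys_e (i : ℕ) (p : Pl) : d.Ee.1 i p * Real.exp (2 * psi0 κ (d.sysq i p)) = 1 := by
  change Real.exp (-2 * psi0 κ (d.sysq i p)) * _ = 1
  rw [← Real.exp_add, neg_mul, neg_add_cancel, Real.exp_zero]

theorem sys_z (b : Bool) (i : ℕ) : ∀ q ∈ disc 4, dd b (d.z.1 i) q =
    (d.P.1 i q + d.p0 i) * dd b (d.u.1 i) q + d.sysQ.1 i q * dd b (d.v.1 i) q := fun q hq => by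
  have h := d.io_mul i q hq
  rw [d.P_eq i q hq, show d.sysQ.1 i q = -n2 (d.u.1 i) (d.z.1 i) q * d.io.1 i q from rfl]
  unfold Dl at h
  unfold n1 n2
  cases b
  · linear_combination (-d1 (d.z.1 i) q) * h
  · linear_combination (-d2 (d.z.1 i) q) * h

theorem sys_B (hp : p ∈ d.G0 i) (b b' : Bool) :
    dd b (d.P.1 i) (d.sysq i p) * dd b' (d.u.1 i) (d.sysq i p) +
      dd b (d.sysQ.1 i) (d.sysq i p) * dd b' (d.v.1 i) (d.sysq i p) =
      d.io.1 i (d.sysq i p) * ell (d.u.1 i) (d.v.1 i) (d.z.1 i) b b' (d.sysq i p) := by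
  have hq : d.sysq i p ∈ disc 4 := (d.map_mem hp).1
  generalize d.sysq i p = q at hq
  have h := dd_congr_on (isOpen_disc 4) (d.sys_z b' i) b q hq
  have hP := (d.P.sm i).diff q
  have hP' : DifferentiableAt ℝ (fun q => d.P.1 i q + d.p0 i) q := hP.add_const _
  have hu := ((d.u.sm i).dd b').diff q
  have hv := ((d.v.sm i).dd b').diff q
  have hQ := (d.sysQ.sm i).diff q
  rw [dd_add b (hP'.fun_mul hu) (hQ.fun_mul hv), dd_mul b hP' hu, dd_mul b hQ hv,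
    dd_add b hP (differentiableAt_const _), dd_const, d.P_eq i q hq,
    show d.sysQ.1 i q = -n2 (d.u.1 i) (d.z.1 i) q * d.io.1 i q from rfl] at h
  unfold ell
  linear_combination (-1 : ℝ) * h - dd b (dd b' (d.z.1 i)) q * d.io_mul i q hq

theorem sys_ell (i : ℕ) (q : Pl) : ell (d.u.1 i) (d.v.1 i) (d.z.1 i) false true q =
    ell (d.u.1 i) (d.v.1 i) (d.z.1 i) true false q := by
  unfold ell
  rw [dd_comm (d.u.sm i), dd_comm (d.v.sm i), dd_comm (d.z.sm i)]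

theorem sys_W2 (hp : p ∈ d.G0 i) :
    d.W2.1 i p = Real.exp (2 * psi0 κ (d.sysq i p)) ^ 2 * d.io.1 i (d.sysq i p) ^ 2 := by
  change 1 + d.lam i ^ 2 * (d.Pp.1 i p ^ 2 + d.Q.1 i p ^ 2) = _
  rw [d.sys_Pp hp, d.sys_Qq, ← (d.sys_gauss hp).1]
  linear_combination (-(d.io.1 i (d.sysq i p) * Dl (d.u.1 i) (d.v.1 i) (d.sysq i p) + 1)) *
    d.sys_io hp

theorem sys_Ioq (hp : p ∈ d.G0 i) : d.Io.1 i p = d.io.1 i (d.sysq i p) := by
  change Dl (d.u.1 i) (d.v.1 i) (d.sysq i p) * d.W2.1 i p * d.Ee.1 i p ^ 2 = _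
  have h1 := d.sys_e i p
  have h2 := d.sys_io hp
  rw [d.sys_W2 hp]
  generalize Real.exp (2 * psi0 κ (d.sysq i p)) = E at *
  generalize d.io.1 i (d.sysq i p) = io at *
  generalize Dl (d.u.1 i) (d.v.1 i) (d.sysq i p) = Δ at *
  generalize d.Ee.1 i p = e at *
  linear_combination Δ * io ^ 2 * (e * E + 1) * h1 + io * h2

theorem sys_Io : Z d.G0 (d.Io * d.De - 1) := by
  intro i p hp
  change d.Io.1 i p * Dl (d.u.1 i) (d.v.1 i) (d.sysq i p) - 1 = 0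
  rw [d.sys_Ioq hp, d.sys_io hp, sub_self]

theorem sys_X (b : Bool) : Z d.G0 (D b d.X - d.Io * (d.Vy * D b d.U - d.Uy * D b cY)) := by
  intro i p hp
  change (D b d.X).1 i p - d.Io.1 i p * (d2 (d.v.1 i) (d.sysq i p) * (D b (d.c d.u)).1 i p -
    d2 (d.u.1 i) (d.sysq i p) * (D b cY).1 i p) = 0
  have h := d.sys_io hp
  rw [d.sys_Ioq hp, d.sys_Dc, d.sys_cY hp]
  unfold Dl at h
  linear_combination (-(D b d.X).1 i p) * h

theorem sys_Y (b : Bool) : Z d.G0 (D b d.Y - d.Io * (d.Ux * D b cY - d.Vx * D b d.U)) := by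
  intro i p hp
  change (D b d.Y).1 i p - d.Io.1 i p * (d1 (d.u.1 i) (d.sysq i p) * (D b cY).1 i p -
    d1 (d.v.1 i) (d.sysq i p) * (D b (d.c d.u)).1 i p) = 0
  have h := d.sys_io hp
  rw [d.sys_Ioq hp, d.sys_Dc, d.sys_cY hp]
  unfold Dl at h
  linear_combination (-(D b d.Y).1 i p) * h

theorem sys_inv {Px Py vx vy X1 X2 Y1 Y2 : ℝ} (h1 : 1 = Px * X1 + Py * Y1)
    (h2 : 0 = Px * X2 + Py * Y2) (h3 : 0 = vx * X1 + vy * Y1) (h4 : 1 = vx * X2 + vy * Y2) :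
    Px * (X1 * Y2 - X2 * Y1) = Y2 ∧ Py * (X1 * Y2 - X2 * Y1) = -X2 ∧
      vx * (X1 * Y2 - X2 * Y1) = -Y1 ∧ vy * (X1 * Y2 - X2 * Y1) = X1 :=
  ⟨by linear_combination Y1 * h2 - Y2 * h1, by linear_combination X2 * h1 - X1 * h2,
    by linear_combination Y1 * h4 - Y2 * h3, by linear_combination X2 * h3 - X1 * h4⟩

theorem sys_Th (hp : p ∈ d.G0 i) : ∃ Th : ℝ,
    d1 (d.P.1 i) (d.sysq i p) * Th = (D2 d.Y).1 i p ∧
    d2 (d.P.1 i) (d.sysq i p) * Th = -(D2 d.X).1 i p ∧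
    d1 (d.v.1 i) (d.sysq i p) * Th = -(D1 d.Y).1 i p ∧
    d2 (d.v.1 i) (d.sysq i p) * Th = (D1 d.X).1 i p := by
  have h1 := d.sys_cX false i p
  have h2 := d.sys_cX true i p
  have h3 := d.sys_cY hp false
  have h4 := d.sys_cY hp true
  rw [D1_cX] at h1
  rw [D2_cX] at h2
  rw [D1_cY] at h3
  rw [D2_cY] at h4
  exact ⟨_, sys_inv h1 h2 h3 h4⟩

theorem sys_Q1 : Z d.G0 (D1 d.Q + D2 d.U) := by
  intro i p hp
  change (D false (d.c d.sysQ)).1 i p + (D true (d.c d.u)).1 i p = 0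
  obtain ⟨Th, h1, h2, h3, h4⟩ := d.sys_Th hp
  have b1 := d.sys_B hp false true
  have b2 := d.sys_B hp true false
  rw [d.sys_ell] at b1
  rw [d.sys_Dc, d.sys_Dc]
  linear_combination Th * (b1 - b2) - d1 (d.sysQ.1 i) (d.sysq i p) * h4 +
    d2 (d.sysQ.1 i) (d.sysq i p) * h3 + d1 (d.u.1 i) (d.sysq i p) * h2 -
    d2 (d.u.1 i) (d.sysq i p) * h1

theorem sys_alg2 {Px Py Qx Qy ux uy vx vy io L M Nn lam κ s E e : ℝ} (hl : lam ≠ 0)
    (hE : e * E = 1) (hio : io * (ux * vy - uy * vx) = 1) (b11 : Px * ux + Qx * vx = io * L)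
    (b12 : Px * uy + Qx * vy = io * M) (b21 : Py * ux + Qy * vx = io * M)
    (b22 : Py * uy + Qy * vy = io * Nn) (hG : lam ^ 2 * (L * Nn - M ^ 2) = -(κ * (1 - s)) * E ^ 3) :
    Px * Qy - Py * Qx = κ / lam ^ 2 * (s - 1) * e * (E ^ 2 * io ^ 2) ^ 2 * (ux * vy - uy * vx) := by
  have h1 : L * Nn - M ^ 2 = κ / lam ^ 2 * (s - 1) * E ^ 3 := by
    field_simp
    linear_combination hG
  have h2 : (Px * Qy - Py * Qx) * (ux * vy - uy * vx) = io ^ 2 * (L * Nn - M ^ 2) := by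
    linear_combination (Py * uy + Qy * vy) * b11 + io * L * b22 - (Py * ux + Qy * vx) * b12 -
      io * M * b21
  rw [h1] at h2
  generalize κ / lam ^ 2 = μ at *
  generalize ux * vy - uy * vx = Δ at *
  generalize Px * Qy - Py * Qx = J at *
  linear_combination io * h2 - J * hio - μ * (s - 1) * E ^ 3 * io ^ 3 * (io * Δ * hE + hio)

theorem sys_Q2 : Z d.G0 (D2 d.Q - d.aa * D1 d.U) := by
  intro i p hp
  change (D true (d.c d.sysQ)).1 i p - κ / d.lam i ^ 2 * (rr (d.sysq i p) - 1) * d.Ee.1 i p *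
    d.W2.1 i p ^ 2 * (D false (d.c d.u)).1 i p = 0
  obtain ⟨Th, h1, h2, h3, h4⟩ := d.sys_Th hp
  have h := sys_alg2 (d.sys_lam i) (d.sys_e i p) (d.sys_io hp) (d.sys_B hp false false)
    (d.sys_ell i _ ▸ d.sys_B hp false true) (d.sys_B hp true false) (d.sys_B hp true true)
    (d.sys_gauss hp).2.2.2
  rw [d.sys_Dc, d.sys_Dc, d.sys_W2 hp]
  generalize κ / d.lam i ^ 2 * (rr (d.sysq i p) - 1) * d.Ee.1 i p *
    (Real.exp (2 * psi0 κ (d.sysq i p)) ^ 2 * d.io.1 i (d.sysq i p) ^ 2) ^ 2 = a at *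
  linear_combination Th * h + d1 (d.sysQ.1 i) (d.sysq i p) * h2 -
    d2 (d.sysQ.1 i) (d.sysq i p) * h1 + a * d1 (d.u.1 i) (d.sysq i p) * h4 -
    a * d2 (d.u.1 i) (d.sysq i p) * h3

theorem sys_Zt (b : Bool) : Z d.G0 (D b d.Zt - (d.Pp * D b d.U + d.Q * D b cY)) := by
  intro i p hp
  change (D b (d.c d.z)).1 i p - ((p.1 + d.p0 i) * (D b (d.c d.u)).1 i p +
    d.sysQ.1 i (d.sysq i p) * (D b cY).1 i p) = 0
  have h1 := d.sys_z false i (d.sysq i p) (d.map_mem hp).1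
  have h2 := d.sys_z true i (d.sysq i p) (d.map_mem hp).1
  rw [show d.P.1 i (d.sysq i p) = p.1 from (d.PV_XY i p).1] at h1 h2
  rw [d.sys_Dc, d.sys_Dc, d.sys_cY hp]
  linear_combination (D b d.X).1 i p * h1 + (D b d.Y).1 i p * h2

theorem sys_px (i : ℕ) (p : Pl) : d.px.1 i p = d1 (psi0 κ) (d.sysq i p) :=
  (d1_psi0 κ (d.sysq i p)).symm

theorem sys_py (i : ℕ) (p : Pl) : d.py.1 i p = d2 (psi0 κ) (d.sysq i p) :=
  (d2_psi0 κ (d.sysq i p)).symm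

theorem sys_Ee (b : Bool) :
    Z d.G0 (D b d.Ee + 2 * d.Ee * (d.px * D b d.X + d.py * D b d.Y)) := by
  intro i p _
  have h : ∀ b q, dd b (fun p => Real.exp (-2 * psi0 κ p)) q =
      Real.exp (-2 * psi0 κ q) * (-2 * dd b (psi0 κ) q) := fun b q => by
    rw [dd_comp1 b (Real.hasDerivAt_exp _) (((sm_psi0 κ).diff q).const_mul _),
      dd_const_mul b _ ((sm_psi0 κ).diff q)]
  change (D b (d.c (fix _ (sm_exp_psi0 κ)))).1 i p + 2 * Real.exp (-2 * psi0 κ (d.sysq i p)) *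
    (d.px.1 i p * (D b d.X).1 i p + d.py.1 i p * (D b d.Y).1 i p) = 0
  rw [d.sys_Dc, d.sys_px, d.sys_py, fix_ap, d1, d2, h, h]
  ring

theorem sys_T (hp : p ∈ d.G0 i) (b b' : Bool) :
    (D b cX).1 i p * dd b' (d.u.1 i) (d.sysq i p) +
      (D b d.Q).1 i p * dd b' (d.v.1 i) (d.sysq i p) = d.io.1 i (d.sysq i p) *
      (ell (d.u.1 i) (d.v.1 i) (d.z.1 i) false b' (d.sysq i p) * (D b d.X).1 i p +
        ell (d.u.1 i) (d.v.1 i) (d.z.1 i) true b' (d.sysq i p) * (D b d.Y).1 i p) := by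
  rw [d.sys_cX, show d.Q = d.c d.sysQ from rfl, d.sys_Dc]
  linear_combination (D b d.X).1 i p * d.sys_B hp false b' + (D b d.Y).1 i p * d.sys_B hp true b'

theorem sys_F1 (hp : p ∈ d.G0 i) (b : Bool) (f : Rg) {n ph : ℝ}
    (hph : ph = -n * d.io.1 i (d.sysq i p))
    (g : GF (d.u.1 i) (d.v.1 i) (d.z.1 i) (psi0 κ) (f.1 i) (d.lam i ^ 2 * n) (d.sysq i p)) :
    (D b (d.c (D1 f))).1 i p -
      ((d.px.1 i p * d1 (f.1 i) (d.sysq i p) - d.py.1 i p * d2 (f.1 i) (d.sysq i p)) *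
        (D b d.X).1 i p +
      (d.py.1 i p * d1 (f.1 i) (d.sysq i p) + d.px.1 i p * d2 (f.1 i) (d.sysq i p)) *
        (D b d.Y).1 i p - d.lam i ^ 2 * ph *
        (Dl (d.u.1 i) (d.v.1 i) (d.sysq i p) ^ 2 * d.Ee.1 i p ^ 2) *
        ((D b cX).1 i p * d1 (d.u.1 i) (d.sysq i p) +
          (D b d.Q).1 i p * d1 (d.v.1 i) (d.sysq i p))) = 0 := by
  rw [d.sys_Dc, d.sys_px, d.sys_py]
  exact sys_alg (d.sys_e i p) (d.sys_io hp) hph g.1 g.2.1 (d.sys_T hp b false)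

theorem sys_F2 (hp : p ∈ d.G0 i) (b : Bool) (f : Rg) {n ph : ℝ}
    (hph : ph = -n * d.io.1 i (d.sysq i p))
    (g : GF (d.u.1 i) (d.v.1 i) (d.z.1 i) (psi0 κ) (f.1 i) (d.lam i ^ 2 * n) (d.sysq i p)) :
    (D b (d.c (D2 f))).1 i p -
      ((d.py.1 i p * d1 (f.1 i) (d.sysq i p) + d.px.1 i p * d2 (f.1 i) (d.sysq i p)) *
        (D b d.X).1 i p +
      (d.py.1 i p * d2 (f.1 i) (d.sysq i p) - d.px.1 i p * d1 (f.1 i) (d.sysq i p)) *
        (D b d.Y).1 i p - d.lam i ^ 2 * ph *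
        (Dl (d.u.1 i) (d.v.1 i) (d.sysq i p) ^ 2 * d.Ee.1 i p ^ 2) *
        ((D b cX).1 i p * d2 (d.u.1 i) (d.sysq i p) +
          (D b d.Q).1 i p * d2 (d.v.1 i) (d.sysq i p))) = 0 := by
  have hT := d.sys_T hp b true
  rw [d.sys_ell] at hT
  rw [d.sys_Dc, d.sys_px, d.sys_py, D_ap, d1, dd_comm (f.sm i) false true]
  exact sys_alg (d.sys_e i p) (d.sys_io hp) hph g.2.1 (by linear_combination g.2.2) hT

theorem sys_Ux (b : Bool) : Z d.G0 (D b d.Ux -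
    ((d.px * d.Ux - d.py * d.Uy) * D b d.X + (d.py * d.Ux + d.px * d.Uy) * D b d.Y -
      d.La ^ 2 * d.Pp * d.Ww * (D b cX * d.Ux + D b d.Q * d.Vx))) := fun _ _ hp =>
  d.sys_F1 hp b d.u (d.sys_Pp hp) (d.sys_gauss hp).2.1

theorem sys_Uy (b : Bool) : Z d.G0 (D b d.Uy -
    ((d.py * d.Ux + d.px * d.Uy) * D b d.X + (d.py * d.Uy - d.px * d.Ux) * D b d.Y -
      d.La ^ 2 * d.Pp * d.Ww * (D b cX * d.Uy + D b d.Q * d.Vy))) := fun _ _ hp =>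
  d.sys_F2 hp b d.u (d.sys_Pp hp) (d.sys_gauss hp).2.1

theorem sys_Vx (b : Bool) : Z d.G0 (D b d.Vx -
    ((d.px * d.Vx - d.py * d.Vy) * D b d.X + (d.py * d.Vx + d.px * d.Vy) * D b d.Y -
      d.La ^ 2 * d.Q * d.Ww * (D b cX * d.Ux + D b d.Q * d.Vx))) := fun i p hp =>
  d.sys_F1 hp b d.v (d.sys_Qq i p) (d.sys_gauss hp).2.2.1

theorem sys_Vy (b : Bool) : Z d.G0 (D b d.Vy -
    ((d.py * d.Vx + d.px * d.Vy) * D b d.X + (d.py * d.Vy - d.px * d.Vx) * D b d.Y -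
      d.La ^ 2 * d.Q * d.Ww * (D b cX * d.Uy + D b d.Q * d.Vy))) := fun i p hp =>
  d.sys_F2 hp b d.v (d.sys_Qq i p) (d.sys_gauss hp).2.2.1

end Dat

end

end Vale.Agent.P229
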