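import Vale.Agent.P229.ClsS

namespace Vale.Agent.P229

open Set Filter MeasureTheory Topology

noncomputable section

/-! Auxiliary file for the job Taylor: vanishing order at a point, Taylor bound. -/

/-- All derivatives of order less than `k` vanish at `q i`. -/
def Van (q : ℕ → Pl) (k : ℕ) (f : Rg) : Prop :=
  ∀ l : List Bool, l.length < k → ∀ i, (W l f).1 i (q i) = 0

variable {q : ℕ → Pl} {k : ℕ} {f g : Rg}

theorem Van.mono {k' : ℕ} (h : Van q k f) (hk : k' ≤ k) : Van q k' f :=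
  fun l hl => h l (hl.trans_le hk)

theorem Van.der (h : Van q (k + 1) f) (b : Bool) : Van q k (D b f) :=
  fun l hl => h (b :: l) (by simpa using hl)

theorem Van.val (h : Van q (k + 1) f) (i : ℕ) : f.1 i (q i) = 0 := h [] (Nat.succ_pos _) i

theorem van_zero : Van q 0 f := fun _ hl => absurd hl (Nat.not_lt_zero _)

theorem van_succ (h0 : ∀ i, f.1 i (q i) = 0) (h : ∀ b, Van q k (D b f)) : Van q (k + 1) f := by
  intro l hl
  cases l with
  | nil => exact h0
  | cons b l => exact h b l (by simpa using hl)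

theorem Van.add (hf : Van q k f) (hg : Van q k g) : Van q k (f + g) := by
  intro l hl i
  rw [map_add, Rg.add_ap, hf l hl i, hg l hl i, add_zero]

theorem Van.mul_left (hf : Van q k f) (g : Rg) : Van q k (g * f) := by
  induction k generalizing f g with
  | zero => exact van_zero
  | succ k ih =>
    refine van_succ (fun i => by rw [Rg.mul_ap, hf.val, mul_zero]) fun b => ?_
    rw [D_mul, mul_comm f]
    exact (ih (hf.der b) g).add (ih (hf.mono (Nat.le_succ _)) _)

theorem Z.van {O : ℕ → Set Pl} (hO : ∀ i, IsOpen (O i)) (hq : ∀ i, q i ∈ O i) (h : Z O f) :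
    Van q k f := fun l _ i => h.word hO l i _ (hq i)

theorem taylor_seg1 {φ : Pl → ℝ} (hφ : Sm φ) {H B y s t : ℝ} (hs : s ∈ Icc (-H) H)
    (ht : t ∈ Icc (-H) H) (hB : ∀ r ∈ Icc (-H) H, |dd false φ (r, y)| ≤ B) :
    |φ (s, y) - φ (t, y)| ≤ B * (2 * H) := by
  have hd : ∀ r, HasDerivAt (fun r => φ (r, y)) (dd false φ (r, y)) r := fun r =>
    (hφ.diff (r, y)).hasFDerivAt.comp_hasDerivAt r
      ((hasDerivAt_id r).prodMk (hasDerivAt_const r y))
  have h1 := (convex_Icc (-H) H).norm_image_sub_le_of_norm_hasDerivWithin_le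
    (fun r _ => (hd r).hasDerivWithinAt) hB ht hs
  have h2 : ‖s - t‖ ≤ 2 * H := abs_le.2 ⟨by linarith [hs.1, ht.2], by linarith [hs.2, ht.1]⟩
  exact h1.trans (mul_le_mul_of_nonneg_left h2 ((abs_nonneg _).trans (hB s hs)))

theorem taylor_seg2 {φ : Pl → ℝ} (hφ : Sm φ) {H B x s t : ℝ} (hs : s ∈ Icc (-H) H)
    (ht : t ∈ Icc (-H) H) (hB : ∀ r ∈ Icc (-H) H, |dd true φ (x, r)| ≤ B) :
    |φ (x, s) - φ (x, t)| ≤ B * (2 * H) := by
  have hd : ∀ r, HasDerivAt (fun r => φ (x, r)) (dd true φ (x, r)) r := fun r =>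
    (hφ.diff (x, r)).hasFDerivAt.comp_hasDerivAt r
      ((hasDerivAt_const r x).prodMk (hasDerivAt_id r))
  have h1 := (convex_Icc (-H) H).norm_image_sub_le_of_norm_hasDerivWithin_le
    (fun r _ => (hd r).hasDerivWithinAt) hB ht hs
  have h2 : ‖s - t‖ ≤ 2 * H := abs_le.2 ⟨by linarith [hs.1, ht.2], by linarith [hs.2, ht.1]⟩
  exact h1.trans (mul_le_mul_of_nonneg_left h2 ((abs_nonneg _).trans (hB s hs)))

/-- Every point of `K` is joined to the corner by two axis parallel segments inside `K`. -/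
def PathOK (H : ℝ) (K : Set Pl) : Prop :=
  ∀ p ∈ K, p.1 ∈ Icc (-H) H ∧ p.2 ∈ Icc (-H) H ∧
    ((∀ t ∈ Icc (-H) H, (t, -H) ∈ K ∧ (p.1, t) ∈ K) ∨
      (∀ t ∈ Icc (-H) H, (-H, t) ∈ K ∧ (t, p.2) ∈ K))

theorem taylor_mem_ball {H : ℝ} {p : Pl} :
    p ∈ Metric.closedBall (0 : Pl) H ↔ |p.1| ≤ H ∧ |p.2| ≤ H := by
  rw [mem_closedBall_zero_iff, Prod.norm_def, max_le_iff]; rfl

theorem taylor_mem_sphere {H : ℝ} {p : Pl} :
    p ∈ Metric.sphere (0 : Pl) H ↔ |p.1| ≤ H ∧ |p.2| ≤ H ∧ (|p.1| = H ∨ |p.2| = H) := by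
  rw [mem_sphere_zero_iff_norm, Prod.norm_def, Real.norm_eq_abs, Real.norm_eq_abs]
  constructor
  · intro h
    refine ⟨h ▸ le_max_left _ _, h ▸ le_max_right _ _, ?_⟩
    rcases max_cases |p.1| |p.2| with h' | h'
    · exact Or.inl (h'.1 ▸ h)
    · exact Or.inr (h'.1 ▸ h)
  · rintro ⟨h1, h2, h | h⟩
    · rw [h]; exact max_eq_left h2
    · rw [h]; exact max_eq_right h1

theorem pathOK_ball {H : ℝ} (hH : 0 ≤ H) : PathOK H (Metric.closedBall 0 H) := by
  intro p hp
  obtain ⟨h1, h2⟩ := taylor_mem_ball.1 hp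
  have h0 : |-H| ≤ H := by rw [abs_neg, abs_of_nonneg hH]
  exact ⟨abs_le.1 h1, abs_le.1 h2, Or.inl fun t ht =>
    ⟨taylor_mem_ball.2 ⟨abs_le.2 ht, h0⟩, taylor_mem_ball.2 ⟨h1, abs_le.2 ht⟩⟩⟩

theorem pathOK_sphere {H : ℝ} (hH : 0 ≤ H) : PathOK H (Metric.sphere 0 H) := by
  intro p hp
  obtain ⟨h1, h2, h3⟩ := taylor_mem_sphere.1 hp
  have h0 : |-H| = H := by rw [abs_neg, abs_of_nonneg hH]
  refine ⟨abs_le.1 h1, abs_le.1 h2, ?_⟩
  rcases h3 with h3 | h3
  · exact Or.inl fun t ht => ⟨taylor_mem_sphere.2 ⟨abs_le.2 ht, h0.le, Or.inr h0⟩,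
      taylor_mem_sphere.2 ⟨h1, abs_le.2 ht, Or.inl h3⟩⟩
  · exact Or.inr fun t ht => ⟨taylor_mem_sphere.2 ⟨h0.le, abs_le.2 ht, Or.inl h0⟩,
      taylor_mem_sphere.2 ⟨abs_le.2 ht, h2, Or.inr h3⟩⟩

theorem taylor_path {φ : Pl → ℝ} (hφ : Sm φ) {H B : ℝ} (hH : 0 ≤ H) {K : Set Pl}
    (hK : PathOK H K) (hB : ∀ b, ∀ p ∈ K, |dd b φ p| ≤ B) :
    ∀ p ∈ K, |φ p - φ (-H, -H)| ≤ 4 * H * B := by
  intro p hp
  obtain ⟨h1, h2, h3⟩ := hK p hp
  have h0 : -H ∈ Icc (-H) H := ⟨le_rfl, by linarith⟩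
  rcases h3 with h3 | h3
  · have a1 := taylor_seg1 hφ h1 h0 fun r hr => hB false _ (h3 r hr).1
    have a2 := taylor_seg2 hφ h2 h0 fun r hr => hB true _ (h3 r hr).2
    have := abs_sub_le (φ (p.1, p.2)) (φ (p.1, -H)) (φ (-H, -H))
    exact this.trans (by linarith)
  · have a1 := taylor_seg2 hφ h2 h0 fun r hr => hB true _ (h3 r hr).1
    have a2 := taylor_seg1 hφ h1 h0 fun r hr => hB false _ (h3 r hr).2
    have := abs_sub_le (φ (p.1, p.2)) (φ (-H, p.2)) (φ (-H, -H))
    exact this.trans (by linarith)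

theorem taylor_bound {H : ℕ → ℝ} (hH : ∀ i, 0 < H i) {K : ℕ → Set Pl}
    (hK : ∀ i, PathOK (H i) (K i)) (hv : Van (fun i => (-H i, -H i)) k f) (hs : S k K f) :
    ∃ C, 0 < C ∧ ∀ i, ∀ p ∈ K i, |f.1 i p| ≤ C * H i ^ k := by
  induction k generalizing f with
  | zero => simpa using hs.bd.pos
  | succ k ih =>
    obtain ⟨C1, hC1, h1⟩ := ih (hv.der false) (hs.der false)
    obtain ⟨C2, hC2, h2⟩ := ih (hv.der true) (hs.der true)
    refine ⟨4 * (C1 + C2), by positivity, fun i p hp => ?_⟩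
    have hp0 : 0 < H i ^ k := pow_pos (hH i) k
    have := taylor_path (f.sm i) (B := (C1 + C2) * H i ^ k) (hH i).le (hK i) (fun b p hp => by
      cases b with
      | false => exact (h1 i p hp).trans (by nlinarith)
      | true => exact (h2 i p hp).trans (by nlinarith)) p hp
    rw [hv.val i, sub_zero] at this
    exact this.trans (le_of_eq (by ring))

theorem taylor_W_mono {x y : Rg} (hx1 : D false x = 1) (hx2 : D true x = 0) (hy1 : D false y = 0)
    (hy2 : D true y = 1) (c : ℕ → ℝ) (a b : ℕ) (l : List Bool) :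
    W l (cst c * x ^ a * y ^ b) =
      cst c * (a.descFactorial (l.count false) : Rg) * (b.descFactorial (l.count true) : Rg) *
        x ^ (a - l.count false) * y ^ (b - l.count true) := by
  induction l with
  | nil => simp
  | cons e l ih =>
    rw [W_cons, W_D, ih]
    cases e with
    | false =>
      simp only [D_mul, Derivation.leibniz_pow, hx1, hy1, D_cst, Derivation.map_natCast,
        List.count_cons, beq_self_eq_true, if_true, Nat.descFactorial_succ, nsmul_eq_mul,
        smul_eq_mul, Nat.sub_sub]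
      simp
      ring
    | true =>
      simp only [D_mul, Derivation.leibniz_pow, hx2, hy2, D_cst, Derivation.map_natCast,
        List.count_cons, beq_self_eq_true, if_true, Nat.descFactorial_succ, nsmul_eq_mul,
        smul_eq_mul, Nat.sub_sub]
      simp
      ring

theorem taylor_perm (l : List Bool) :
    l.Perm (List.replicate (l.count false) false ++ List.replicate (l.count true) true) := by
  rw [List.perm_iff_count]
  intro b
  cases b <;> simp [List.count_replicate]

theorem taylor_poly {H : ℕ → ℝ} (hH : ∀ i, 0 < H i ∧ H i ≤ 1)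
    (hs : S k (fun i => Metric.sphere 0 (H i)) f) :
    ∃ g : Rg, (∀ s, S s (fun i => Metric.closedBall 0 (H i)) g) ∧
      Van (fun i => (-H i, -H i)) (k + 1) (f - g) := by
  classical
  have hq : ∀ i, ((-H i, -H i) : Pl) ∈ Metric.sphere (0 : Pl) (H i) := fun i => by
    have h0 : |-H i| = H i := by rw [abs_neg, abs_of_pos (hH i).1]
    exact taylor_mem_sphere.2 ⟨h0.le, h0.le, Or.inl h0⟩
  let T : Finset (ℕ × ℕ) := (Finset.range (k + 1) ×ˢ Finset.range (k + 1)).filter
    fun m => m.1 + m.2 ≤ k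
  let w : ℕ × ℕ → List Bool := fun m => List.replicate m.1 false ++ List.replicate m.2 true
  let c : ℕ × ℕ → ℕ → ℝ := fun m i =>
    (W (w m) f).1 i (-H i, -H i) / ((m.1.factorial : ℝ) * m.2.factorial)
  refine ⟨∑ m ∈ T, cst (c m) * (cX + cst H) ^ m.1 * (cY + cst H) ^ m.2, fun s => ?_, ?_⟩
  · have hsub : ∀ i, Metric.closedBall (0 : Pl) (H i) ⊆ Metric.closedBall 0 1 := fun i =>
      Metric.closedBall_subset_closedBall (hH i).2
    have hHs : cst H ∈ SSub s (fun i => Metric.closedBall 0 (H i)) :=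
      S_cst (C := 1) fun i => by rw [abs_of_pos (hH i).1]; exact (hH i).2
    have hX : cX ∈ SSub s (fun i => Metric.closedBall 0 (H i)) := S_fix hsub _ _
    have hY : cY ∈ SSub s (fun i => Metric.closedBall 0 (H i)) := S_fix hsub _ _
    refine mem_SSub.1 (Subalgebra.sum_mem _ fun m hm => mul_mem (mul_mem ?_
      (pow_mem (add_mem hX hHs) _)) (pow_mem (add_mem hY hHs) _))
    obtain ⟨C, hC⟩ := hs (w m) (by simpa [w] using (Finset.mem_filter.1 hm).2)
    refine S_cst (C := C / ((m.1.factorial : ℝ) * m.2.factorial)) fun i => ?_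
    have hpos : 0 < (m.1.factorial : ℝ) * m.2.factorial := by positivity
    simp only [c]
    rw [abs_div, abs_of_pos hpos]
    exact div_le_div_of_nonneg_right (hC i _ (hq i)) hpos.le
  · intro l hl i
    have hlen : l.count false + l.count true ≤ k := by
      have := (taylor_perm l).length_eq
      rw [List.length_append, List.length_replicate, List.length_replicate] at this
      omega
    have hsum : ∀ (s : Finset (ℕ × ℕ)) (F : ℕ × ℕ → Rg) (p : Pl),
        (∑ m ∈ s, F m).1 i p = ∑ m ∈ s, (F m).1 i p := by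
      intro s F p
      induction s using Finset.induction_on with
      | empty => simp
      | insert a s ha ih => rw [Finset.sum_insert ha, Finset.sum_insert ha, Rg.add_ap, ih]
    rw [map_sub, map_sum, Rg.sub_ap, hsum, Finset.sum_eq_single (l.count false, l.count true)]
    · rw [taylor_W_mono (by simp) (by simp) (by simp) (by simp), W_perm (taylor_perm l)]
      simp only [Rg.mul_ap, cst_ap, Rg.natCast_ap, Nat.sub_self, pow_zero, Rg.one_ap,
        Nat.descFactorial_self, c, w]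
      field_simp
      ring
    · intro m _ hm
      rw [taylor_W_mono (by simp) (by simp) (by simp) (by simp)]
      simp only [Rg.mul_ap, cst_ap, Rg.natCast_ap, Rg.pow_ap, Rg.add_ap, cX_ap, cY_ap,
        neg_add_cancel]
      rcases lt_trichotomy m.1 (l.count false) with h1 | h1 | h1
      · simp [Nat.descFactorial_eq_zero_iff_lt.2 h1]
      · rcases lt_trichotomy m.2 (l.count true) with h2 | h2 | h2
        · simp [Nat.descFactorial_eq_zero_iff_lt.2 h2]
        · exact absurd (Prod.ext h1 h2) hm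
        · simp [zero_pow (Nat.sub_ne_zero_of_lt h2)]
      · simp [zero_pow (Nat.sub_ne_zero_of_lt h1)]
    · intro hm
      exfalso
      apply hm
      simp only [T, Finset.mem_filter, Finset.mem_product, Finset.mem_range]
      omega

end

end Vale.Agent.P229
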